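import Vale.Agent.P272.HY.Defs
import Mathlib.Algebra.Polynomial.Eval.Degree

/-!
# P272 / XT: the main line of helper177 (note 12569): frozen definitions and interface statements

`T(f) = ∫_D (1-|z|²)/π |f'|²_{w'}`, the functional `|f'(0)|²_w - lam T(f)` over all holomorphic
discs (free centre). THEOREM A: every Kähler metric `w'` with `Ric(w') ≥ -w'` satisfies
`w' ≥ c w`.
-/

open scoped Manifold ContDiff ComplexOrder Topology ENNReal
open MeasureTheory Metric Set Filter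

noncomputable section

namespace Vale.Agent.P272.XT

open Vale.Agent.P272.K Vale.Agent.P272.HY

section
variable {n : ℕ} {X : Type*} [TopologicalSpace X] [ChartedSpace (Cm n) X]

/-- `T(f) = ∫_{|z|<1} (1-|z|²)/π |f'(z)|²_w dA(z)` -/
def TW (w : Chart n X → Cm n → Matrix (Fin n) (Fin n) ℂ) (f : ℂ → X) : ℝ≥0∞ :=
  ∫⁻ z in ball (0 : ℂ) 1, ENNReal.ofReal ((1 - ‖z‖ ^ 2) / Real.pi * BR.spd w f z)

/-- `|f'(0)|²_w - lam T_{w'}(f)` -/
def PhX (w w' : Chart n X → Cm n → Matrix (Fin n) (Fin n) ℂ) (lam : ℝ) (f : ℂ → X) : ℝ :=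
  BR.spd w f 0 - lam * (TW w' f).toReal

/-- `f` maximises `PhX` among all holomorphic discs (free centre) with finite `T` -/
structure IsMaxX (w w' : Chart n X → Cm n → Matrix (Fin n) (Fin n) ℂ) (lam : ℝ) (f : ℂ → X) :
    Prop where
  holo : HolD n f
  fin : TW w' f ≠ ⊤
  max : ∀ h : ℂ → X, HolD n h → TW w' h ≠ ⊤ → PhX w w' lam h ≤ PhX w w' lam f

end

section
variable (n : ℕ) (X : Type) [TopologicalSpace X] [ChartedSpace (Cm n) X]

/-- **X4** existence of a maximiser (free centre) -/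
def X4 : Prop := Nonempty X → ∀ w w' : Chart n X → Cm n → Matrix (Fin n) (Fin n) ℂ,
  IsHermitian w → IsHermitian w' → ∀ lam M : ℝ, 0 < lam →
  (∀ f : ℂ → X, HolD n f → BR.spd w f 0 ≤ M) → ∃ f : ℂ → X, IsMaxX w w' lam f

/-- **X56** continuity of the maximiser up to the boundary -/
def X56 : Prop := ∀ w w' : Chart n X → Cm n → Matrix (Fin n) (Fin n) ℂ, IsHermitian w →
  IsHermitian w' → ∀ lam M : ℝ, 0 < lam → (∀ f : ℂ → X, HolD n f → BR.spd w f 0 ≤ M) →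
  ∀ f : ℂ → X, IsMaxX w w' lam f →
  ∃ g : ℂ → X, ContinuousOn g (closedBall 0 1) ∧ ∀ z ∈ ball (0 : ℂ) 1, g z = f z

/-- **X11a** second variation in the directions `z V` -/
def X11a : Prop := ∀ w w' : Chart n X → Cm n → Matrix (Fin n) (Fin n) ℂ, IsHermitian w →
  IsKahler w' → ∀ (lam δ : ℝ) (f : ℂ → X) (F : ℂ → Cm n → X), 0 < lam → IsMaxX w w' lam f →
  HolTube f δ F → ∀ p : Fin n → Polynomial ℂ,
  hq (pbM w F 0) (fun i => (p i).eval 0) +
    lam * ∫ z in ball (0 : ℂ) 1, ‖z‖ ^ 2 / Real.pi * hq (pbM w' F z) (fun i => (p i).eval z) ≤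
  lam * Real.circleAverage (fun z => hq (pbM w' F z) (fun i => (p i).eval z)) 0 1

/-- **X11b** second variation in all directions (moving centre) -/
def X11b : Prop := ∀ w : Chart n X → Cm n → Matrix (Fin n) (Fin n) ℂ, IsHermitian w →
  ∃ Cw : ℝ, 0 ≤ Cw ∧ ∀ w' : Chart n X → Cm n → Matrix (Fin n) (Fin n) ℂ, IsKahler w' →
  ∀ (lam δ : ℝ) (f : ℂ → X) (F : ℂ → Cm n → X), 0 < lam → IsMaxX w w' lam f →
  HolTube f δ F → ∀ p : Fin n → Polynomial ℂ,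
  lam * ∫ z in ball (0 : ℂ) 1, 1 / Real.pi * hq (pbM w' F z) (fun i => (p i).eval z) ≤
  lam * Real.circleAverage (fun z => hq (pbM w' F z) (fun i => (p i).eval z)) 0 1 +
    Cw * BR.spd w f 0 * hq (pbM w F 0) (fun i => (p i).eval 0)

/-- **X13** Jensen for `log det` with the weight `(1-|z|²)/π` -/
def X13 : Prop := ∀ w : Chart n X → Cm n → Matrix (Fin n) (Fin n) ℂ, IsHermitian w → RicGe w →
  ∀ (δ : ℝ) (f : ℂ → X) (F : ℂ → Cm n → X), HolTube f δ F → TW w f ≠ ⊤ →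
  Real.circleAverage (fun z => Real.log (pbM w F z).det.re) 0 1 - (TW w f).toReal ≤
    ∫ z in ball (0 : ℂ) 1, 1 / Real.pi * Real.log (pbM w F z).det.re

/-- **X7** the velocity `f'` in the frame of a tube -/
def X7 : Prop := ∀ (δ : ℝ) (f : ℂ → X) (F : ℂ → Cm n → X), HolTube f δ F →
  ∃ u : ℂ → Cm n, DifferentiableOn ℂ u (ball 0 1) ∧
    ∀ a : Chart n X → Cm n → Matrix (Fin n) (Fin n) ℂ, IsHermitian a →
    ∀ z ∈ ball (0 : ℂ) 1, BR.spd a f z = hq (pbM a F z) (u z)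

/-- **XRA** the lower bound of the cost `lam T(f)` at a maximiser -/
def XRA : Prop := ∀ w : Chart n X → Cm n → Matrix (Fin n) (Fin n) ℂ, IsHermitian w →
  ∀ M : ℝ, 0 < M → (∀ f : ℂ → X, HolD n f → BR.spd w f 0 ≤ M) → ∃ c₃ : ℝ, 0 < c₃ ∧
  ∀ w' : Chart n X → Cm n → Matrix (Fin n) (Fin n) ℂ, IsKahler w' → RicGe w' →
  ∀ lam : ℝ, 1 ≤ lam → ∀ f : ℂ → X, IsMaxX w w' lam f → 0 < PhX w w' lam f →
  c₃ * PhX w w' lam f ^ ((2 : ℝ) / 3) ≤ lam * (TW w' f).toReal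

/-- **XEXT** finite extinction: `|f'(0)|²_w ≤ lam_* T(f)` for all discs -/
def XEXT : Prop := ∀ w : Chart n X → Cm n → Matrix (Fin n) (Fin n) ℂ, IsHermitian w →
  ∀ M : ℝ, 0 < M → (∀ f : ℂ → X, HolD n f → BR.spd w f 0 ≤ M) → ∃ L : ℝ, 0 < L ∧
  ∀ w' : Chart n X → Cm n → Matrix (Fin n) (Fin n) ℂ, IsKahler w' → RicGe w' →
  ∀ f : ℂ → X, HolD n f → TW w' f ≠ ⊤ → BR.spd w f 0 ≤ L * (TW w' f).toReal

/-- **XSD** small discs: a bound `|f'(0)|²_w ≤ L T(f)` for all discs gives `w ≤ (L/2) w'` -/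
def XSD : Prop := ∀ w w' : Chart n X → Cm n → Matrix (Fin n) (Fin n) ℂ, IsHermitian w →
  IsHermitian w' → ∀ L : ℝ, 0 < L →
  (∀ f : ℂ → X, HolD n f → TW w' f ≠ ⊤ → BR.spd w f 0 ≤ L * (TW w' f).toReal) →
  ∀ e x, At e x → (((L / 2 : ℝ) : ℂ) • w' e (e x) - w e (e x)).PosSemidef

/-- **THEOREM A** -/
def ThmA : Prop := ∀ w : Chart n X → Cm n → Matrix (Fin n) (Fin n) ℂ, IsHermitian w →
  ∀ M : ℝ, 0 < M → (∀ f : ℂ → X, HolD n f → BR.spd w f 0 ≤ M) → ∃ c : ℝ, 0 < c ∧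
  ∀ w' : Chart n X → Cm n → Matrix (Fin n) (Fin n) ℂ, IsKahler w' → RicGe w' →
  ∀ e x, At e x → (w' e (e x) - (c : ℂ) • w e (e x)).PosSemidef

end

/-- **XAM**: positivity of `K_X`; no nefness hypothesis -/
def XAM : Prop := ∀ (n : ℕ) (_ : 1 ≤ n) (X : Type) [TopologicalSpace X] [T2Space X]
    [CompactSpace X] [ConnectedSpace X] [ChartedSpace (Cm n) X] [IsManifold 𝓘(ℂ, Cm n) ω X]
    (_ : BrodyHyperbolic n X) (w : Chart n X → Cm n → Matrix (Fin n) (Fin n) ℂ) (_ : IsKahler w),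
    ∃ φ : Chart n X → Cm n → ℝ, IsCanonicalMetric φ ∧
      ∀ e x, At e x → (cHess (φ e) (e x)).PosDef

end Vale.Agent.P272.XT
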