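import Vale.Agent.P272.XT.X4

/-! `XEXT` (the bound `|f'(0)|²_w ≤ L T(f)` for all discs) from `X4`, `XRA` and the real extinction
lemma; the real lemma. -/

open scoped Manifold ContDiff ComplexOrder Topology ENNReal
open Complex Set Filter Metric MeasureTheory

set_option linter.all false

noncomputable section

namespace Vale.Agent.P272.XT

open Vale.Agent.P272.K Vale.Agent.P272.HY Vale.Agent.P272.BR

/-- one step of the cubic comparison -/
lemma cube_step {y δ η x : ℝ} (hy : 0 < y) (hδ : 0 ≤ δ) (hη : 0 < η) (hη1 : η ≤ 1)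
    (hδy : δ ≤ η * y) (hx : 0 ≤ x) (h : y ^ 3 + δ * y ^ 2 ≤ x ^ 3) :
    y + δ / 3 * (1 - η) ≤ x := by
  set t : ℝ := δ / 3 * (1 - η) with ht
  have ht0 : 0 ≤ t := mul_nonneg (by positivity) (by linarith)
  have ht1 : t ≤ δ / 3 := by
    rw [ht]
    exact mul_le_of_le_one_right (by positivity) (by linarith)
  have h1 : (y + t) ^ 3 ≤ x ^ 3 := by
    refine le_trans ?_ h
    have e1 : (y + t) ^ 3 = y ^ 3 + 3 * t * y ^ 2 + (3 * t ^ 2 * y + t ^ 3) := by ring
    have e2 : 3 * t * y ^ 2 = δ * y ^ 2 - η * δ * y ^ 2 := by rw [ht]; ring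
    have e3 : 3 * t ^ 2 * y + t ^ 3 ≤ η * δ * y ^ 2 := by
      have a1 : t ^ 2 ≤ (δ / 3) ^ 2 := pow_le_pow_left₀ ht0 ht1 2
      have a2 : t ^ 3 ≤ (δ / 3) ^ 3 := pow_le_pow_left₀ ht0 ht1 3
      have a3 : δ ^ 2 * y ≤ η * δ * y ^ 2 := by
        have := mul_le_mul_of_nonneg_left hδy (mul_nonneg hδ hy.le)
        nlinarith
      have a4 : δ ^ 3 ≤ δ ^ 2 * y := by
        have : δ ≤ y := hδy.trans (mul_le_of_le_one_left hy.le hη1)
        nlinarith [sq_nonneg δ]
      nlinarith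
    rw [e1, e2]
    linarith
  exact le_of_pow_le_pow_left₀ (by norm_num) hx h1

/-- **extinction**: `s(l₁) ≥ s(l₂) + (l₂ - l₁) T(l₂)` and `c s^{2/3} ≤ l T` force `s = 0` at
`l = exp (3 M^{1/3} / c)` -/
theorem extinct (s T : ℝ → ℝ) (M c : ℝ) (hc : 0 < c) (hM : 0 ≤ M)
    (h0 : ∀ l, 1 ≤ l → 0 ≤ s l ∧ s l ≤ M)
    (h1 : ∀ l₁ l₂, 1 ≤ l₁ → l₁ ≤ l₂ → s l₂ + (l₂ - l₁) * T l₂ ≤ s l₁)
    (h2 : ∀ l, 1 ≤ l → 0 < s l → c * s l ^ ((2 : ℝ) / 3) ≤ l * T l) (l : ℝ)
    (hl : Real.exp (3 * M ^ ((1 : ℝ) / 3) / c) < l) : s l = 0 := by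
  by_contra hne
  set U : ℝ := Real.log l with hU
  have hexp1 : 1 ≤ Real.exp (3 * M ^ ((1 : ℝ) / 3) / c) := Real.one_le_exp (by positivity)
  have hl1 : 1 < l := lt_of_le_of_lt hexp1 hl
  have hl0 : 0 < l := by linarith
  have hU0 : 0 < U := Real.log_pos hl1
  have hUl : Real.exp U = l := Real.exp_log hl0
  have hUM : M ^ ((1 : ℝ) / 3) < U * c / 3 := by
    have : 3 * M ^ ((1 : ℝ) / 3) / c < U := by
      rw [← Real.exp_lt_exp, hUl]; exact hl
    rw [div_lt_iff₀ hc] at this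
    linarith
  have hσ : 0 < s l := lt_of_le_of_ne (h0 l hl1.le).1 (Ne.symm hne)
  -- `s` is positive and nonincreasing on `[1, l]`
  have hpos : ∀ l', 1 ≤ l' → l' ≤ l → s l ≤ s l' := by
    intro l' h1' hl'
    have hT : 0 ≤ T l := by
      have := h2 l hl1.le hσ
      have h3 : 0 ≤ c * s l ^ ((2 : ℝ) / 3) := by positivity
      have h4 : 0 ≤ l * T l := h3.trans this
      exact nonneg_of_mul_nonneg_right h4 hl0
    have := h1 l' l h1' hl'
    have h5 : 0 ≤ (l - l') * T l := mul_nonneg (by linarith) hT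
    linarith
  set y : ℝ → ℝ := fun l' => s l' ^ ((1 : ℝ) / 3) with hy
  have hy3 : ∀ l', 1 ≤ l' → y l' ^ 3 = s l' := by
    intro l' h1'
    rw [hy, ← Real.rpow_natCast, ← Real.rpow_mul (h0 l' h1').1]
    norm_num
  have hy2 : ∀ l', 1 ≤ l' → y l' ^ 2 = s l' ^ ((2 : ℝ) / 3) := by
    intro l' h1'
    rw [hy, ← Real.rpow_natCast, ← Real.rpow_mul (h0 l' h1').1]
    norm_num
  set y0 : ℝ := y l with hy0
  have hy0pos : 0 < y0 := Real.rpow_pos_of_pos hσ _
  -- the parameter `η` and the number of steps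
  obtain ⟨η, hη0, hη1, hη⟩ : ∃ η : ℝ, 0 < η ∧ η ≤ 1 ∧ M ^ ((1 : ℝ) / 3) < U * c / 3 * (1 - η) ^ 2 := by
    have hlim : Tendsto (fun η : ℝ => U * c / 3 * (1 - η) ^ 2) (𝓝[>] 0) (𝓝 (U * c / 3)) := by
      have : ContinuousAt (fun η : ℝ => U * c / 3 * (1 - η) ^ 2) 0 := by fun_prop
      have h3 := this.tendsto
      simp only [sub_zero, one_pow, mul_one] at h3
      exact h3.mono_left nhdsWithin_le_nhds
    have h4 := hlim.eventually (lt_mem_nhds hUM)
    have h5 : ∀ᶠ η : ℝ in 𝓝[>] (0:ℝ), η ≤ 1 := by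
      filter_upwards [Ioc_mem_nhdsGT (zero_lt_one (α := ℝ))] with η hη using hη.2
    obtain ⟨η, hη⟩ := (h4.and (h5.and self_mem_nhdsWithin)).exists
    exact ⟨η, hη.2.2, hη.2.1, hη.1⟩
  -- choose `N` with `h = U / N` small
  obtain ⟨N, hN⟩ : ∃ N : ℕ, 0 < N ∧ U / N * c ≤ η * y0 ∧ U / N ≤ η := by
    obtain ⟨N, hN⟩ := exists_nat_gt (max (U * c / (η * y0)) (U / η))
    have hN0 : (0:ℝ) < N := lt_of_le_of_lt (le_trans (by positivity) (le_max_left _ _)) hN
    refine ⟨N, by exact_mod_cast hN0, ?_, ?_⟩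
    · have h3 := lt_of_le_of_lt (le_max_left _ _) hN
      rw [div_lt_iff₀ (by positivity)] at h3
      rw [div_mul_eq_mul_div, div_le_iff₀ hN0]
      linarith
    · have h3 := lt_of_le_of_lt (le_max_right _ _) hN
      rw [div_lt_iff₀ hη0] at h3
      rw [div_le_iff₀ hN0]
      linarith
  obtain ⟨hN0, hN1, hN2⟩ := hN
  have hNr : (0:ℝ) < N := by exact_mod_cast hN0
  set hs : ℝ := U / N with hhs
  have hhs0 : 0 < hs := by positivity
  set δ : ℝ := (1 - Real.exp (-hs)) * c with hδ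
  have hδ0 : 0 ≤ δ := by
    have : Real.exp (-hs) ≤ 1 := Real.exp_le_one_iff.2 (by linarith)
    exact mul_nonneg (by linarith) hc.le
  have hδle : δ ≤ hs * c := by
    refine mul_le_mul_of_nonneg_right ?_ hc.le
    have := Real.add_one_le_exp (-hs)
    linarith
  have hδge : hs * (1 - η) * c ≤ δ := by
    refine mul_le_mul_of_nonneg_right ?_ hc.le
    -- `1 - e^{-h} ≥ h (1 - h) ≥ h (1 - η)`
    have h3 : Real.exp (-hs) ≤ 1 - hs + hs ^ 2 := by
      have h4 : 1 + hs ≤ Real.exp hs := by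
        have := Real.add_one_le_exp hs
        linarith
      have h5 : Real.exp (-hs) ≤ 1 / (1 + hs) := by
        rw [Real.exp_neg, ← one_div]
        exact one_div_le_one_div_of_le (by linarith) h4
      refine h5.trans ?_
      rw [div_le_iff₀ (by linarith)]
      nlinarith [mul_pos hhs0 (mul_pos hhs0 hhs0)]
    nlinarith
  have hstep : ∀ k : ℕ, k < N → y (Real.exp ((k + 1) * hs)) + δ / 3 * (1 - η) ≤
      y (Real.exp (k * hs)) := by
    intro k hk
    set l₁ := Real.exp (k * hs) with hl₁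
    set l₂ := Real.exp ((k + 1) * hs) with hl₂
    have b1 : 1 ≤ l₁ := Real.one_le_exp (by positivity)
    have b2 : l₁ ≤ l₂ := Real.exp_le_exp.2 (by nlinarith)
    have b3 : l₂ ≤ l := by
      rw [← hUl]
      refine Real.exp_le_exp.2 ?_
      have : ((k:ℝ) + 1) ≤ N := by exact_mod_cast hk
      calc ((k:ℝ) + 1) * hs ≤ N * hs := mul_le_mul_of_nonneg_right this hhs0.le
        _ = U := by rw [hhs]; field_simp
    have b4 : 1 ≤ l₂ := b1.trans b2
    have b5 : s l ≤ s l₂ := hpos l₂ b4 b3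
    have b6 : 0 < s l₂ := lt_of_lt_of_le hσ b5
    have b7 : y0 ≤ y l₂ := Real.rpow_le_rpow hσ.le b5 (by norm_num)
    have b8 := h1 l₁ l₂ b1 b2
    have b9 := h2 l₂ b4 b6
    have b10 : l₁ / l₂ = Real.exp (-hs) := by
      rw [hl₁, hl₂, ← Real.exp_sub]
      congr 1
      ring
    have hl₂0 : 0 < l₂ := by linarith
    have b11 : δ * y l₂ ^ 2 ≤ (l₂ - l₁) * T l₂ := by
      have : (l₂ - l₁) * T l₂ = (1 - Real.exp (-hs)) * (l₂ * T l₂) := by
        rw [← b10]; field_simp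
      rw [this, hδ, mul_assoc, hy2 l₂ b4]
      refine mul_le_mul_of_nonneg_left b9 ?_
      have : Real.exp (-hs) ≤ 1 := Real.exp_le_one_iff.2 (by linarith)
      linarith
    refine cube_step (lt_of_lt_of_le hy0pos b7) hδ0 hη0 hη1 ?_
      (Real.rpow_nonneg (h0 l₁ b1).1 _) ?_
    · calc δ ≤ hs * c := hδle
        _ ≤ η * y0 := hN1
        _ ≤ η * y l₂ := mul_le_mul_of_nonneg_left b7 hη0.le
    · rw [hy3 l₂ b4, hy3 l₁ b1]
      linarith
  have hsum : ∀ k : ℕ, k ≤ N → y (Real.exp (k * hs)) + k * (δ / 3 * (1 - η)) ≤ y 1 := by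
    intro k
    induction k with
    | zero => intro _; simp
    | succ k ih =>
      intro hk
      have i1 := ih (by omega)
      have i2 := hstep k (by omega)
      push_cast
      linarith
  have hfin := hsum N le_rfl
  have e1 : Real.exp (N * hs) = l := by
    rw [← hUl]
    congr 1
    rw [hhs]; field_simp
  rw [e1] at hfin
  have e2 : y 1 ≤ M ^ ((1 : ℝ) / 3) :=
    Real.rpow_le_rpow (h0 1 le_rfl).1 (h0 1 le_rfl).2 (by norm_num)
  have e3 : U * c / 3 * (1 - η) ^ 2 ≤ N * (δ / 3 * (1 - η)) := by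
    have e4 : N * (hs * (1 - η) * c / 3 * (1 - η)) ≤ N * (δ / 3 * (1 - η)) := by
      refine mul_le_mul_of_nonneg_left ?_ hNr.le
      refine mul_le_mul_of_nonneg_right ?_ (by linarith)
      linarith
    refine le_trans (le_of_eq ?_) e4
    have e5 : U = N * hs := by rw [hhs]; field_simp
    rw [e5]; ring
  linarith

/-- **XEXT** from the blocks -/
theorem xext_of (n : ℕ) (X : Type) [TopologicalSpace X] [ChartedSpace (Cm n) X]
    [T2Space X] [CompactSpace X] [IsManifold 𝓘(ℂ, Cm n) ω X] (hra : XRA n X) : XEXT n X := by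
  intro w hw M hM hbd
  obtain ⟨c₃, hc₃, hra'⟩ := hra w hw M hM hbd
  set L : ℝ := Real.exp (3 * M ^ ((1 : ℝ) / 3) / c₃) + 1 with hL
  have hL0 : 0 < L := by positivity
  refine ⟨L, hL0, fun w' hw' hric f hf hfin => ?_⟩
  haveI : Nonempty X := ⟨f 0⟩
  have hmax : ∀ lam : ℝ, 0 < lam → ∃ g : ℂ → X, IsMaxX w w' lam g := fun lam hlam =>
    x4 n X inferInstance w w' hw hw'.toIsHermitian lam M hlam hbd
  choose! g hg using hmax
  have hres := extinct (fun lam => PhX w w' lam (g lam)) (fun lam => (TW w' (g lam)).toReal) M c₃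
    hc₃ hM.le ?_ ?_ ?_ L (by rw [hL]; linarith)
  · have h1 := (hg L hL0).max f hf hfin
    have hres' : PhX w w' L (g L) = 0 := hres
    rw [hres'] at h1
    unfold PhX at h1
    linarith
  · intro l hl
    have hl0 : 0 < l := by linarith
    refine ⟨(hg l hl0).nonneg, ?_⟩
    have h1 := hbd _ (hg l hl0).holo
    have h2 : 0 ≤ l * (TW w' (g l)).toReal := mul_nonneg hl0.le ENNReal.toReal_nonneg
    simp only [PhX]
    linarith
  · intro l₁ l₂ h1 h12
    have h10 : 0 < l₁ := by linarith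
    have h20 : 0 < l₂ := by linarith
    have h3 := (hg l₁ h10).max (g l₂) (hg l₂ h20).holo (hg l₂ h20).fin
    simp only [PhX] at h3 ⊢
    linarith
  · intro l hl hpos
    exact hra' w' hw' hric l hl (g l) (hg l (by linarith)) hpos

end Vale.Agent.P272.XT
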