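import Vale.Agent.P272.S2B.Schwarz
import Vale.Agent.P272.XT.Defs
import Vale.Agent.P272.BR.B2

/-!
# P272 / XT: THEOREM A gives the positivity of the canonical bundle (block X6)
-/

open scoped Manifold ContDiff ComplexOrder Topology
open Complex Set Filter MeasureTheory Metric

noncomputable section

namespace Vale.Agent.P272.XT

open Vale.Agent.P272.K Vale.Agent.P272.S2B

variable {n : ℕ} {X : Type} [TopologicalSpace X] [ChartedSpace (Cm n) X]
variable {w : Chart n X → Cm n → Matrix (Fin n) (Fin n) ℂ}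

theorem schwarz_of_thmA (hw : IsHermitian w) {M : ℝ} (hM : 0 < M)
    (hb : ∀ f : ℂ → X, HY.HolD n f → BR.spd w f 0 ≤ M) (h : ThmA n X) : Schwarz w := by
  obtain ⟨c, hc, h2⟩ := h w hw M hM hb
  refine ⟨c⁻¹, inv_pos.2 hc, fun g hg hric e x hx => ?_⟩
  have k1 := (h2 g hg hric e x hx).smul (α := ℝ) (inv_pos.2 hc).le
  have e1 : (c⁻¹ : ℝ) • (g e (e x) - (c : ℂ) • w e (e x)) =
      ((c⁻¹ : ℝ) : ℂ) • g e (e x) - w e (e x) := by
    ext i j
    simp only [Matrix.smul_apply, Matrix.sub_apply, smul_eq_mul, Complex.real_smul]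
    have : ((c⁻¹ : ℝ) : ℂ) * (c : ℂ) = 1 := by
      rw [← Complex.ofReal_mul, inv_mul_cancel₀ hc.ne', Complex.ofReal_one]
    linear_combination (-(w e (e x) i j)) * this
  rwa [e1] at k1

/-- **X6**: THEOREM A for all `n` and `X` gives the positivity of the canonical bundle of every
compact hyperbolic Kähler manifold. -/
theorem xam (hA : ∀ (n : ℕ) (X : Type) [TopologicalSpace X] [T2Space X] [CompactSpace X]
    [ConnectedSpace X] [ChartedSpace (Cm n) X] [IsManifold 𝓘(ℂ, Cm n) ω X], ThmA n X) : XAM := by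
  intro n _ X _ _ _ _ _ _ hB w hw
  obtain ⟨M, hM, hb⟩ := HY.b2 w hw.toIsHermitian hB
  exact positive_of_schwarz hw (schwarz_of_thmA hw.toIsHermitian hM hb (hA n X))

end Vale.Agent.P272.XT
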