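import Vale.Agent.P272.XT.Defs

/-!
# P272 / XT: block `XT.XSD` (small discs)

If `|f'(0)|²_w ≤ L T(f)` for all holomorphic discs then `w ≤ (L/2) w'`.
-/

open scoped Manifold ContDiff ComplexOrder Topology ENNReal
open MeasureTheory Metric Set Filter

set_option linter.all false

noncomputable section

namespace Vale.Agent.P272.XT.SD

open Vale.Agent.P272.K Vale.Agent.P272.HY

/-- `∫_D (1-|z|²)/π dA = 1/2` -/
lemma integral_wt : ∫ z in ball (0 : ℂ) 1, (1 - ‖z‖ ^ 2) / Real.pi = 1 / 2 := by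
  rw [GJ.setIntegral_ball_polar]
  have h : ∀ p ∈ Ioo (0 : ℝ) 1 ×ˢ Ioo (-Real.pi) Real.pi,
      p.1 • ((1 - ‖GJ.pt p.1 p.2‖ ^ 2) / Real.pi) =
        (fun ρ : ℝ => ρ * (1 - ρ ^ 2) / Real.pi) p.1 * (fun _ : ℝ => (1 : ℝ)) p.2 := by
    intro p hp
    rw [GJ.norm_pt, sq_abs, smul_eq_mul]
    ring
  rw [setIntegral_congr_fun (measurableSet_Ioo.prod measurableSet_Ioo) h, Measure.volume_eq_prod,
    setIntegral_prod_mul (μ := (volume : Measure ℝ)) (ν := (volume : Measure ℝ))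
      (fun ρ : ℝ => ρ * (1 - ρ ^ 2) / Real.pi) (fun _ : ℝ => (1 : ℝ))]
  have h1 : ∫ ρ in Ioo (0 : ℝ) 1, ρ * (1 - ρ ^ 2) / Real.pi = 1 / (4 * Real.pi) := by
    rw [← integral_Ioc_eq_integral_Ioo, ← intervalIntegral.integral_of_le zero_le_one]
    have h2 : ∀ ρ : ℝ, HasDerivAt (fun ρ : ℝ => (ρ ^ 2 / 2 - ρ ^ 4 / 4) / Real.pi)
        (ρ * (1 - ρ ^ 2) / Real.pi) ρ := by
      intro ρ
      have h3 := ((((hasDerivAt_id ρ).pow 2).div_const 2).sub
        (((hasDerivAt_id ρ).pow 4).div_const 4)).div_const Real.pi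
      refine h3.congr_deriv ?_
      simp only [id]
      ring
    rw [intervalIntegral.integral_eq_sub_of_hasDerivAt (fun ρ _ => h2 ρ)]
    · field_simp; norm_num
    · exact (Continuous.intervalIntegrable (by fun_prop) 0 1)
  have h2 : ∫ _ in Ioo (-Real.pi) Real.pi, (1 : ℝ) = 2 * Real.pi := by
    rw [setIntegral_const, smul_eq_mul, mul_one, measureReal_def, Real.volume_Ioo,
      ENNReal.toReal_ofReal (by linarith [Real.pi_pos])]
    ring
  rw [h1, h2]
  have := Real.pi_pos.ne'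
  field_simp
  norm_num

lemma wt_nonneg {z : ℂ} (hz : z ∈ ball (0 : ℂ) 1) : 0 ≤ (1 - ‖z‖ ^ 2) / Real.pi := by
  have h1 : ‖z‖ < 1 := by simpa using hz
  have h2 : ‖z‖ ^ 2 ≤ 1 := by nlinarith [norm_nonneg z]
  exact div_nonneg (by linarith) Real.pi_pos.le

lemma integrableOn_wt : IntegrableOn (fun z : ℂ => (1 - ‖z‖ ^ 2) / Real.pi) (ball (0 : ℂ) 1) := by
  have h1 : ContinuousOn (fun z : ℂ => (1 - ‖z‖ ^ 2) / Real.pi) (closedBall (0 : ℂ) 1) :=
    (by fun_prop : Continuous fun z : ℂ => (1 - ‖z‖ ^ 2) / Real.pi).continuousOn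
  exact (h1.integrableOn_compact (isCompact_closedBall 0 1)).mono_set ball_subset_closedBall

section
variable {n : ℕ} {X : Type*} [TopologicalSpace X] [ChartedSpace (Cm n) X]
  {w : Chart n X → Cm n → Matrix (Fin n) (Fin n) ℂ} {f : ℂ → X}

/-- a bound on the speed gives a bound on `T` -/
lemma TW_le {K : ℝ} (hK : ∀ z ∈ ball (0 : ℂ) 1, BR.spd w f z ≤ K) :
    TW w f ≤ ENNReal.ofReal (K / 2) := by
  have h1 : TW w f ≤ ∫⁻ z in ball (0 : ℂ) 1, ENNReal.ofReal ((1 - ‖z‖ ^ 2) / Real.pi) *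
      ENNReal.ofReal K := by
    refine setLIntegral_mono' measurableSet_ball fun z hz => ?_
    rw [← ENNReal.ofReal_mul (wt_nonneg hz)]
    exact ENNReal.ofReal_le_ofReal (mul_le_mul_of_nonneg_left (hK z hz) (wt_nonneg hz))
  refine h1.trans ?_
  rw [lintegral_mul_const' _ _ ENNReal.ofReal_ne_top,
    ← ofReal_integral_eq_lintegral_ofReal integrableOn_wt
      (ae_restrict_of_forall_mem measurableSet_ball fun z hz => wt_nonneg hz), integral_wt,
    ← ENNReal.ofReal_mul (by norm_num)]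
  exact ENNReal.ofReal_le_ofReal (by linarith)

end

lemma hq_smul_real {n : ℕ} (H : Matrix (Fin n) (Fin n) ℂ) (r : ℝ) (v : Cm n) :
    hq H ((r : ℂ) • v) = r ^ 2 * hq H v := by
  have h1 := quad_smul H r v
  have h2 : ((r : ℂ) • v : Cm n) = fun i => (r : ℂ) * v i := by
    funext i; simp
  unfold hq
  rw [h2, h1, Complex.re_ofReal_mul]

lemma hq_sub_smul {n : ℕ} (A B : Matrix (Fin n) (Fin n) ℂ) (c : ℝ) (v : Cm n) :
    (quad ((c : ℂ) • A - B) v).re = c * hq A v - hq B v := by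
  unfold hq
  have h1 : quad ((c : ℂ) • A - B) v = (c : ℂ) * quad A v - quad B v := by
    unfold quad
    simp only [Matrix.sub_apply, Matrix.smul_apply, smul_eq_mul, Finset.mul_sum]
    rw [← Finset.sum_sub_distrib]
    refine Finset.sum_congr rfl fun i _ => ?_
    rw [← Finset.sum_sub_distrib]
    refine Finset.sum_congr rfl fun j _ => ?_
    ring
  rw [h1, Complex.sub_re, Complex.re_ofReal_mul]

section
variable {n : ℕ} {X : Type*} [TopologicalSpace X] [ChartedSpace (Cm n) X]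
  [IsManifold 𝓘(ℂ, Cm n) ω X]
  {w w' : Chart n X → Cm n → Matrix (Fin n) (Fin n) ℂ} {e : Chart n X} {x : X}

/-- the small affine disc `z ↦ e⁻¹(e x + ε z v)` -/
def sd (e : Chart n X) (x : X) (v : Cm n) (ε : ℝ) (z : ℂ) : X :=
  e.symm (e x + ((ε : ℂ) * z) • v)

lemma sd_zero (he : At e x) (v : Cm n) (ε : ℝ) : sd e x v ε 0 = x := by
  unfold sd
  rw [mul_zero, zero_smul, add_zero, he.left_inv]

lemma sd_hol (he : At e x) {v : Cm n} {ε : ℝ} {z : ℂ}
    (hz : e x + ((ε : ℂ) * z) • v ∈ e.target) : BR.HolAt n (sd e x v ε) z := by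
  refine BR.holAt_symm (G := fun z => e x + ((ε : ℂ) * z) • v) he.1 hz ?_
  exact (differentiableAt_const _).add (((differentiableAt_const _).mul differentiableAt_id).smul_const _)

lemma sd_vel (he : At e x) {v : Cm n} {ε : ℝ} {z : ℂ}
    (hz : e x + ((ε : ℂ) * z) • v ∈ e.target) : vel (sd e x v ε) e z = (ε : ℂ) • v := by
  have h1 : HasDerivAt (fun z : ℂ => e x + ((ε : ℂ) * z) • v) ((ε : ℂ) • v) z := by
    have h2 := (((hasDerivAt_id z).const_mul (ε : ℂ)).smul_const v).const_add (e x)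
    simpa using h2
  have h3 : (fun ζ => e (sd e x v ε ζ)) =ᶠ[𝓝 z] fun z : ℂ => e x + ((ε : ℂ) * z) • v := by
    filter_upwards [h1.continuousAt.eventually (e.open_target.mem_nhds hz)] with ζ hζ
    exact e.right_inv hζ
  exact (h1.congr_of_eventuallyEq h3).deriv

lemma sd_spd (hw : IsHermitian w) (he : At e x) {v : Cm n} {ε : ℝ} {z : ℂ}
    (hz : e x + ((ε : ℂ) * z) • v ∈ e.target) :
    BR.spd w (sd e x v ε) z = ε ^ 2 * hq (w e (e x + ((ε : ℂ) * z) • v)) v := by
  have h1 : At e (sd e x v ε z) := At.of_target he.1 hz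
  rw [BR.spd_eq hw (sd_hol he hz) h1, sd_vel he hz]
  have h2 : e (sd e x v ε z) = e x + ((ε : ℂ) * z) • v := e.right_inv hz
  rw [h2]
  exact hq_smul_real _ ε v

lemma hq_cont (hw : IsHermitian w) (he : At e x) (v : Cm n) :
    ContinuousAt (fun y => hq (w e y) v) (e x) := by
  have h1 : ∀ i j, ContinuousAt (fun y => w e y i j) (e x) := fun i j =>
    (hw.smooth e x he i j).continuousAt
  have h2 : ContinuousAt (fun y => quad (w e y) v) (e x) := by
    unfold quad
    exact tendsto_finset_sum _ fun i _ => tendsto_finset_sum _ fun j _ =>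
      (h1 i j).mul tendsto_const_nhds
  exact Complex.continuous_re.continuousAt.comp h2

theorem le_of_discs (hw : IsHermitian w) (hw' : IsHermitian w') {L : ℝ} (hL : 0 < L)
    (H : ∀ f : ℂ → X, HolD n f → TW w' f ≠ ⊤ → BR.spd w f 0 ≤ L * (TW w' f).toReal)
    (he : At e x) : (((L / 2 : ℝ) : ℂ) • w' e (e x) - w e (e x)).PosSemidef := by
  have hh1 : (w e (e x)).IsHermitian := (hw.posDef e x he).isHermitian
  have hh2 : (w' e (e x)).IsHermitian := (hw'.posDef e x he).isHermitian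
  have hh3 : (((L / 2 : ℝ) : ℂ) • w' e (e x) - w e (e x)).IsHermitian := by
    have h1 : (((L / 2 : ℝ) : ℂ) • w' e (e x)) = (L / 2 : ℝ) • w' e (e x) := by
      ext i j; simp
    rw [h1]
    exact (hh2.smul (by simp [IsSelfAdjoint])).sub hh1
  refine posSemidef_of_quad hh3 fun v => ?_
  rw [hq_sub_smul]
  -- it is enough to prove `hq w v ≤ (L/2) (hq w' v + η)`
  suffices hη : ∀ η : ℝ, 0 < η → hq (w e (e x)) v ≤ L / 2 * (hq (w' e (e x)) v + η) by
    have h1 : hq (w e (e x)) v ≤ L / 2 * hq (w' e (e x)) v := by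
      refine le_of_forall_pos_le_add fun η hη0 => ?_
      have h2 := hη (η / (L / 2)) (by positivity)
      have h3 : L / 2 * (hq (w' e (e x)) v + η / (L / 2)) = L / 2 * hq (w' e (e x)) v + η := by
        field_simp
      linarith
    linarith
  intro η hη
  have hq0 : 0 ≤ hq (w' e (e x)) v := quad_nonneg (hw'.posDef e x he).posSemidef v
  -- a radius
  have hev : ∀ᶠ y in 𝓝 (e x), y ∈ e.target ∧ hq (w' e y) v < hq (w' e (e x)) v + η := by
    have h1 := (hq_cont hw' he v).eventually (gt_mem_nhds (show hq (w' e (e x)) v <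
      hq (w' e (e x)) v + η by linarith))
    filter_upwards [he.nhds_target, h1] with y h2 h3
    exact ⟨h2, h3⟩
  obtain ⟨r, hr, hsub⟩ := Metric.eventually_nhds_iff_ball.1 hev
  set ε : ℝ := r / (‖v‖ + 1) with hεdef
  have hv1 : 0 < ‖v‖ + 1 := by positivity
  have hε : 0 < ε := div_pos hr hv1
  have hin : ∀ z ∈ ball (0 : ℂ) 1, e x + ((ε : ℂ) * z) • v ∈ ball (e x) r := by
    intro z hz
    have hz1 : ‖z‖ < 1 := by simpa using hz
    rw [mem_ball, dist_eq_norm, add_sub_cancel_left, norm_smul, norm_mul, Complex.norm_real,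
      Real.norm_of_nonneg hε.le]
    have h1 : ε * ‖z‖ * ‖v‖ ≤ ε * ‖v‖ := by
      have := mul_le_mul_of_nonneg_right hz1.le (mul_nonneg hε.le (norm_nonneg v))
      nlinarith
    have h2 : ε * ‖v‖ < r := by
      have h3 : ε * (‖v‖ + 1) = r := div_mul_cancel₀ r hv1.ne'
      nlinarith
    linarith
  have hbd : ∀ z ∈ ball (0 : ℂ) 1,
      BR.spd w' (sd e x v ε) z ≤ ε ^ 2 * (hq (w' e (e x)) v + η) := by
    intro z hz
    have h1 := hsub _ (hin z hz)
    rw [sd_spd hw' he h1.1]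
    exact mul_le_mul_of_nonneg_left h1.2.le (by positivity)
  have hT := TW_le hbd
  have hfin : TW w' (sd e x v ε) ≠ ⊤ := ne_top_of_le_ne_top ENNReal.ofReal_ne_top hT
  have hTr : (TW w' (sd e x v ε)).toReal ≤ ε ^ 2 * (hq (w' e (e x)) v + η) / 2 := by
    have h1 := ENNReal.toReal_mono ENNReal.ofReal_ne_top hT
    rwa [ENNReal.toReal_ofReal (by positivity)] at h1
  have hhol : HolD n (sd e x v ε) := fun z hz => sd_hol he (hsub _ (hin z hz)).1
  have key := H _ hhol hfin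
  have h0 : e x + ((ε : ℂ) * 0) • v ∈ e.target := by
    rw [mul_zero, zero_smul, add_zero]; exact he.mem_target
  rw [sd_spd hw he h0, mul_zero, zero_smul, add_zero] at key
  have h4 : ε ^ 2 * hq (w e (e x)) v ≤ L * (ε ^ 2 * (hq (w' e (e x)) v + η) / 2) :=
    key.trans (mul_le_mul_of_nonneg_left hTr hL.le)
  have h5 : 0 < ε ^ 2 := by positivity
  have h6 : ε ^ 2 * hq (w e (e x)) v ≤ ε ^ 2 * (L / 2 * (hq (w' e (e x)) v + η)) := by
    linarith
  exact le_of_mul_le_mul_left h6 h5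

end

end Vale.Agent.P272.XT.SD

namespace Vale.Agent.P272.XT

open Vale.Agent.P272.K Vale.Agent.P272.HY

/-- **XSD** small discs -/
theorem xsd (n : ℕ) (X : Type) [TopologicalSpace X] [ChartedSpace (Cm n) X]
    [IsManifold 𝓘(ℂ, Cm n) ω X] : XSD n X := fun w w' hw hw' L hL H e x he =>
  SD.le_of_discs hw hw' hL H he

end Vale.Agent.P272.XT
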