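import Vale.Agent.P272.XT.RA5

/-! P272 / XT: real inequality behind `XRA` and small lemmas on scaled matrices. -/

open scoped ContDiff ComplexOrder Topology ENNReal
open MeasureTheory Metric Set Filter Real

set_option linter.all false

noncomputable section

namespace Vale.Agent.P272.XT.RAG

open Vale.Agent.P272.K Vale.Agent.P272.HY Vale.Agent.P272.XT

/-- the real inequality: cost bound from `core` gives `c₃ s^{2/3} ≤ cost` -/
lemma ra_real {a b B K M : ℝ} (ha : 0 < a) (haM : a ≤ M) (hK : 0 < K) (hB0 : 0 ≤ B)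
    (hBK : B ≤ K * a) (hcost : a * (xx B / (2 - xx B)) ≤ b) (hs : 0 < a - b) :
    Real.exp (-2 * ((K * √M + √(2 * K)) * √M)) / 2 *
      (4 * (K * √M + √(2 * K))) ^ (-(2 / 3) : ℝ) * (a - b) ^ ((2 : ℝ) / 3) ≤ b := by
  set K₁ : ℝ := K * √M + √(2 * K) with hK₁
  have hM : 0 < M := ha.trans_le haM
  have hK₁0 : 0 < K₁ := by
    have : 0 < √(2 * K) := Real.sqrt_pos.2 (by linarith)
    positivity
  set s : ℝ := √a with hsa
  have hs0 : 0 < s := Real.sqrt_pos.2 ha
  have hss : s * s = a := Real.mul_self_sqrt ha.le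
  have hsM : s ≤ √M := Real.sqrt_le_sqrt haM
  -- `L ≤ K₁ √a`
  set L : ℝ := B + √(2 * B) with hL
  have hL0 : 0 ≤ L := by positivity
  have hL1 : L ≤ K₁ * s := by
    have h1 : √(2 * B) ≤ √(2 * K) * s := by
      rw [hsa, ← Real.sqrt_mul (by positivity)]
      exact Real.sqrt_le_sqrt (by nlinarith)
    have h2 : B ≤ K * √M * s := by
      calc B ≤ K * (s * s) := by rw [hss]; exact hBK
        _ = K * s * s := by ring
        _ ≤ K * √M * s := by gcongr
    rw [hL, hK₁, add_mul]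
    linarith
  have hxx : xx B = Real.exp (-2 * L) := rfl
  set x : ℝ := xx B with hx
  have hx0 : 0 < x := by rw [hxx]; exact Real.exp_pos _
  have hx1 : x ≤ 1 := by rw [hxx]; exact Real.exp_le_one_iff.2 (by linarith)
  have hxL : 1 - 2 * L ≤ x := by
    have := Real.add_one_le_exp (-2 * L)
    rw [hxx]; linarith
  have hxm : Real.exp (-2 * (K₁ * √M)) ≤ x := by
    rw [hxx]
    refine Real.exp_le_exp.2 ?_
    have : L ≤ K₁ * √M := hL1.trans (by gcongr)
    linarith
  have hb1 : a * (Real.exp (-2 * (K₁ * √M)) / 2) ≤ b := by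
    refine le_trans ?_ hcost
    refine mul_le_mul_of_nonneg_left ?_ ha.le
    rw [div_le_div_iff₀ (by norm_num) (by linarith)]
    nlinarith [Real.exp_pos (-2 * (K₁ * √M))]
  have hsl : a - b ≤ 4 * K₁ * (a * s) := by
    have h1 : a * (1 - x) * 2 ≥ a - b := by
      have h2 : x / (2 - x) ≥ 1 - 2 * (1 - x) := by
        rw [ge_iff_le, le_div_iff₀ (by linarith)]
        nlinarith
      nlinarith [mul_le_mul_of_nonneg_left h2 ha.le]
    have h3 : 1 - x ≤ 2 * (K₁ * s) := by linarith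
    nlinarith [mul_le_mul_of_nonneg_left h3 ha.le]
  have hpow : (a - b) ^ ((2 : ℝ) / 3) ≤ (4 * K₁) ^ ((2 : ℝ) / 3) * a := by
    calc (a - b) ^ ((2 : ℝ) / 3) ≤ (4 * K₁ * (a * s)) ^ ((2 : ℝ) / 3) :=
          Real.rpow_le_rpow hs.le hsl (by norm_num)
      _ = (4 * K₁) ^ ((2 : ℝ) / 3) * (a * s) ^ ((2 : ℝ) / 3) :=
          Real.mul_rpow (by positivity) (by positivity)
      _ = (4 * K₁) ^ ((2 : ℝ) / 3) * a := by
          congr 1
          have h1 : a * s = a ^ ((3 : ℝ) / 2) := by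
            rw [hsa, Real.sqrt_eq_rpow]
            conv_lhs => rw [← Real.rpow_one a, ← Real.rpow_mul (by positivity),
              ← Real.rpow_add ha]
            norm_num
          rw [h1, ← Real.rpow_mul ha.le]
          norm_num
  have h5 : (4 * K₁) ^ (-(2 / 3) : ℝ) * (a - b) ^ ((2 : ℝ) / 3) ≤ a := by
    calc (4 * K₁) ^ (-(2 / 3) : ℝ) * (a - b) ^ ((2 : ℝ) / 3) ≤
          (4 * K₁) ^ (-(2 / 3) : ℝ) * ((4 * K₁) ^ ((2 : ℝ) / 3) * a) :=
            mul_le_mul_of_nonneg_left hpow (by positivity)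
      _ = a := by
          rw [← mul_assoc, ← Real.rpow_add (by positivity)]
          norm_num
  calc Real.exp (-2 * (K₁ * √M)) / 2 * (4 * K₁) ^ (-(2 / 3) : ℝ) * (a - b) ^ ((2 : ℝ) / 3)
      = Real.exp (-2 * (K₁ * √M)) / 2 *
        ((4 * K₁) ^ (-(2 / 3) : ℝ) * (a - b) ^ ((2 : ℝ) / 3)) := by ring
    _ ≤ Real.exp (-2 * (K₁ * √M)) / 2 * a := mul_le_mul_of_nonneg_left h5 (by positivity)
    _ ≤ b := by linarith [mul_comm a (Real.exp (-2 * (K₁ * √M)) / 2)]

section
variable {n : ℕ}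

lemma hq_smul_real (M : Matrix (Fin n) (Fin n) ℂ) (r : ℝ) (v : Cm n) :
    hq ((r : ℂ) • M) v = r * hq M v := by
  unfold hq quad
  rw [← Complex.re_ofReal_mul]
  congr 1
  simp only [Matrix.smul_apply, smul_eq_mul, Finset.mul_sum]
  refine Finset.sum_congr rfl fun i _ => Finset.sum_congr rfl fun j _ => ?_
  ring

lemma posDef_smul {M : Matrix (Fin n) (Fin n) ℂ} (hM : M.PosDef) {r : ℝ} (hr : 0 < r) :
    ((r : ℂ) • M).PosDef := by
  have e : ((r : ℂ) • M) = r • M := by ext i j; simp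
  rw [e]
  exact hM.smul hr

lemma logdet_smul {M : Matrix (Fin n) (Fin n) ℂ} (hM : M.PosDef) {r : ℝ} (hr : 0 < r) :
    Real.log ((r : ℂ) • M).det.re = n * Real.log r + Real.log M.det.re := by
  have h1 : 0 < M.det.re := det_re_pos hM
  rw [Matrix.det_smul, Fintype.card_fin, ← Complex.ofReal_pow, Complex.re_ofReal_mul,
    Real.log_mul (by positivity) h1.ne', Real.log_pow]

lemma int_unit : ∫ z in ball (0 : ℂ) 1, 1 / Real.pi = 1 := by
  rw [setIntegral_const, smul_eq_mul]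
  have : volume.real (ball (0 : ℂ) 1) = Real.pi := by
    rw [Measure.real, Complex.volume_ball]
    simp
  rw [this]
  field_simp

end

end Vale.Agent.P272.XT.RAG
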