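import Vale.Agent.P272.XT.Defs
import Vale.Agent.P272.XT.RAG1
import Vale.Agent.P272.HY.Blocks

/-! P272 / XT: `XRA` from `core` and the landed blocks `X56`, `B9`, `X11a`, `X11b`, `X13`, `X7`,
`B13a`. -/

open scoped Manifold ContDiff ComplexOrder Topology ENNReal
open MeasureTheory Metric Set Filter

set_option linter.all false

noncomputable section

namespace Vale.Agent.P272.XT.RAG

open Vale.Agent.P272.K Vale.Agent.P272.HY Vale.Agent.P272.XT

section
variable {n : ℕ} {X : Type} [TopologicalSpace X] [ChartedSpace (Cm n) X]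
  {w w' : Chart n X → Cm n → Matrix (Fin n) (Fin n) ℂ} {f g : ℂ → X} {lam : ℝ}

lemma holD_congr (hf : HolD n f) (h : ∀ z ∈ ball (0 : ℂ) 1, g z = f z) : HolD n g := by
  intro z hz
  refine (hf z hz).congr ?_
  filter_upwards [isOpen_ball.mem_nhds hz] with ζ hζ using h ζ hζ

lemma spd_congr_ball (w : Chart n X → Cm n → Matrix (Fin n) (Fin n) ℂ)
    (h : ∀ z ∈ ball (0 : ℂ) 1, g z = f z) {z : ℂ} (hz : z ∈ ball (0 : ℂ) 1) :
    BR.spd w g z = BR.spd w f z :=
  BR.spd_congr (by filter_upwards [isOpen_ball.mem_nhds hz] with ζ hζ using h ζ hζ)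

lemma TW_congr (w : Chart n X → Cm n → Matrix (Fin n) (Fin n) ℂ)
    (h : ∀ z ∈ ball (0 : ℂ) 1, g z = f z) : TW w g = TW w f := by
  unfold TW
  refine setLIntegral_congr_fun measurableSet_ball fun z hz => ?_
  simp only [spd_congr_ball w h hz]

lemma PhX_congr (h : ∀ z ∈ ball (0 : ℂ) 1, g z = f z) : PhX w w' lam g = PhX w w' lam f := by
  unfold PhX
  rw [TW_congr w' h, spd_congr_ball w h (mem_ball_self one_pos)]

lemma IsMaxX_congr (hf : IsMaxX w w' lam f) (h : ∀ z ∈ ball (0 : ℂ) 1, g z = f z) :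
    IsMaxX w w' lam g :=
  ⟨holD_congr hf.holo h, by rw [TW_congr w' h]; exact hf.fin, fun k hk hT => by
    rw [PhX_congr h]; exact hf.max k hk hT⟩

/-- `TW` of a disc in the frame of a tube -/
lemma TW_frame {F : ℂ → Cm n → X} {u : ℂ → Cm n} {P : ℂ → Matrix (Fin n) (Fin n) ℂ}
    (hP : ContinuousOn P (closedBall 0 1)) (hPpd : ∀ z ∈ closedBall (0 : ℂ) 1, (P z).PosDef)
    (hu : DifferentiableOn ℂ u (ball 0 1))
    (hus : ∀ z ∈ ball (0 : ℂ) 1, BR.spd w' g z = hq (P z) (u z)) (hT : TW w' g ≠ ⊤) :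
    IntegrableOn (fun z => (1 - ‖z‖ ^ 2) / Real.pi * hq (P z) (u z)) (ball 0 1) ∧
      (TW w' g).toReal = ∫ z in ball (0 : ℂ) 1, (1 - ‖z‖ ^ 2) / Real.pi * hq (P z) (u z) := by
  have hTe : TW w' g = ∫⁻ z in ball (0 : ℂ) 1,
      ENNReal.ofReal ((1 - ‖z‖ ^ 2) / Real.pi * hq (P z) (u z)) := by
    unfold TW
    refine setLIntegral_congr_fun measurableSet_ball fun z hz => ?_
    simp only [hus z hz]
  have hcont : ContinuousOn (fun z => (1 - ‖z‖ ^ 2) / Real.pi * hq (P z) (u z)) (ball (0 : ℂ) 1) :=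
    (by fun_prop : Continuous fun z : ℂ => (1 - ‖z‖ ^ 2) / Real.pi).continuousOn.mul
      (continuousOn_hq (hP.mono ball_subset_closedBall) hu.continuousOn)
  have hmeas : AEStronglyMeasurable (fun z => (1 - ‖z‖ ^ 2) / Real.pi * hq (P z) (u z))
      (volume.restrict (ball (0 : ℂ) 1)) := hcont.aestronglyMeasurable measurableSet_ball
  have hnn : 0 ≤ᵐ[volume.restrict (ball (0 : ℂ) 1)]
      fun z => (1 - ‖z‖ ^ 2) / Real.pi * hq (P z) (u z) := by
    filter_upwards [ae_restrict_mem measurableSet_ball] with z hz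
    have h1 : ‖z‖ < 1 := by simpa using hz
    have h2 : 0 ≤ hq (P z) (u z) :=
      quad_nonneg (hPpd z (ball_subset_closedBall hz)).posSemidef _
    have h3 : 0 ≤ 1 - ‖z‖ ^ 2 := by nlinarith [norm_nonneg z]
    have := Real.pi_pos
    simp only [Pi.zero_apply]
    positivity
  have hint : IntegrableOn (fun z => (1 - ‖z‖ ^ 2) / Real.pi * hq (P z) (u z)) (ball 0 1) := by
    refine ⟨hmeas, ?_⟩
    rw [hasFiniteIntegral_iff_ofReal hnn, ← hTe]
    exact lt_top_iff_ne_top.2 hT
  refine ⟨hint, ?_⟩
  rw [integral_eq_lintegral_of_nonneg_ae hnn hmeas, ← hTe]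

/-- **XRA from the blocks** -/
theorem xra_of (h56 : X56 n X) (h9 : HY.B9 n X) (h11a : X11a n X) (h11b : X11b n X)
    (h13 : X13 n X) (h7 : X7 n X) (h13a : HY.B13a n X) : XRA n X := by
  intro w hw M hM hbd
  obtain ⟨Cw, hCw, h11b'⟩ := h11b w hw
  have hn0 : (0 : ℝ) ≤ n := Nat.cast_nonneg n
  set K : ℝ := n * Cw + 1 with hK
  have hK0 : 0 < K := by positivity
  refine ⟨Real.exp (-2 * ((K * √M + √(2 * K)) * √M)) / 2 *
      (4 * (K * √M + √(2 * K))) ^ (-(2 / 3) : ℝ), ?_, ?_⟩
  · have : 0 < √(2 * K) := Real.sqrt_pos.2 (by linarith)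
    positivity
  intro w' hw' hric lam hlam f₀ hf₀ hpos
  have hlam0 : 0 < lam := by linarith
  obtain ⟨f, hfc, hff⟩ := h56 w w' hw hw'.toIsHermitian lam M hlam0 hbd f₀ hf₀
  have hf : IsMaxX w w' lam f := IsMaxX_congr hf₀ hff
  rw [← PhX_congr hff] at hpos ⊢
  rw [← TW_congr w' hff]
  clear hf₀ hff f₀
  obtain ⟨δ, F, hF⟩ := h9 f hfc hf.holo
  obtain ⟨u, hu, hus⟩ := h7 δ f F hF
  obtain ⟨hPc, hPpd⟩ := h13a w' hw'.toIsHermitian δ f F hF
  have hQpd := (h13a w hw δ f F hF).2 0 (mem_closedBall_self zero_le_one)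
  have hT := hf.fin
  -- the scaled matrix
  set P : ℂ → Matrix (Fin n) (Fin n) ℂ := fun z => (lam : ℂ) • pbM w' F z with hPdef
  have hPc' : ContinuousOn P (closedBall 0 1) := hPc.const_smul (lam : ℂ)
  have hPpd' : ∀ z ∈ closedBall (0 : ℂ) 1, (P z).PosDef := fun z hz =>
    posDef_smul (hPpd z hz) hlam0
  have hhq : ∀ z v, hq (P z) v = lam * hq (pbM w' F z) v := fun z v => hq_smul_real _ _ _
  set a : ℝ := BR.spd w f 0 with ha
  have haQ : a = hq (pbM w F 0) (u 0) := hus w hw 0 (mem_ball_self one_pos)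
  have haM : a ≤ M := hbd f hf.holo
  set T : ℝ := (TW w' f).toReal with hTdef
  have hT0 : 0 ≤ T := ENNReal.toReal_nonneg
  obtain ⟨hint, hTi⟩ := TW_frame (w' := w') (g := f) (F := F) hPc hPpd hu
    (fun z hz => hus w' hw'.toIsHermitian z hz) hT
  have hs : 0 < a - lam * T := hpos
  have hcost0 : 0 ≤ lam * T := by positivity
  have hTa : T ≤ a := by nlinarith
  have ha0 : 0 < a := by linarith
  have hint' : IntegrableOn (fun z => (1 - ‖z‖ ^ 2) / Real.pi * hq (P z) (u z)) (ball 0 1) := by
    refine (hint.const_mul lam).congr (Eventually.of_forall fun z => ?_)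
    simp only [hhq]
    ring
  have hcost : ∫ z in ball (0 : ℂ) 1, (1 - ‖z‖ ^ 2) / Real.pi * hq (P z) (u z) = lam * T := by
    rw [hTdef, hTi, ← integral_const_mul]
    refine integral_congr_ae (Eventually.of_forall fun z => ?_)
    simp only [hhq]
    ring
  have hca : ∀ p : Fin n → Polynomial ℂ,
      Real.circleAverage (fun z => hq (P z) (fun i => (p i).eval z)) 0 1 =
        lam * Real.circleAverage (fun z => hq (pbM w' F z) (fun i => (p i).eval z)) 0 1 := by
    intro p
    rw [← smul_eq_mul lam, ← Real.circleAverage_fun_smul]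
    simp only [hhq, smul_eq_mul]
  have hlogdet : ∀ z ∈ closedBall (0 : ℂ) 1, Real.log (P z).det.re =
      n * Real.log lam + Real.log (pbM w' F z).det.re := fun z hz => logdet_smul (hPpd z hz) hlam0
  have hldc : ContinuousOn (fun z => Real.log (pbM w' F z).det.re) (closedBall 0 1) :=
    continuousOn_logdet hPc hPpd
  have key := core P hPc' hPpd' u hu (pbM w F 0) hQpd.posSemidef (Cw * a) T (by positivity) hT0
    (by
      intro p
      rw [hca p]
      refine le_trans (le_of_eq ?_) (h11a w w' hw hw' lam δ f F hlam0 hf hF p)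
      congr 1
      rw [← integral_const_mul]
      refine integral_congr_ae (Eventually.of_forall fun z => ?_)
      simp only [hhq]
      ring)
    (by
      intro p
      rw [hca p]
      refine le_trans (le_of_eq ?_) (h11b' w' hw' lam δ f F hlam0 hf hF p)
      rw [← integral_const_mul]
      refine integral_congr_ae (Eventually.of_forall fun z => ?_)
      simp only [hhq]
      ring)
    (by
      have hJ := h13 w' hw'.toIsHermitian hric δ f F hF hT
      have h1 : Real.circleAverage (fun z => Real.log (P z).det.re) 0 1 =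
          n * Real.log lam +
            Real.circleAverage (fun z => Real.log (pbM w' F z).det.re) 0 1 := by
        rw [Real.circleAverage_congr_sphere (f₂ := fun z => n * Real.log lam +
          Real.log (pbM w' F z).det.re) (fun z hz => hlogdet z (by
            rw [abs_one] at hz; exact sphere_subset_closedBall hz))]
        rw [Real.circleAverage_fun_add (circleIntegrable_const _ _ _)
          ((hldc.mono sphere_subset_closedBall).circleIntegrable zero_le_one),
          Real.circleAverage_const]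
      have hi : IntegrableOn (fun z => 1 / Real.pi * Real.log (pbM w' F z).det.re)
          (ball (0 : ℂ) 1) := by
        have h2 : IntegrableOn (fun z => Real.log (pbM w' F z).det.re) (closedBall (0 : ℂ) 1) :=
          hldc.integrableOn_compact (isCompact_closedBall _ _)
        exact (h2.mono_set ball_subset_closedBall).const_mul _
      have h3 : ∫ z in ball (0 : ℂ) 1, 1 / Real.pi * Real.log (P z).det.re =
          n * Real.log lam + ∫ z in ball (0 : ℂ) 1,
            1 / Real.pi * Real.log (pbM w' F z).det.re := by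
        rw [setIntegral_congr_fun (g := fun z => n * Real.log lam * (1 / Real.pi) +
          1 / Real.pi * Real.log (pbM w' F z).det.re) measurableSet_ball (fun z hz => by
            simp only [hlogdet z (ball_subset_closedBall hz)]; ring)]
        rw [integral_add _ hi, integral_const_mul, int_unit, mul_one]
        exact integrableOn_const (by simp) enorm_ne_top
      rw [h1, h3]
      linarith)
    hint' (by rw [← haQ]; exact ha0)
  rw [← haQ, hcost] at key
  have hB0 : 0 ≤ n * (Cw * a) + T := by positivity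
  have hBK : n * (Cw * a) + T ≤ K * a := by
    rw [hK]; nlinarith
  exact ra_real ha0 haM hK0 hB0 hBK key hs

end

end Vale.Agent.P272.XT.RAG
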