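import Vale.Agent.P272.XT.Curv
import Vale.Agent.P272.XT.Defs
import Vale.Agent.P272.GJ.PolyVar
import Vale.Agent.P272.GJ.Star
import Vale.Agent.P272.EX.Gam

/-!
# P272 / XT: the second variation inequalities X11a, X11b
(helper453: `second_variation_poly`; helper856: the families `EX.Gam`; helper441: curvature term)
-/

open scoped Manifold ContDiff ComplexOrder Topology ENNReal
open MeasureTheory Metric Set Filter

set_option linter.all false

noncomputable section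

namespace Vale.Agent.P272.XT.SV

open Vale.Agent.P272.K Vale.Agent.P272.BR Vale.Agent.P272.HY Vale.Agent.P272.GJ
  Vale.Agent.P272.EX Vale.Agent.P272.XT

section
variable {n : ℕ} {X : Type*} [TopologicalSpace X] [ChartedSpace (Cm n) X]
  [IsManifold 𝓘(ℂ, Cm n) ω X]
  {w w' : Chart n X → Cm n → Matrix (Fin n) (Fin n) ℂ} {δ lam : ℝ} {f : ℂ → X}
  {F : ℂ → Cm n → X} {W : ℂ → Cm n}

lemma gam_zero_ev (hF : HolTube f δ F) {z : ℂ} (hz : z ∈ ball (0 : ℂ) 1) :
    Gam F W 0 =ᶠ[𝓝 z] f := by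
  filter_upwards [isOpen_ball.mem_nhds hz] with ζ hζ
  exact gam_zero hF (ball_subset_closedBall hζ)

lemma gam_holD {ε : ℝ} (hF : HolTube f δ F) (hW : Differentiable ℂ W)
    (hε : ∀ s ∈ ball (0 : ℂ) ε, ∀ z ∈ closedBall (0 : ℂ) 1, s • W z ∈ ball (0 : Cm n) δ)
    {s : ℂ} (hs : s ∈ ball (0 : ℂ) ε) : HolD n (Gam F W s) := fun z hz =>
  (gam_holAt2 hF hW hε hs hz).snd

/-- the second variation with a free centre -/
theorem sv (hw : IsHermitian w) (hw' : IsKahler w') (hlam : 0 < lam) (hm : IsMaxX w w' lam f)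
    (hF : HolTube f δ F) (hW : Differentiable ℂ W) :
    ddb (fun s => spd w (Gam F W s) 0) 0 ≤ lam * JJ (fun z => hq (pbM w' F z) (W z)) 1 := by
  have hwH := hw'.toIsHermitian
  obtain ⟨ε, hε0, hε⟩ := exists_eps (W := W) hF.pos hW.continuous.continuousOn
  have hol : ∀ s ∈ ball (0 : ℂ) ε, ∀ z ∈ ball (0 : ℂ) 1, HolAt2 n (Gam F W) (s, z) :=
    fun s hs z hz => gam_holAt2 hF hW hε hs hz
  have hev : ∀ {s z : ℂ}, s ∈ ball (0 : ℂ) ε → z ∈ ball (0 : ℂ) 1 →
      ∀ᶠ q in 𝓝 ((s, z) : ℂ × ℂ), HolAt2 n (Gam F W) q := fun {s z} hs hz =>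
    ev_of_prod hol hs hz
  have h00 : (0 : ℂ) ∈ ball (0 : ℂ) ε := mem_ball_self hε0
  have h01 : (0 : ℂ) ∈ ball (0 : ℂ) 1 := mem_ball_self one_pos
  have hspd0 : ∀ (a : Chart n X → Cm n → Matrix (Fin n) (Fin n) ℂ), ∀ z ∈ ball (0 : ℂ) 1,
      spd a (Gam F W 0) z = spd a f z := fun a z hz => spd_congr (gam_zero_ev hF hz)
  have hTW0 : TW w' (Gam F W 0) = TW w' f := by
    unfold TW
    refine setLIntegral_congr_fun measurableSet_ball fun z hz => ?_
    simp only [hspd0 w' z hz]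
  have hB2 : ∀ s ∈ ball (0 : ℂ) ε, ContDiffAt ℝ 2 (fun s => spd w (Gam F W s) 0) s := fun s hs =>
    contDiffAt_spd_slice hw (hev hs h01)
  have hJJ : JJ (fun z => spd w' (fun σ => Gam F W σ z) 0) 1 =
      JJ (fun z => hq (pbM w' F z) (W z)) 1 := by
    have h1 : ∀ z ∈ closedBall (0 : ℂ) 1, spd w' (fun σ => Gam F W σ z) 0 =
        hq (pbM w' F z) (W z) := fun z hz => gam_spd_zero hwH hF hε hε0 hz
    unfold JJ
    rw [Real.circleAverage_congr_sphere (f₁ := fun z => spd w' (fun σ => Gam F W σ z) 0)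
      (f₂ := fun z => hq (pbM w' F z) (W z)) fun z hz => h1 z (by
        rw [abs_one] at hz; exact sphere_subset_closedBall hz),
      setIntegral_congr_fun measurableSet_ball fun z hz => h1 z (ball_subset_closedBall hz)]
  refine le_of_forall_lt fun c hc => ?_
  obtain ⟨c', hc1, hc2⟩ := exists_between hc
  refine lt_of_lt_of_le hc1 ?_
  rw [← hJJ]
  refine second_variation_poly (Θ := fun s z => spd w' (Gam F W s) z)
    (Ξ := fun s z => spd w' (fun σ => Gam F W σ z) s) (B := fun s => spd w (Gam F W s) 0) hε0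
    (fun s hs z hz => (contDiffAt_spd_snd hwH (hev hs hz)).of_le two_le_infty)
    (fun s hs z hz => (contDiffAt_spd_fst hwH (hev hs hz)).of_le two_le_infty)
    (fun s hs z hz => spd_identity hw' (hev hs hz))
    (fun s hs z hz => spd_nonneg hwH _ _)
    (gam_spd_cont hwH hF hW.continuous hε)
    (fun s hs => (hB2 s hs).continuousAt.continuousWithinAt)
    (avg_of_ddb (hB2 0 h00) hc2) hlam.le ?_ ?_
  · show TW w' (Gam F W 0) ≠ ⊤
    rw [hTW0]; exact hm.fin
  · intro s hs hT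
    have h1 := hm.max (Gam F W s) (gam_holD hF hW hε hs) hT
    unfold PhX at h1
    have h2 : TP (fun z => spd w' (Gam F W 0) z) = TW w' f := hTW0
    have h3 : TP (fun z => spd w' (Gam F W s) z) = TW w' (Gam F W s) := rfl
    simp only [h2, h3, hspd0 w 0 h01]
    linarith

end

section
variable {n : ℕ}

/-- the polynomial field -/
def pf (p : Fin n → Polynomial ℂ) (z : ℂ) : Cm n := fun i => (p i).eval z

lemma pf_diff (p : Fin n → Polynomial ℂ) : Differentiable ℂ (pf p) :=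
  differentiable_pi.2 fun i => (p i).differentiable

lemma hq_smul (H : Matrix (Fin n) (Fin n) ℂ) (a : ℂ) (v : Cm n) :
    hq H (a • v) = ‖a‖ ^ 2 * hq H v := quad_smul' H a v

lemma JJ_one (φ : ℂ → ℝ) : JJ φ 1 = Real.circleAverage φ 0 1 -
    ∫ z in ball (0 : ℂ) 1, 1 / Real.pi * φ z := by
  unfold JJ
  rw [integral_const_mul]
  ring

lemma JJ_one_smul (φ : ℂ → ℝ) : JJ (fun z => ‖z‖ ^ 2 * φ z) 1 = Real.circleAverage φ 0 1 -
    ∫ z in ball (0 : ℂ) 1, ‖z‖ ^ 2 / Real.pi * φ z := by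
  rw [JJ_one]
  congr 1
  · refine Real.circleAverage_congr_sphere fun z hz => ?_
    have : ‖z‖ = 1 := by simpa using hz
    simp [this]
  · refine integral_congr_ae (Filter.Eventually.of_forall fun z => ?_)
    ring

variable {X : Type*} [TopologicalSpace X] [ChartedSpace (Cm n) X]
  [IsManifold 𝓘(ℂ, Cm n) ω X]
  {w w' : Chart n X → Cm n → Matrix (Fin n) (Fin n) ℂ} {δ lam : ℝ} {f : ℂ → X}
  {F : ℂ → Cm n → X}

theorem x11a_aux (hw : IsHermitian w) (hw' : IsKahler w') (hlam : 0 < lam)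
    (hm : IsMaxX w w' lam f) (hF : HolTube f δ F) (p : Fin n → Polynomial ℂ) :
    hq (pbM w F 0) (pf p 0) +
      lam * ∫ z in ball (0 : ℂ) 1, ‖z‖ ^ 2 / Real.pi * hq (pbM w' F z) (pf p z) ≤
    lam * Real.circleAverage (fun z => hq (pbM w' F z) (pf p z)) 0 1 := by
  set W : ℂ → Cm n := fun z => z • pf p z with hWdef
  have hW : Differentiable ℂ W := differentiable_id.smul (pf_diff p)
  have h00 : (0 : ℂ) ∈ closedBall (0 : ℂ) 1 := mem_closedBall_self zero_le_one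
  have h01 : (0 : ℂ) ∈ ball (0 : ℂ) 1 := mem_ball_self one_pos
  have key := sv hw hw' hlam hm hF hW
  obtain ⟨ε, hε0, hε⟩ := exists_eps (W := W) hF.pos hW.continuous.continuousOn
  have hev : ∀ᶠ q in 𝓝 (((0 : ℂ), (0 : ℂ)) : ℂ × ℂ), HolAt2 n (Gam F W) q :=
    ev_of_prod (fun s hs z hz => gam_holAt2 hF hW hε hs hz) (mem_ball_self hε0) h01
  set e : Chart n X := chartAt (Cm n) (F 0 0) with hedef
  have he : At e (F 0 0) := at_chartAt _
  have hef : At e (f 0) := by rw [← hF.zero 0 h00]; exact he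
  have heg : At e (Gam F W 0 0) := by rw [gam_zero hF h00]; exact hef
  have hv0 : vel (fun σ => Gam F W σ 0) e 0 = 0 := by
    rw [gam_vel_zero hF hε hε0 h00 hef]
    simp [hWdef]
  have h1 := curv_eq hw hev heg hv0
  rw [deriv_vel_symm hev heg, (gam_mixed hF (pf_diff p).continuous hε hε0 hef).deriv] at h1
  have h2 : ddb (fun s => spd w (Gam F W s) 0) 0 = hq (pbM w F 0) (pf p 0) := by
    rw [h1, hq, PB.pbM_eq hw hF h00 he, quad_change, gam_zero hF h00, ← hF.zero 0 h00]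
  rw [h2] at key
  have h3 : (fun z => hq (pbM w' F z) (W z)) =
      fun z => ‖z‖ ^ 2 * hq (pbM w' F z) (pf p z) := by
    funext z
    exact hq_smul _ _ _
  rw [h3, JJ_one_smul] at key
  linarith

theorem x11b_aux [CompactSpace X] (hw : IsHermitian w) : ∃ Cw : ℝ, 0 ≤ Cw ∧
    ∀ w' : Chart n X → Cm n → Matrix (Fin n) (Fin n) ℂ, IsKahler w' →
    ∀ (lam δ : ℝ) (f : ℂ → X) (F : ℂ → Cm n → X), 0 < lam → IsMaxX w w' lam f →
    HolTube f δ F → ∀ p : Fin n → Polynomial ℂ,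
    lam * ∫ z in ball (0 : ℂ) 1, 1 / Real.pi * hq (pbM w' F z) (pf p z) ≤
    lam * Real.circleAverage (fun z => hq (pbM w' F z) (pf p z)) 0 1 +
      Cw * BR.spd w f 0 * hq (pbM w F 0) (pf p 0) := by
  obtain ⟨C, hC0, hC⟩ := curv (n := n) hw
  refine ⟨C, hC0, fun w' hw' lam δ f F hlam hm hF p => ?_⟩
  have hW := pf_diff p
  have h00 : (0 : ℂ) ∈ closedBall (0 : ℂ) 1 := mem_closedBall_self zero_le_one
  have h01 : (0 : ℂ) ∈ ball (0 : ℂ) 1 := mem_ball_self one_pos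
  have key := sv hw hw' hlam hm hF hW
  obtain ⟨ε, hε0, hε⟩ := exists_eps (W := pf p) hF.pos hW.continuous.continuousOn
  have hev : ∀ᶠ q in 𝓝 (((0 : ℂ), (0 : ℂ)) : ℂ × ℂ), HolAt2 n (Gam F (pf p)) q :=
    ev_of_prod (fun s hs z hz => gam_holAt2 hF hW hε hs hz) (mem_ball_self hε0) h01
  have h1 := hC (Gam F (pf p)) 0 0 hev
  rw [spd_congr (gam_zero_ev hF h01), gam_spd_zero hw hF hε hε0 h00] at h1
  rw [JJ_one] at key
  linarith

end

end Vale.Agent.P272.XT.SV

namespace Vale.Agent.P272.XT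

open Vale.Agent.P272.K Vale.Agent.P272.HY

variable (n : ℕ) (X : Type) [TopologicalSpace X] [ChartedSpace (Cm n) X]
  [IsManifold 𝓘(ℂ, Cm n) ω X]

/-- **X11a** -/
theorem x11a : X11a n X := fun _ _ hw hw' _ _ _ _ hlam hm hF p =>
  SV.x11a_aux hw hw' hlam hm hF p

/-- **X11b** -/
theorem x11b [CompactSpace X] : X11b n X := fun _ hw => SV.x11b_aux hw

end Vale.Agent.P272.XT
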