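import Vale.Agent.P272.XT.Defs
import Vale.Agent.P272.XJ.Green
import Vale.Agent.P272.JN.Limit

/-!
# P272 / XT: Jensen's inequality for `log det` with the weight `(1-|z|²)/π` (X13)
-/

open scoped Manifold ContDiff ComplexOrder Topology ENNReal
open MeasureTheory Metric Set Filter Complex

noncomputable section

namespace Vale.Agent.P272.XT

open Vale.Agent.P272.K Vale.Agent.P272.GJ Vale.Agent.P272.HY Vale.Agent.P272.JN

section
variable {n : ℕ} {X : Type*} [TopologicalSpace X] [ChartedSpace (Cm n) X]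
  [IsManifold 𝓘(ℂ, Cm n) ω X]
  {f : ℂ → X} {δ : ℝ} {F : ℂ → Cm n → X}
  {w : Chart n X → Cm n → Matrix (Fin n) (Fin n) ℂ}

lemma wtr_nonneg {r : ℝ} {z : ℂ} (hz : z ∈ ball (0 : ℂ) r) : 0 ≤ XJ.wt r z := by
  have h1 : ‖z‖ < r := by simpa using hz
  unfold XJ.wt
  have h2 : ‖z‖ ^ 2 ≤ r ^ 2 := by gcongr
  have := Real.pi_pos
  exact div_nonneg (by linarith) this.le

lemma wtr_continuous (r : ℝ) : Continuous (XJ.wt r) := by
  unfold XJ.wt; fun_prop

/-- the truncated characteristic is at most `TW` -/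
lemma integral_wt_le (hw : IsHermitian w) (hf : HolD n f) (hT : TW w f ≠ ⊤) {r : ℝ}
    (hr1 : r < 1) :
    ∫ z in ball (0 : ℂ) r, XJ.wt r z * BR.spd w f z ≤ (TW w f).toReal := by
  have hc := (JN.spd_cont hw hf).mono (closedBall_subset_ball hr1)
  have hint : IntegrableOn (fun z => XJ.wt r z * BR.spd w f z) (ball (0 : ℂ) r) :=
    (((wtr_continuous r).continuousOn.mul hc).integrableOn_compact
      (isCompact_closedBall _ _)).mono_set ball_subset_closedBall
  have h0 : 0 ≤ᵐ[volume.restrict (ball (0 : ℂ) r)] fun z => XJ.wt r z * BR.spd w f z := by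
    filter_upwards [ae_restrict_mem measurableSet_ball] with z hz
    exact mul_nonneg (wtr_nonneg hz) (BR.spd_nonneg hw f z)
  rw [integral_eq_lintegral_of_nonneg_ae h0 hint.aestronglyMeasurable]
  refine ENNReal.toReal_mono hT ?_
  unfold TW
  refine (lintegral_mono_ae ?_).trans (lintegral_mono_set (ball_subset_ball hr1.le))
  filter_upwards [ae_restrict_mem measurableSet_ball] with z hz
  refine ENNReal.ofReal_le_ofReal (mul_le_mul_of_nonneg_right ?_ (BR.spd_nonneg hw f z))
  have h1 : ‖z‖ < r := by simpa using hz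
  have h2 : 0 ≤ ‖z‖ := norm_nonneg z
  unfold XJ.wt
  have := Real.pi_pos
  gcongr
  nlinarith

/-- the inequality on the disc of radius `r < 1` -/
lemma jensen_wt (hw : IsHermitian w) (hR : RicGe w) (hF : HolTube f δ F) (hT : TW w f ≠ ⊤) {r : ℝ}
    (hr : 0 < r) (hr1 : r < 1) :
    r ^ 2 * Real.circleAverage (Lam w F) 0 r - ∫ z in ball (0 : ℂ) r, Lam w F z / Real.pi ≤
      (TW w f).toReal := by
  have hf := disc_hol hF
  have hsub := closedBall_subset_ball (x := (0 : ℂ)) hr1
  rw [← XJ.green_wt hr fun z hz => Lam_contDiffAt hw hF (hsub hz)]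
  refine le_trans ?_ (integral_wt_le hw hf hT hr1)
  have i1 : IntegrableOn (fun z => XJ.wt r z * BR.spd w f z) (ball (0 : ℂ) r) :=
    (((wtr_continuous r).continuousOn.mul ((JN.spd_cont hw hf).mono hsub)).integrableOn_compact
      (isCompact_closedBall _ _)).mono_set ball_subset_closedBall
  have i2 : IntegrableOn (fun z => XJ.wt r z * ddb (Lam w F) z) (ball (0 : ℂ) r) :=
    (((wtr_continuous r).continuousOn.mul (contOn_ddb fun z hz =>
      Lam_contDiffAt hw hF (hsub hz))).integrableOn_compact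
      (isCompact_closedBall _ _)).mono_set ball_subset_closedBall
  refine setIntegral_mono_on i2 i1 measurableSet_ball fun z hz => ?_
  refine mul_le_mul_of_nonneg_left ?_ (wtr_nonneg hz)
  rw [ddb_Lam hw hF (ball_subset_ball hr1.le hz)]
  have h1 := chiQ_le (ricGeT_zero hR w) f z
  rw [zero_mul, sub_zero] at h1
  exact h1

theorem jensen_wt_one (hw : IsHermitian w) (hR : RicGe w) (hF : HolTube f δ F)
    (hT : TW w f ≠ ⊤) :
    Real.circleAverage (Lam w F) 0 1 - (TW w f).toReal ≤
      ∫ z in ball (0 : ℂ) 1, Lam w F z / Real.pi := by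
  set ρ : ℕ → ℝ := fun k => 1 - 1 / (k + 2) with hρ
  have hk2 : ∀ k : ℕ, (0 : ℝ) < (k : ℝ) + 2 := fun k => by positivity
  have hρ0 : ∀ k, 0 < ρ k := fun k => by
    have h1 : 1 / ((k : ℝ) + 2) ≤ 1 / 2 := by
      apply one_div_le_one_div_of_le (by norm_num)
      have : (0 : ℝ) ≤ (k : ℝ) := by positivity
      linarith
    simp only [hρ]; linarith
  have hρ1 : ∀ k, ρ k < 1 := fun k => by
    have := one_div_pos.2 (hk2 k)
    simp only [hρ]; linarith
  have hρt : Tendsto ρ atTop (𝓝 1) := by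
    have h1 : Tendsto (fun k : ℕ => 1 / ((k : ℝ) + 2)) atTop (𝓝 0) := by
      refine Filter.Tendsto.div_atTop tendsto_const_nhds ?_
      exact tendsto_atTop_add_const_right _ _ tendsto_natCast_atTop_atTop
    have h2 := (tendsto_const_nhds (x := (1 : ℝ)) (f := (atTop : Filter ℕ))).sub h1
    rwa [sub_zero] at h2
  have hmono : Monotone ρ := by
    intro i j hij
    simp only [hρ]
    have hij' : (i : ℝ) ≤ (j : ℝ) := by exact_mod_cast hij
    have : 1 / ((j : ℝ) + 2) ≤ 1 / ((i : ℝ) + 2) :=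
      one_div_le_one_div_of_le (hk2 i) (by linarith)
    linarith
  have hLc := Lam_cont hw hF
  have hU : ⋃ k, ball (0 : ℂ) (ρ k) = ball 0 1 := by
    apply Subset.antisymm
    · exact iUnion_subset fun k => ball_subset_ball (hρ1 k).le
    · intro z hz
      have h3 : ‖z‖ < 1 := by simpa using hz
      obtain ⟨k, hk⟩ := (hρt.eventually (lt_mem_nhds h3)).exists
      exact mem_iUnion.2 ⟨k, by simpa using hk⟩
  have hint : IntegrableOn (fun z => Lam w F z / Real.pi) (⋃ k, ball (0 : ℂ) (ρ k)) := by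
    rw [hU]
    exact ((hLc.div_const _).integrableOn_compact (isCompact_closedBall _ _)).mono_set
      ball_subset_closedBall
  have h1 := tendsto_setIntegral_of_monotone (μ := volume) (s := fun k => ball (0 : ℂ) (ρ k))
    (fun k => measurableSet_ball) (fun i j hij => ball_subset_ball (hmono hij)) hint
  rw [hU] at h1
  have h2 := tendsto_circleAverage hLc (fun k => (hρ0 k).le) (fun k => (hρ1 k).le) hρt
  have h3 : Tendsto (fun k => ρ k ^ 2 * Real.circleAverage (Lam w F) 0 (ρ k) -
      ∫ z in ball (0 : ℂ) (ρ k), Lam w F z / Real.pi) atTop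
      (𝓝 (1 ^ 2 * Real.circleAverage (Lam w F) 0 1 -
        ∫ z in ball (0 : ℂ) 1, Lam w F z / Real.pi)) :=
    ((hρt.pow 2).mul h2).sub h1
  have h4 := le_of_tendsto h3 (Eventually.of_forall fun k => jensen_wt hw hR hF hT (hρ0 k) (hρ1 k))
  rw [one_pow, one_mul] at h4
  linarith

end

/-- **X13** -/
theorem x13 (n : ℕ) (X : Type) [TopologicalSpace X] [ChartedSpace (Cm n) X]
    [IsManifold 𝓘(ℂ, Cm n) ω X] : X13 n X := by
  intro w hw hR δ f F hF hT
  have h := jensen_wt_one hw hR hF hT
  refine h.trans (le_of_eq ?_)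
  refine setIntegral_congr_fun measurableSet_ball fun z _ => ?_
  show Lam w F z / Real.pi = _
  unfold Lam
  ring

end Vale.Agent.P272.XT
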