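import Vale.Agent.P272.XT.Defs
import Vale.Agent.P272.EX.Gam

/-! Block X7: the velocity of a disc in the frame of its tube. -/

open scoped Manifold ContDiff ComplexOrder Topology
open Set Metric Filter

set_option linter.all false

noncomputable section

namespace Vale.Agent.P272.XT

open Vale.Agent.P272.K Vale.Agent.P272.BR Vale.Agent.P272.HY Vale.Agent.P272.GJ
  Vale.Agent.P272.EX

lemma x7_det {n : ℕ} {M : ℂ → Matrix (Fin n) (Fin n) ℂ} {z : ℂ}
    (h : ∀ i j, DifferentiableAt ℂ (fun z => M z i j) z) :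
    DifferentiableAt ℂ (fun z => (M z).det) z := by
  simp only [Matrix.det_apply]
  refine DifferentiableAt.fun_sum fun σ _ => ?_
  refine DifferentiableAt.const_smul ?_ _
  exact DifferentiableAt.fun_finsetProd fun i _ => h _ _

lemma x7_inv {n : ℕ} {M : ℂ → Matrix (Fin n) (Fin n) ℂ} {v : ℂ → Fin n → ℂ} {z : ℂ}
    (h : ∀ i j, DifferentiableAt ℂ (fun z => M z i j) z)
    (hv : ∀ i, DifferentiableAt ℂ (fun z => v z i) z) (hdet : (M z).det ≠ 0) :
    DifferentiableAt ℂ (fun z => ((M z)⁻¹).mulVec (v z)) z := by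
  have hd := x7_det h
  refine differentiableAt_pi.2 fun i => ?_
  have h1 : ∀ᶠ z' in 𝓝 z, (M z').det ≠ 0 := hd.continuousAt.eventually_ne hdet
  have h2 : DifferentiableAt ℂ (fun z => ((M z).updateCol i (v z)).det / (M z).det) z := by
    refine DifferentiableAt.div ?_ hd hdet
    refine x7_det (M := fun z => (M z).updateCol i (v z)) fun p q => ?_
    by_cases hq : q = i
    · subst hq
      simp only [Matrix.updateCol_self]
      exact hv p
    · simp only [Matrix.updateCol_ne hq]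
      exact h p q
  refine h2.congr_of_eventuallyEq ?_
  filter_upwards [h1] with z' hz'
  rw [Matrix.inv_def, Matrix.smul_mulVec, ← Matrix.cramer_eq_adjugate_mulVec, Pi.smul_apply,
    Matrix.cramer_apply, Ring.inverse_eq_inv', smul_eq_mul]
  field_simp

section
variable {n : ℕ} {X : Type*} [TopologicalSpace X] [ChartedSpace (Cm n) X]
  {δ : ℝ} {f : ℂ → X} {F : ℂ → Cm n → X} {e e' : Chart n X} {z : ℂ}

/-- `f` is holomorphic in the disc -/
lemma x7_holAt (hF : HolTube f δ F) (hz : z ∈ ball (0 : ℂ) 1) : HolAt n f z := by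
  have h1 : HolAt2 n (Gam F fun _ => (0 : Cm n)) (0, z) := by
    refine gam_holAt2 (ε := 1) hF (differentiable_const _) ?_ (mem_ball_self one_pos) hz
    intro s _ w _
    rw [smul_zero]
    exact mem_ball_self hF.pos
  have h2 := HolAt2.snd (s := 0) (z := z) h1
  refine h2.congr ?_
  filter_upwards [isOpen_ball.mem_nhds hz] with w hw
  exact (gam_zero hF (ball_subset_closedBall hw)).symm

lemma x7_tj (hF : HolTube f δ F) [IsManifold 𝓘(ℂ, Cm n) ω X] (hz : z ∈ ball (0 : ℂ) 1)
    (he : At e (f z)) (i j : Fin n) : DifferentiableAt ℂ (fun z => tj F e z 0 i j) z := by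
  set W : ℂ → Cm n := fun _ => Pi.single j 1 with hW
  have hWd : Differentiable ℂ W := differentiable_const _
  obtain ⟨ε, hε0, hε⟩ := exists_eps (W := W) hF.pos hWd.continuous.continuousOn
  have hev : ∀ᶠ q : ℂ × ℂ in 𝓝 (0, z), HolAt2 n (Gam F W) q := by
    filter_upwards [prod_mem_nhds (ball_mem_nhds (0 : ℂ) hε0) (isOpen_ball.mem_nhds hz)] with q hq
    exact gam_holAt2 hF hWd hε hq.1 hq.2
  have heG : At e (Gam F W 0 z) := by rw [gam_zero hF (ball_subset_closedBall hz)]; exact he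
  have h1 : ContDiffAt ℂ ω (fun q : ℂ × ℂ => e (Gam F W q.1 q.2)) (0, z) :=
    chart_analytic (p := (0, z)) hev heG
  have h2 : DifferentiableAt ℂ (fun q : ℂ × ℂ => fderiv ℂ (fun q : ℂ × ℂ => e (Gam F W q.1 q.2)) q)
      (0, z) := by
    have h3 : ContDiffAt ℂ 1 (fderiv ℂ (fun q : ℂ × ℂ => e (Gam F W q.1 q.2))) (0, z) :=
      h1.fderiv_right (by simp)
    exact h3.differentiableAt (by simp)
  have h3 : DifferentiableAt ℂ (fun z : ℂ => ((0 : ℂ), z)) z := by fun_prop
  have h4 : DifferentiableAt ℂ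
      (fun z : ℂ => fderiv ℂ (fun q : ℂ × ℂ => e (Gam F W q.1 q.2)) (0, z)) z :=
    DifferentiableAt.comp (g := fun q : ℂ × ℂ => fderiv ℂ (fun q : ℂ × ℂ =>
      e (Gam F W q.1 q.2)) q) z h2 h3
  have h5 : DifferentiableAt ℂ
      (fun z : ℂ => fderiv ℂ (fun q : ℂ × ℂ => e (Gam F W q.1 q.2)) (0, z) (1, 0) i) z := by
    have h6 := h4.clm_apply (differentiableAt_const ((1, 0) : ℂ × ℂ))
    exact (differentiableAt_pi.1 h6) i
  refine h5.congr_of_eventuallyEq ?_
  filter_upwards [(x7_holAt hF hz).1.eventually (e.open_source.mem_nhds he.2),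
    isOpen_ball.mem_nhds hz] with w hw hw1
  have hw2 := ball_subset_closedBall hw1
  have hew : At e (f w) := ⟨he.1, hw⟩
  have heG' : At e (Gam F W 0 w) := by rw [gam_zero hF hw2]; exact hew
  have h7 := HolAt2.vel_fst (s := 0) (z := w) (gam_holAt2 hF hWd hε (mem_ball_self hε0) hw1) heG'
  rw [gam_vel_zero hF hε hε0 hw2 hew] at h7
  have h8 := congrFun h7 i
  rw [← h8]
  simp [hW]

lemma x7_vel (hF : HolTube f δ F) (hz : z ∈ ball (0 : ℂ) 1) (he : At e (f z)) :
    DifferentiableAt ℂ (fun z => vel f e z) z := by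
  have h1 : ∀ᶠ w in 𝓝 z, DifferentiableAt ℂ (fun ζ => e (f ζ)) w := by
    filter_upwards [(x7_holAt hF hz).1.eventually (e.open_source.mem_nhds he.2),
      isOpen_ball.mem_nhds hz] with w hw hw1
    exact (x7_holAt hF hw1).2 e ⟨he.1, hw⟩
  obtain ⟨U, hU, hUo, hzU⟩ := _root_.eventually_nhds_iff.1 h1
  have h2 : DifferentiableOn ℂ (fun ζ => e (f ζ)) U := fun w hw =>
    (hU w hw).differentiableWithinAt
  exact (h2.deriv hUo).differentiableAt (hUo.mem_nhds hzU)

/-- the coordinates of the velocity in the frame of the tube -/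
def x7u (f : ℂ → X) (F : ℂ → Cm n → X) (z : ℂ) : Cm n :=
  ((tj F (chartAt (Cm n) (f z)) z 0)⁻¹).mulVec (vel f (chartAt (Cm n) (f z)) z)

lemma x7u_eq [IsManifold 𝓘(ℂ, Cm n) ω X] (hF : HolTube f δ F) (hz : z ∈ ball (0 : ℂ) 1)
    (he : At e (f z)) : x7u f F z = ((tj F e z 0)⁻¹).mulVec (vel f e z) := by
  have hzc := ball_subset_closedBall hz
  have hc := at_chartAt (n := n) (f z)
  set c : Chart n X := chartAt (Cm n) (f z) with hcdef
  have h0 := hF.zero z hzc
  have h1 : tj F e z 0 = jacM c e (f z) * tj F c z 0 := by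
    have := PB.tj_change hF hzc (mem_ball_self hF.pos) (e := c) (e' := e) (by rw [h0]; exact hc)
      (by rw [h0]; exact he)
    rwa [h0] at this
  have h2 := (x7_holAt hF hz).vel_change hc he
  have hdc := hF.inv z hzc c hc
  have hde := hF.inv z hzc e he
  have hu : x7u f F z = ((tj F c z 0)⁻¹).mulVec (vel f c z) := rfl
  have h3 : (tj F c z 0).mulVec (x7u f F z) = vel f c z := by
    rw [hu, Matrix.mulVec_mulVec, Matrix.mul_nonsing_inv _ (isUnit_iff_ne_zero.2 hdc),
      Matrix.one_mulVec]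
  have h4 : vel f e z = (tj F e z 0).mulVec (x7u f F z) := by
    rw [h2, ← h3, Matrix.mulVec_mulVec, ← h1]
  rw [h4, Matrix.mulVec_mulVec, Matrix.nonsing_inv_mul _ (isUnit_iff_ne_zero.2 hde),
    Matrix.one_mulVec]

lemma x7u_spec (hF : HolTube f δ F) (hz : z ∈ ball (0 : ℂ) 1) :
    (tj F (chartAt (Cm n) (f z)) z 0).mulVec (x7u f F z) = vel f (chartAt (Cm n) (f z)) z := by
  have hdc := hF.inv z (ball_subset_closedBall hz) _ (at_chartAt (n := n) (f z))
  unfold x7u
  rw [Matrix.mulVec_mulVec, Matrix.mul_nonsing_inv _ (isUnit_iff_ne_zero.2 hdc),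
    Matrix.one_mulVec]

lemma x7u_holo [IsManifold 𝓘(ℂ, Cm n) ω X] (hF : HolTube f δ F) :
    DifferentiableOn ℂ (x7u f F) (ball 0 1) := by
  intro z hz
  have he := at_chartAt (n := n) (f z)
  set e : Chart n X := chartAt (Cm n) (f z) with hedef
  have h1 : DifferentiableAt ℂ (fun z => ((tj F e z 0)⁻¹).mulVec (vel f e z)) z := by
    refine x7_inv (fun i j => x7_tj hF hz he i j) ?_ ?_
    · exact differentiableAt_pi.1 (x7_vel hF hz he)
    · exact hF.inv z (ball_subset_closedBall hz) e he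
  refine (h1.congr_of_eventuallyEq ?_).differentiableWithinAt
  filter_upwards [(x7_holAt hF hz).1.eventually (e.open_source.mem_nhds he.2),
    isOpen_ball.mem_nhds hz] with w hw hw1
  exact x7u_eq hF hw1 ⟨he.1, hw⟩

lemma x7u_spd [IsManifold 𝓘(ℂ, Cm n) ω X] (hF : HolTube f δ F)
    {a : Chart n X → Cm n → Matrix (Fin n) (Fin n) ℂ} (ha : IsHermitian a)
    (hz : z ∈ ball (0 : ℂ) 1) : BR.spd a f z = hq (pbM a F z) (x7u f F z) := by
  have hzc := ball_subset_closedBall hz
  have h0 := hF.zero z hzc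
  have he := at_chartAt (n := n) (f z)
  rw [hq, PB.pbM_eq ha hF hzc (e := chartAt (Cm n) (f z)) (by rw [h0]; exact he), quad_change,
    x7u_spec hF hz, h0]
  rfl

end

/-- **X7** -/
theorem x7 (n : ℕ) (X : Type) [TopologicalSpace X] [ChartedSpace (Cm n) X]
    [IsManifold 𝓘(ℂ, Cm n) ω X] : X7 n X := fun δ f F hF =>
  ⟨x7u f F, x7u_holo hF, fun a ha z hz => x7u_spd hF ha hz⟩

end Vale.Agent.P272.XT
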