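import Vale.Agent.P272.S3.Chain
import Vale.Agent.P272.GJ.Mfd
import Vale.Agent.P272.BR.Spd

/-!
# P272 / XT: the curvature term

`w` a Hermitian metric on the compact manifold `X`. There is `C ≥ 0` such that for every family
`Γ s z` of curves, holomorphic in `(s, z)`,
`∂_s ∂_s̄ |∂_z Γ|²_w ≥ - C |∂_z Γ|²_w |∂_s Γ|²_w`.
-/

open scoped Manifold ContDiff ComplexOrder Topology
open Complex Set Filter Metric

set_option linter.all false

noncomputable section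

namespace Vale.Agent.P272.XT

open Vale.Agent.P272.K Vale.Agent.P272.BR Vale.Agent.P272.GJ
open Vale.Agent.P272.K.LIN (Cov)

variable {n : ℕ}

/-- the function `(y, σ) ↦ |σ|²_{H(y)}` -/
def qf (H : Cm n → Matrix (Fin n) (Fin n) ℂ) (p : Cm n × Cm n) : ℝ := (quad (H p.1) p.2).re

/-- the Levi form of `q` at `p` -/
def Lev {E : Type*} [NormedAddCommGroup E] [NormedSpace ℂ E] (q : E → ℝ) (p ξ : E) : ℝ :=
  (fderiv ℝ (fderiv ℝ q) p ξ ξ + fderiv ℝ (fderiv ℝ q) p (I • ξ) (I • ξ)) / 4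

section loc
variable {H : Cm n → Matrix (Fin n) (Fin n) ℂ} {y σ a b : Cm n} {p : Cm n × Cm n}

lemma qf_smooth (hH : ∀ i j, ContDiffAt ℝ ∞ (fun y => H y i j) p.1) : ContDiffAt ℝ ∞ (qf H) p := by
  have h1 : ∀ i, ContDiffAt ℝ ∞ (fun q : Cm n × Cm n => q.2 i) p := fun i =>
    (contDiffAt_pi.1 contDiffAt_snd i)
  have h2 : ∀ i, ContDiffAt ℝ ∞ (fun q : Cm n × Cm n => cj (q.2 i)) p := fun i =>
    (Complex.conjCLE.contDiff.contDiffAt).comp p (h1 i)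
  have h3 : ∀ i j, ContDiffAt ℝ ∞ (fun q : Cm n × Cm n => H q.1 i j) p := fun i j =>
    ContDiffAt.comp p (hH i j) contDiffAt_fst
  have h4 : ContDiffAt ℝ ∞ (fun q : Cm n × Cm n => quad (H q.1) q.2) p := by
    unfold quad
    exact ContDiffAt.sum fun i _ => ContDiffAt.sum fun j _ => (h3 i j).mul ((h1 i).mul (h2 j))
  exact reCLM.contDiff.contDiffAt.comp p h4

lemma quad_expand (M : Matrix (Fin n) (Fin n) ℂ) (σ b : Cm n) (s : ℂ) :
    (quad M (σ + s • b)).re = (quad M σ).re + (s * ses M b σ + cj s * ses M σ b).re +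
      ‖s‖ ^ 2 * (quad M b).re := by
  rw [quad_eq_ses, ses_add_left, ses_add_right, ses_add_right, ses_smul_left, ses_smul_left,
    ses_smul_right, ← quad_eq_ses, ses_smul_right, ← quad_eq_ses]
  have h1 : s * (cj s * quad M b) = ((‖s‖ ^ 2 : ℝ) : ℂ) * quad M b := by
    rw [← mul_assoc]
    congr 1
    simp [cj, Complex.mul_conj, Complex.normSq_eq_norm_sq]
  rw [h1]
  simp only [Complex.add_re, Complex.re_ofReal_mul]
  ring

/-- `∂∂̄` of an affine function plus `K |s|²` -/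
lemma ddb_aff (c K : ℝ) (L : ℂ →L[ℝ] ℝ) (z : ℂ) :
    ddb (fun s : ℂ => c + L s + ‖s‖ ^ 2 * K) z = K := by
  have h0 : ∀ w : ℂ, HasFDerivAt (fun s : ℂ => c + L s + ‖s‖ ^ 2 * K)
      (L + K • (2 • innerSL ℝ w)) w := by
    intro w
    have h1 := ((L.hasFDerivAt (x := w)).const_add c).add
      (((hasStrictFDerivAt_norm_sq w).hasFDerivAt).mul_const K)
    exact h1
  have h1 : ∀ v : ℂ, (fun w : ℂ => fderiv ℝ (fun s : ℂ => c + L s + ‖s‖ ^ 2 * K) w v) =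
      fun w => L v + (2 * K) * (inner ℝ w v) := by
    intro v
    funext w
    rw [(h0 w).fderiv]
    simp
    ring
  have h2 : ∀ v : ℂ, fderiv ℝ (fun w : ℂ => L v + (2 * K) * (inner ℝ w v)) z v =
      (2 * K) * ‖v‖ ^ 2 := by
    intro v
    have h3 : HasFDerivAt (fun w : ℂ => L v + (2 * K) * (inner ℝ w v))
        ((2 * K) • (innerSL ℝ v)) z := by
      have := (((innerSL ℝ v).hasFDerivAt (x := z)).const_mul (2 * K)).const_add (L v)
      refine this.congr_of_eventuallyEq (Filter.Eventually.of_forall fun w => ?_)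
      simp [real_inner_comm]
    rw [h3.fderiv]
    simp
  rw [ddb, h1, h1, h2, h2]
  norm_num
  ring

/-- the vertical part of the Levi form -/
lemma lev_vert (hH : ∀ i j, ContDiffAt ℝ ∞ (fun y => H y i j) y) (σ b : Cm n) :
    Lev (qf H) (y, σ) (0, b) = (quad (H y) b).re := by
  have hq : ContDiffAt ℝ 2 (qf H) (y, σ) := (qf_smooth (p := (y, σ)) hH).of_le two_le_infty
  have hc : ∀ w : ℂ, HasDerivAt (fun s : ℂ => ((y, σ) : Cm n × Cm n) + s • ((0, b) : Cm n × Cm n))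
      (0, b) w := by
    intro w
    simpa using ((hasDerivAt_id w).smul_const ((0, b) : Cm n × Cm n)).const_add (y, σ)
  have h1 := S3.ddb_comp_curve (q := qf H)
    (c := fun s : ℂ => ((y, σ) : Cm n × Cm n) + s • ((0, b) : Cm n × Cm n)) (z := 0)
    (by simpa using hq) (Filter.Eventually.of_forall fun w => (hc w).differentiableAt)
  rw [(hc 0).deriv] at h1
  have h2 : (fun w : ℂ => qf H (((y, σ) : Cm n × Cm n) + w • ((0, b) : Cm n × Cm n))) =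
      fun s : ℂ => (quad (H y) σ).re + (reCLM.comp ((ContinuousLinearMap.mul ℝ ℂ).flip
        (ses (H y) b σ) + ((ContinuousLinearMap.mul ℝ ℂ).flip (ses (H y) σ b)).comp
          (Complex.conjCLE : ℂ →L[ℝ] ℂ))) s + ‖s‖ ^ 2 * (quad (H y) b).re := by
    funext s
    simp only [qf, Prod.mk_add_mk, Prod.smul_mk, smul_zero, add_zero]
    rw [quad_expand]
    simp [cj]
    ring
  rw [h2, ddb_aff] at h1
  rw [Lev, h1]
  simp

lemma lev_ge {C L : ℝ} (hC : ‖fderiv ℝ (fderiv ℝ (qf H)) (y, σ)‖ ≤ C) (hL : 0 < L)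
    (hH : ∀ i j, ContDiffAt ℝ ∞ (fun y => H y i j) y)
    (hb : ∀ b, ‖b‖ ^ 2 ≤ L * (quad (H y) b).re) (a b : Cm n) :
    -(C / 2 + C ^ 2 * L / 4) * ‖a‖ ^ 2 ≤ Lev (qf H) (y, σ) (a, b) := by
  set B := fderiv ℝ (fderiv ℝ (qf H)) (y, σ) with hB
  have hC0 : 0 ≤ C := (ContinuousLinearMap.opNorm_nonneg B).trans hC
  have hbd : ∀ u v : Cm n × Cm n, |B u v| ≤ C * ‖u‖ * ‖v‖ := by
    intro u v
    have h1 := (B u).le_opNorm v
    have h2 := B.le_opNorm u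
    rw [Real.norm_eq_abs] at h1
    calc |B u v| ≤ ‖B u‖ * ‖v‖ := h1
      _ ≤ (‖B‖ * ‖u‖) * ‖v‖ := by gcongr
      _ ≤ C * ‖u‖ * ‖v‖ := by gcongr
  have hsplit : ((a, b) : Cm n × Cm n) = (a, 0) + (0, b) := by simp
  have hn1 : ‖((a, 0) : Cm n × Cm n)‖ = ‖a‖ := by simp [Prod.norm_def]
  have hn2 : ‖((0, b) : Cm n × Cm n)‖ = ‖b‖ := by simp [Prod.norm_def]
  have hn3 : ‖I • ((a, 0) : Cm n × Cm n)‖ = ‖a‖ := by rw [norm_smul]; simp [hn1]
  have hn4 : ‖I • ((0, b) : Cm n × Cm n)‖ = ‖b‖ := by rw [norm_smul]; simp [hn2]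
  have hv := lev_vert hH σ b
  rw [Lev, ← hB] at hv
  have e1 := abs_le.1 (hbd (a, 0) (a, 0))
  have e2 := abs_le.1 (hbd (a, 0) (0, b))
  have e3 := abs_le.1 (hbd (0, b) (a, 0))
  have e4 := abs_le.1 (hbd (I • (a, 0)) (I • (a, 0)))
  have e5 := abs_le.1 (hbd (I • (a, 0)) (I • (0, b)))
  have e6 := abs_le.1 (hbd (I • (0, b)) (I • (a, 0)))
  rw [hn1] at e1
  rw [hn1, hn2] at e2 e3
  rw [hn3] at e4
  rw [hn3, hn4] at e5 e6
  have hq := hb b
  have hmain : Lev (qf H) (y, σ) (a, b) = (B (a, 0) (a, 0) + B (a, 0) (0, b) + B (0, b) (a, 0) +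
      B (I • (a, 0)) (I • (a, 0)) + B (I • (a, 0)) (I • (0, b)) + B (I • (0, b)) (I • (a, 0))) / 4 +
        (quad (H y) b).re := by
    rw [Lev, ← hB, ← hv, hsplit, smul_add]
    simp only [map_add, add_apply]
    ring
  rw [hmain]
  have hqL : ‖b‖ ^ 2 / L ≤ (quad (H y) b).re := by
    rw [div_le_iff₀ hL]; linarith
  have key : -(C ^ 2 * L / 4) * ‖a‖ ^ 2 ≤ - C * ‖a‖ * ‖b‖ + ‖b‖ ^ 2 / L := by
    have h1 : ‖b‖ ^ 2 / L - C * ‖a‖ * ‖b‖ + C ^ 2 * L / 4 * ‖a‖ ^ 2 =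
        (‖b‖ - C * L / 2 * ‖a‖) ^ 2 / L := by
      field_simp
      ring
    have h2 : 0 ≤ (‖b‖ - C * L / 2 * ‖a‖) ^ 2 / L := by positivity
    linarith
  nlinarith [e1.1, e2.1, e3.1, e4.1, e5.1, e6.1]

/-- the curvature inequality along a curve -/
lemma curve_ge {C L : ℝ} {x v : ℂ → Cm n} {s : ℂ}
    (hC : ∀ σ : Cm n, ‖σ‖ ≤ 1 → ‖fderiv ℝ (fderiv ℝ (qf H)) (x s, σ)‖ ≤ C) (hL : 0 < L)
    (hH : ∀ i j, ContDiffAt ℝ ∞ (fun y => H y i j) (x s))
    (hb : ∀ b, ‖b‖ ^ 2 ≤ L * (quad (H (x s)) b).re)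
    (hx : ∀ᶠ w in 𝓝 s, DifferentiableAt ℂ x w) (hv : ∀ᶠ w in 𝓝 s, DifferentiableAt ℂ v w) :
    -(C / 2 + C ^ 2 * L / 4) * ‖deriv x s‖ ^ 2 * ‖v s‖ ^ 2 ≤
      ddb (fun w => (quad (H (x w)) (v w)).re) s := by
  have hC0 : 0 ≤ C := (ContinuousLinearMap.opNorm_nonneg _).trans (hC 0 (by simp))
  set K := (C / 2 + C ^ 2 * L / 4) * ‖deriv x s‖ ^ 2 with hK
  set D := ddb (fun w => (quad (H (x w)) (v w)).re) s with hD
  have hq : ∀ σ, ContDiffAt ℝ 2 (qf H) (x s, σ) := fun σ =>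
    (qf_smooth (p := (x s, σ)) hH).of_le two_le_infty
  have hcurve : ∀ t : ℝ, ddb (fun w => (quad (H (x w)) (((t : ℝ) : ℂ) • v w)).re) s =
      Lev (qf H) (x s, ((t : ℝ) : ℂ) • v s) (deriv x s, ((t : ℝ) : ℂ) • deriv v s) := by
    intro t
    have hd : ∀ᶠ w in 𝓝 s, HasDerivAt (fun w => ((x w, ((t : ℝ) : ℂ) • v w) : Cm n × Cm n))
        (deriv x w, ((t : ℝ) : ℂ) • deriv v w) w := by
      filter_upwards [hx, hv] with w h1 h2
      have h3 : HasDerivAt (fun w => ((t : ℝ) : ℂ) • v w) (((t : ℝ) : ℂ) • deriv v w) w :=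
        h2.hasDerivAt.const_smul ((t : ℝ) : ℂ)
      exact h1.hasDerivAt.prodMk h3
    have h1 := S3.ddb_comp_curve (q := qf H)
      (c := fun w => ((x w, ((t : ℝ) : ℂ) • v w) : Cm n × Cm n)) (z := s) (hq _)
      (hd.mono fun w hw => hw.differentiableAt)
    rw [hd.self_of_nhds.deriv] at h1
    exact h1
  have hscale : ∀ t : ℝ, ddb (fun w => (quad (H (x w)) (((t : ℝ) : ℂ) • v w)).re) s = t ^ 2 * D := by
    intro t
    have h1 : (fun w => (quad (H (x w)) (((t : ℝ) : ℂ) • v w)).re) =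
        fun w => t ^ 2 * (quad (H (x w)) (v w)).re := by
      funext w
      rw [quad_smul']
      simp
    rw [h1]
    -- scaling of ddb
    have hcd : ContDiffAt ℝ 2 (fun w => (quad (H (x w)) (v w)).re) s := by
      have hA : ∀ {u : ℂ → Cm n}, (∀ᶠ w in 𝓝 s, DifferentiableAt ℂ u w) → ContDiffAt ℝ 2 u s := by
        intro u hu
        obtain ⟨S, hS, hS'⟩ := hu.exists_mem
        obtain ⟨t, hts, hto, hzt⟩ := _root_.mem_nhds_iff.1 hS
        have hA : AnalyticAt ℂ u s := DifferentiableOn.analyticAt (s := t)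
          (fun w hw => (hS' w (hts hw)).differentiableWithinAt) (hto.mem_nhds hzt)
        exact (hA.contDiffAt (n := 2)).restrict_scalars ℝ
      have h2 : ContDiffAt ℝ 2 (fun w => ((x w, v w) : Cm n × Cm n)) s := (hA hx).prodMk (hA hv)
      exact ContDiffAt.comp (g := qf H) (f := fun w => ((x w, v w) : Cm n × Cm n)) s (hq (v s)) h2
    have hfd : ∀ u : ℂ, (fun w => fderiv ℝ (fun w => t ^ 2 * (quad (H (x w)) (v w)).re) w u) =ᶠ[𝓝 s]
        fun w => t ^ 2 * fderiv ℝ (fun w => (quad (H (x w)) (v w)).re) w u := by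
      intro u
      filter_upwards [hcd.eventually (by simp)] with w hw
      have h3 := (hw.differentiableAt (by norm_num)).hasFDerivAt.const_mul (t ^ 2)
      rw [h3.fderiv]
      simp
    have hfd2 : ∀ u : ℂ, DifferentiableAt ℝ
        (fun w => fderiv ℝ (fun w => (quad (H (x w)) (v w)).re) w u) s := fun u =>
      ((hcd.fderiv_right (m := 1) (by norm_num)).clm_apply contDiffAt_const).differentiableAt
        (by norm_num)
    rw [hD, ddb, ddb, (hfd 1).fderiv_eq, (hfd I).fderiv_eq,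
      ((hfd2 1).hasFDerivAt.const_mul (t ^ 2)).fderiv,
      ((hfd2 I).hasFDerivAt.const_mul (t ^ 2)).fderiv]
    simp
    ring
  have key : ∀ t : ℝ, 0 < t → t * ‖v s‖ ≤ 1 → - K ≤ t ^ 2 * D := by
    intro t ht htv
    have h1 := lev_ge (σ := ((t : ℝ) : ℂ) • v s) (hC _ (by
      rw [norm_smul]; simpa [abs_of_pos ht] using htv)) hL hH hb (deriv x s)
      (((t : ℝ) : ℂ) • deriv v s)
    rw [← hcurve, hscale] at h1
    rw [hK]
    linarith
  have h2 : ∀ δ : ℝ, 0 < δ → - K * (‖v s‖ + δ) ^ 2 ≤ D := by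
    intro δ hδ
    have hpos : 0 < ‖v s‖ + δ := by positivity
    have h3 := key (‖v s‖ + δ)⁻¹ (by positivity) (by
      rw [inv_mul_le_iff₀ hpos]; linarith)
    rw [inv_pow, ← div_eq_inv_mul, le_div_iff₀ (by positivity)] at h3
    linarith
  have h3 : Tendsto (fun δ : ℝ => - K * (‖v s‖ + δ) ^ 2) (𝓝[>] 0) (𝓝 (- K * (‖v s‖ + 0) ^ 2)) := by
    have : Continuous fun δ : ℝ => - K * (‖v s‖ + δ) ^ 2 := by fun_prop
    exact (this.tendsto 0).mono_left nhdsWithin_le_nhds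
  have h4 := le_of_tendsto h3 (by
    filter_upwards [self_mem_nhdsWithin] with δ hδ using h2 δ hδ)
  rw [add_zero, hK] at h4
  linarith

/-- the equality when the centre does not move to first order -/
lemma curve_eq {x v : ℂ → Cm n} {s : ℂ}
    (hH : ∀ i j, ContDiffAt ℝ ∞ (fun y => H y i j) (x s))
    (hx : ∀ᶠ w in 𝓝 s, DifferentiableAt ℂ x w) (hv : ∀ᶠ w in 𝓝 s, DifferentiableAt ℂ v w)
    (h0 : deriv x s = 0) :
    ddb (fun w => (quad (H (x w)) (v w)).re) s = (quad (H (x s)) (deriv v s)).re := by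
  have hq : ContDiffAt ℝ 2 (qf H) (x s, v s) :=
    (qf_smooth (p := (x s, v s)) hH).of_le two_le_infty
  have hd : ∀ᶠ w in 𝓝 s, HasDerivAt (fun w => ((x w, v w) : Cm n × Cm n))
      (deriv x w, deriv v w) w := by
    filter_upwards [hx, hv] with w h1 h2
    exact h1.hasDerivAt.prodMk h2.hasDerivAt
  have h1 := S3.ddb_comp_curve (q := qf H) (c := fun w => ((x w, v w) : Cm n × Cm n)) (z := s) hq
    (hd.mono fun w hw => hw.differentiableAt)
  rw [hd.self_of_nhds.deriv, h0] at h1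
  rw [← lev_vert hH (v s)]
  exact h1

end loc

/-! ### on the manifold -/

section mfd
variable {X : Type*} [TopologicalSpace X] [ChartedSpace (Cm n) X] [IsManifold 𝓘(ℂ, Cm n) ω X]
  {w : Chart n X → Cm n → Matrix (Fin n) (Fin n) ℂ} {Γ : ℂ → ℂ → X} {e : Chart n X} {s z : ℂ}

/-- the point and the velocity in a chart, as functions of the parameter -/
lemma chart_curves (h : ∀ᶠ p in 𝓝 ((s, z) : ℂ × ℂ), HolAt2 n Γ p) (he : At e (Γ s z)) :
    (∀ᶠ σ in 𝓝 s, DifferentiableAt ℂ (fun σ => e (Γ σ z)) σ) ∧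
    (∀ᶠ σ in 𝓝 s, DifferentiableAt ℂ (fun σ => vel (Γ σ) e z) σ) ∧
    (∀ᶠ σ in 𝓝 s, HolAt2 n Γ (σ, z) ∧ At e (Γ σ z)) ∧
    deriv (fun σ => vel (Γ σ) e z) s =
      fderiv ℂ (fun q : ℂ × ℂ => fderiv ℂ (fun q : ℂ × ℂ => e (Γ q.1 q.2)) q (0, 1)) (s, z) (1, 0) := by
  have hA : ContDiffAt ℂ ω (fun q : ℂ × ℂ => e (Γ q.1 q.2)) (s, z) := chart_analytic h he
  have hincl : ∀ σ : ℂ, HasDerivAt (fun σ : ℂ => ((σ, z) : ℂ × ℂ)) (1, 0) σ := fun σ =>
    (hasDerivAt_id σ).prodMk (hasDerivAt_const σ z)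
  have htend : ContinuousAt (fun σ : ℂ => ((σ, z) : ℂ × ℂ)) s := (hincl s).continuousAt
  have e1 : ∀ᶠ q in 𝓝 ((s, z) : ℂ × ℂ), ContDiffAt ℂ ω (fun q : ℂ × ℂ => e (Γ q.1 q.2)) q :=
    hA.eventually (by simp)
  have e2 : ∀ᶠ q in 𝓝 ((s, z) : ℂ × ℂ), At e (Γ q.1 q.2) := by
    filter_upwards [h.self_of_nhds.1.eventually (e.open_source.mem_nhds he.2)] with q hq
    exact ⟨he.1, hq⟩
  have hd : ∀ q : ℂ × ℂ, ContDiffAt ℂ ω (fun q : ℂ × ℂ => e (Γ q.1 q.2)) q →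
      DifferentiableAt ℂ (fun q : ℂ × ℂ => fderiv ℂ (fun q : ℂ × ℂ => e (Γ q.1 q.2)) q (0, 1)) q :=
    fun q hq => ((hq.fderiv_right (m := ω) (by exact le_top)).clm_apply
      contDiffAt_const).differentiableAt (by simp)
  have e3 : ∀ᶠ σ in 𝓝 s, HolAt2 n Γ (σ, z) ∧ At e (Γ σ z) := by
    filter_upwards [htend.eventually h, htend.eventually e2] with σ h1 h2 using ⟨h1, h2⟩
  have e4 : ∀ᶠ σ in 𝓝 s, vel (Γ σ) e z =
      fderiv ℂ (fun q : ℂ × ℂ => e (Γ q.1 q.2)) (σ, z) (0, 1) := by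
    filter_upwards [e3] with σ hσ
    exact HolAt2.vel_snd hσ.1 hσ.2
  have e5 : ∀ᶠ σ in 𝓝 s, HasDerivAt (fun σ => vel (Γ σ) e z)
      (fderiv ℂ (fun q : ℂ × ℂ => fderiv ℂ (fun q : ℂ × ℂ => e (Γ q.1 q.2)) q (0, 1)) (σ, z)
        (1, 0)) σ := by
    filter_upwards [htend.eventually e1, e4.eventually_nhds] with σ h1 h2
    have h3 : HasDerivAt (fun σ => fderiv ℂ (fun q : ℂ × ℂ => e (Γ q.1 q.2)) (σ, z) (0, 1))
        (fderiv ℂ (fun q : ℂ × ℂ => fderiv ℂ (fun q : ℂ × ℂ => e (Γ q.1 q.2)) q (0, 1)) (σ, z)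
          (1, 0)) σ :=
      HasFDerivAt.comp_hasDerivAt
        (l := fun q : ℂ × ℂ => fderiv ℂ (fun q : ℂ × ℂ => e (Γ q.1 q.2)) q (0, 1))
        (f := fun σ : ℂ => ((σ, z) : ℂ × ℂ)) σ (hd _ h1).hasFDerivAt (hincl σ)
    exact h3.congr_of_eventuallyEq h2
  refine ⟨?_, e5.mono fun σ hσ => hσ.differentiableAt, e3, e5.self_of_nhds.deriv⟩
  filter_upwards [e3] with σ hσ
  exact (HolAt2.fst hσ.1).2 e hσ.2

lemma spd_curve_eventually (hw : IsHermitian w) (h : ∀ᶠ p in 𝓝 ((s, z) : ℂ × ℂ), HolAt2 n Γ p)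
    (he : At e (Γ s z)) : (fun σ => spd w (Γ σ) z) =ᶠ[𝓝 s]
      fun σ => (quad (w e (e (Γ σ z))) (vel (Γ σ) e z)).re := by
  filter_upwards [(chart_curves h he).2.2.1] with σ hσ
  exact spd_eq hw (HolAt2.snd hσ.1) hσ.2

/-- smoothness of `σ ↦ |∂_z Γ(σ, z)|²_w` -/
theorem contDiffAt_spd_slice (hw : IsHermitian w)
    (h : ∀ᶠ p in 𝓝 ((s, z) : ℂ × ℂ), HolAt2 n Γ p) :
    ContDiffAt ℝ 2 (fun σ => spd w (Γ σ) z) s :=
  contDiffAt_fst (Θ := fun s z => spd w (Γ s) z)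
    ((contDiffAt_spd_snd hw h).of_le two_le_infty)

/-- **the curvature inequality** (`X` compact, `w` Hermitian) -/
theorem curv [CompactSpace X] (hw : IsHermitian w) :
    ∃ C : ℝ, 0 ≤ C ∧ ∀ (Γ : ℂ → ℂ → X) (s z : ℂ),
      (∀ᶠ p in 𝓝 ((s, z) : ℂ × ℂ), HolAt2 n Γ p) →
      -(C * spd w (Γ s) z * spd w (fun σ => Γ σ z) s) ≤ ddb (fun σ => spd w (Γ σ) z) s := by
  obtain ⟨𝒞⟩ := Cov.nonempty (Cm n) X
  obtain ⟨L, hL1, hL⟩ := exists_cov_const 𝒞 hw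
  have hLpos : 0 < L := by linarith
  have hsm : ∀ i, ∀ y ∈ closedBall (𝒞.c i) (3 * 𝒞.r i), ∀ p q : Fin n,
      ContDiffAt ℝ ∞ (fun y => w (𝒞.e i) y p q) y := by
    intro i y hy p q
    have hy' := 𝒞.sub i hy
    have h1 := hw.smooth (𝒞.e i) ((𝒞.e i).symm y) (At.of_target (𝒞.mem i) hy') p q
    rwa [(𝒞.e i).right_inv hy'] at h1
  have hbd : ∀ i, ∃ C : ℝ, 0 ≤ C ∧ ∀ y ∈ closedBall (𝒞.c i) (3 * 𝒞.r i), ∀ σ : Cm n, ‖σ‖ ≤ 1 →
      ‖fderiv ℝ (fderiv ℝ (qf (w (𝒞.e i)))) (y, σ)‖ ≤ C := by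
    intro i
    have hK : IsCompact (closedBall (𝒞.c i) (3 * 𝒞.r i) ×ˢ closedBall (0 : Cm n) 1) :=
      (isCompact_closedBall _ _).prod (isCompact_closedBall _ _)
    have hc : ContinuousOn (fderiv ℝ (fderiv ℝ (qf (w (𝒞.e i)))))
        (closedBall (𝒞.c i) (3 * 𝒞.r i) ×ˢ closedBall (0 : Cm n) 1) := by
      intro p hp
      have h1 : ContDiffAt ℝ 2 (qf (w (𝒞.e i))) p :=
        (qf_smooth (fun a b => hsm i p.1 hp.1 a b)).of_le two_le_infty
      exact ((h1.fderiv_right (m := 1) (by norm_num)).fderiv_right (m := 0)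
        (by norm_num)).continuousAt.continuousWithinAt
    obtain ⟨C, hC⟩ := hK.exists_bound_of_continuousOn
      (E := Cm n × Cm n →L[ℝ] Cm n × Cm n →L[ℝ] ℝ) hc
    refine ⟨max C 0, le_max_right _ _, fun y hy σ hσ => ?_⟩
    exact (hC (y, σ) ⟨hy, by simpa using hσ⟩).trans (le_max_left _ _)
  choose C hC0 hC using hbd
  set C1 : ℝ := ∑ i, C i with hC1
  have hC1i : ∀ i, C i ≤ C1 := fun i =>
    Finset.single_le_sum (f := C) (fun i _ => hC0 i) (Finset.mem_univ i)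
  have hC10 : 0 ≤ C1 := Finset.sum_nonneg fun i _ => hC0 i
  refine ⟨(C1 / 2 + C1 ^ 2 * L / 4) * L ^ 2, by positivity, fun Γ s z h => ?_⟩
  obtain ⟨i, hi, hx⟩ := 𝒞.cover (Γ s z)
  have he : At (𝒞.e i) (Γ s z) := ⟨𝒞.mem i, hi⟩
  have hmem : 𝒞.e i (Γ s z) ∈ closedBall (𝒞.c i) (3 * 𝒞.r i) :=
    ball_subset_closedBall (ball_subset_ball (by linarith [𝒞.r_pos i]) hx)
  obtain ⟨c1, c2, c3, -⟩ := chart_curves h he
  have hh := h.self_of_nhds
  have key := curve_ge (H := w (𝒞.e i)) (x := fun σ => 𝒞.e i (Γ σ z))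
    (v := fun σ => vel (Γ σ) (𝒞.e i) z) (s := s) (C := C1) (L := L)
    (fun σ hσ => (hC i _ hmem σ hσ).trans (hC1i i)) hLpos (fun a b => hsm i _ hmem a b)
    (fun b => (hL i _ hmem b).1) c1 c2
  rw [S3.ddb_congr (spd_curve_eventually hw h he)]
  refine le_trans ?_ key
  have v1 : ‖vel (fun σ => Γ σ z) (𝒞.e i) s‖ ^ 2 ≤ L * spd w (fun σ => Γ σ z) s := by
    rw [spd_eq hw (HolAt2.fst hh) he]
    exact (hL i _ hmem _).1
  have v2 : ‖vel (Γ s) (𝒞.e i) z‖ ^ 2 ≤ L * spd w (Γ s) z := by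
    rw [spd_eq hw (HolAt2.snd hh) he]
    exact (hL i _ hmem _).1
  have v3 : deriv (fun σ => 𝒞.e i (Γ σ z)) s = vel (fun σ => Γ σ z) (𝒞.e i) s := rfl
  rw [v3]
  have hK0 : 0 ≤ C1 / 2 + C1 ^ 2 * L / 4 := by positivity
  have v4 : ‖vel (fun σ => Γ σ z) (𝒞.e i) s‖ ^ 2 * ‖vel (Γ s) (𝒞.e i) z‖ ^ 2 ≤
      (L * spd w (fun σ => Γ σ z) s) * (L * spd w (Γ s) z) :=
    mul_le_mul v1 v2 (by positivity) ((sq_nonneg _).trans v1)
  have v5 := mul_le_mul_of_nonneg_left v4 hK0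
  linarith

/-- the equality when the centre does not move to first order: `∂_s ∂_s̄ |∂_z Γ|² = |∂_s ∂_z Γ|²` -/
theorem curv_eq (hw : IsHermitian w) (h : ∀ᶠ p in 𝓝 ((s, z) : ℂ × ℂ), HolAt2 n Γ p)
    (he : At e (Γ s z)) (h0 : vel (fun σ => Γ σ z) e s = 0) :
    ddb (fun σ => spd w (Γ σ) z) s =
      (quad (w e (e (Γ s z))) (deriv (fun σ => vel (Γ σ) e z) s)).re := by
  obtain ⟨c1, c2, c3, -⟩ := chart_curves h he
  rw [S3.ddb_congr (spd_curve_eventually hw h he)]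
  exact curve_eq (H := w e) (x := fun σ => e (Γ σ z)) (v := fun σ => vel (Γ σ) e z)
    (fun i j => hw.smooth e _ he i j) c1 c2 h0

end mfd

/-! ### circle averages -/

/-- `(avg_{|s| = ε} N - N(0)) / ε² → ∂∂̄ N (0)` -/
theorem tendsto_avg {N : ℂ → ℝ} (hN : ContDiffAt ℝ 2 N 0) :
    Tendsto (fun ε : ℝ => (Real.circleAverage N 0 ε - N 0) / ε ^ 2) (𝓝[>] 0) (𝓝 (ddb N 0)) := by
  obtain ⟨r0, hr0, hb0⟩ := Metric.eventually_nhds_iff_ball.1 (hN.eventually (by simp))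
  have hr1 : ∀ z ∈ closedBall (0 : ℂ) (r0 / 2), ContDiffAt ℝ 2 N z := fun z hz => by
    refine hb0 z ?_
    rw [mem_closedBall] at hz
    rw [mem_ball]; linarith
  have hcd : ContinuousOn (ddb N) (closedBall 0 (r0 / 2)) := contOn_ddb hr1
  have hc0 : ContinuousAt (ddb N) 0 := hcd.continuousAt (closedBall_mem_nhds _ (by linarith))
  rw [Metric.tendsto_nhds]
  intro η hη
  obtain ⟨δ, hδ, hd⟩ := Metric.continuousAt_iff.1 hc0 (η / 2) (by linarith)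
  filter_upwards [self_mem_nhdsWithin, mem_nhdsWithin_of_mem_nhds
    (Iio_mem_nhds (lt_min hδ (half_pos hr0)))] with ε hε hε2
  have hε0 : 0 < ε := hε
  have hε1 : ε < δ := lt_of_lt_of_le hε2 (min_le_left _ _)
  have hε3 : ε < r0 / 2 := lt_of_lt_of_le hε2 (min_le_right _ _)
  have hsub : closedBall (0 : ℂ) ε ⊆ closedBall 0 (r0 / 2) := closedBall_subset_closedBall hε3.le
  have h1 := green_jensen hε0 fun z hz => hr1 z (hsub hz)
  have i1 : MeasureTheory.IntegrableOn (fun z => Gr ε z * ddb N z) (ball (0 : ℂ) ε) :=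
    integrableOn_Gr_mul hε0 (hcd.mono hsub)
  have i2 : MeasureTheory.IntegrableOn (fun z => Gr ε z * ddb N 0) (ball (0 : ℂ) ε) :=
    (integrableOn_Gr hε0).mul_const _
  have h2 : ∫ z in ball (0 : ℂ) ε, Gr ε z * (ddb N z - ddb N 0) =
      (Real.circleAverage N 0 ε - N 0) - ε ^ 2 * ddb N 0 := by
    have h3 : (fun z => Gr ε z * (ddb N z - ddb N 0)) = fun z => Gr ε z * ddb N z -
        Gr ε z * ddb N 0 := by funext z; ring
    rw [h3, MeasureTheory.integral_sub i1 i2, h1, MeasureTheory.integral_mul_const, integral_Gr hε0]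
  have h4 : ‖∫ z in ball (0 : ℂ) ε, Gr ε z * (ddb N z - ddb N 0)‖ ≤
      ∫ z in ball (0 : ℂ) ε, Gr ε z * (η / 2) := by
    refine MeasureTheory.norm_integral_le_of_norm_le ((integrableOn_Gr hε0).mul_const _) ?_
    filter_upwards [MeasureTheory.ae_restrict_mem measurableSet_ball] with z hz
    rw [norm_mul, Real.norm_eq_abs, abs_of_nonneg (Gr_nonneg hz)]
    have hz' : dist z 0 < δ := by
      rw [mem_ball] at hz; linarith
    have h5 : ‖ddb N z - ddb N 0‖ ≤ η / 2 := by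
      have := hd hz'
      rw [dist_eq_norm] at this
      exact this.le
    exact mul_le_mul_of_nonneg_left h5 (Gr_nonneg hz)
  rw [MeasureTheory.integral_mul_const, integral_Gr hε0, h2, Real.norm_eq_abs] at h4
  rw [Real.dist_eq]
  have hε2 : 0 < ε ^ 2 := by positivity
  have h6 : (Real.circleAverage N 0 ε - N 0) / ε ^ 2 - ddb N 0 =
      ((Real.circleAverage N 0 ε - N 0) - ε ^ 2 * ddb N 0) / ε ^ 2 := by
    field_simp
  rw [h6, abs_div, abs_of_pos hε2, div_lt_iff₀ hε2]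
  nlinarith

/-- consequence used in the second variation: an upper bound of the circle averages of `N` gives
an upper bound of `∂∂̄ N (0)` -/
theorem ddb_le_of_avg {N : ℂ → ℝ} (hN : ContDiffAt ℝ 2 N 0) {A : ℝ → ℝ} {A0 : ℝ}
    (hA : Tendsto A (𝓝[>] 0) (𝓝 A0))
    (hle : ∀ᶠ ε in 𝓝[>] (0 : ℝ), Real.circleAverage N 0 ε - N 0 ≤ ε ^ 2 * A ε) :
    ddb N 0 ≤ A0 := by
  refine le_of_tendsto_of_tendsto (tendsto_avg hN) hA ?_
  filter_upwards [hle, self_mem_nhdsWithin] with ε h1 h2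
  have h3 : (0 : ℝ) < ε ^ 2 := by
    have : (0 : ℝ) < ε := h2
    positivity
  rw [div_le_iff₀ h3]
  linarith

end Vale.Agent.P272.XT
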