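import Vale.Agent.P272.H696.S12Ahq

/-! P272 / XT: the Szego frame (helper696). -/

open Matrix Complex MeasureTheory Metric
open scoped ComplexOrder Real MatrixOrder

set_option linter.all false

namespace Vale.Agent.P272.XT

open Vale.Agent.P272.K Vale.Agent.P272.HY

/-- **XSZ** the Szego frame: a polynomial matrix `v`, orthonormal on average on the circle, with
`log |det v(0)|²` almost maximal. -/
theorem szego_frame {n : ℕ} {P : ℂ → Matrix (Fin n) (Fin n) ℂ}
    (hP : ContinuousOn P (sphere (0 : ℂ) 1)) (hpd : ∀ z ∈ sphere (0 : ℂ) 1, (P z).PosDef)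
    {δ : ℝ} (hδ : 0 < δ) :
    ∃ v : Matrix (Fin n) (Fin n) (Polynomial ℂ),
      (v.map (Polynomial.eval 0)).det ≠ 0 ∧
      (∀ c : Cm n, Real.circleAverage (fun z => hq (P z) (fun i => ∑ j, (v i j).eval z * c j)) 0 1
        = ∑ i, ‖c i‖ ^ 2) ∧
      -Real.circleAverage (fun z => Real.log (P z).det.re) 0 1 - δ ≤
        Real.log (‖(v.map (Polynomial.eval 0)).det‖ ^ 2) := by
  obtain ⟨A, G, hA0, hG, hform, hlog⟩ := s12a hP hpd hδ
  have hGt : (Gᵀ).PosDef := hG.transpose
  obtain ⟨R, hR⟩ := CStarAlgebra.nonneg_iff_eq_star_mul_self.mp hGt.posSemidef.nonneg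
  rw [star_eq_conjTranspose] at hR
  have hdet : G.det = star R.det * R.det := by
    rw [← det_transpose G, hR, det_mul, det_conjTranspose]
  have hGpos : 0 < G.det.re := by
    have := hG.det_pos
    rw [Complex.lt_def] at this
    exact this.1
  have hRn : G.det.re = ‖R.det‖ ^ 2 := by
    rw [hdet, Complex.star_def, Complex.conj_mul']
    norm_cast
  have hRd : R.det ≠ 0 := by
    intro h
    rw [hRn, h] at hGpos
    simp at hGpos
  have hRu : IsUnit R.det := isUnit_iff_ne_zero.2 hRd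
  have hRS : R * R⁻¹ = 1 := mul_nonsing_inv R hRu
  have hev : ∀ (z : ℂ) (i j : Fin n), ((A * (R⁻¹).map Polynomial.C) i j).eval z =
      ∑ k, (A i k).eval z * R⁻¹ k j := by
    intro z i j
    rw [mul_apply, Polynomial.eval_finset_sum]
    refine Finset.sum_congr rfl fun k _ => ?_
    rw [Polynomial.eval_mul, map_apply, Polynomial.eval_C]
  have h0 : (A * (R⁻¹).map Polynomial.C).map (Polynomial.eval 0) = R⁻¹ := by
    ext i j
    rw [map_apply, hev]
    simp only [hA0, ite_mul, one_mul, zero_mul]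
    rw [Finset.sum_ite_eq]
    simp
  have hdi : (R⁻¹).det = (R.det)⁻¹ := by
    rw [det_nonsing_inv, Ring.inverse_eq_inv]
  refine ⟨A * (R⁻¹).map Polynomial.C, ?_, fun c => ?_, ?_⟩
  · rw [h0, hdi]
    exact inv_ne_zero hRd
  · have h1 : ∀ z : ℂ, (fun i => ∑ j, ((A * (R⁻¹).map Polynomial.C) i j).eval z * c j) =
        fun i => ∑ k, (A i k).eval z * (R⁻¹ *ᵥ c) k := by
      intro z
      funext i
      simp only [hev, mulVec, dotProduct, Finset.sum_mul, Finset.mul_sum]
      rw [Finset.sum_comm]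
      refine Finset.sum_congr rfl fun k _ => Finset.sum_congr rfl fun j _ => ?_
      ring
    simp only [h1]
    rw [← hform, hq_eq, hR]
    have h2 : star (R⁻¹ *ᵥ c) ⬝ᵥ (Rᴴ * R) *ᵥ (R⁻¹ *ᵥ c) = star c ⬝ᵥ c := by
      rw [← mulVec_mulVec, mulVec_mulVec (M := R), hRS, one_mulVec, dotProduct_mulVec,
        ← star_mulVec, mulVec_mulVec, hRS, one_mulVec]
    rw [h2, dotProduct, Complex.re_sum]
    refine Finset.sum_congr rfl fun i _ => ?_
    rw [Pi.star_apply, Complex.star_def, Complex.conj_mul']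
    norm_cast
  · rw [h0, hdi, norm_inv, inv_pow, ← hRn, Real.log_inv]
    linarith

end Vale.Agent.P272.XT
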