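import Vale.Agent.P272.GJ.Second
import Vale.Agent.P272.XJ.Green

/-!
# P272 / XT: the integrated second variation formula with the weight `(r² - |z|²)/π`
-/

open MeasureTheory Set Metric Complex Filter
open scoped Real Topology ENNReal

noncomputable section

namespace Vale.Agent.P272.XT

open Vale.Agent.P272.GJ Vale.Agent.P272.XJ

lemma continuous_wt (r : ℝ) : Continuous (wt r) := by unfold wt; fun_prop

lemma wt_nonneg {r : ℝ} {z : ℂ} (hz : z ∈ ball (0 : ℂ) r) : 0 ≤ wt r z := by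
  rw [mem_ball, dist_zero_right] at hz
  unfold wt
  have h0 := norm_nonneg z
  have : 0 ≤ r ^ 2 - ‖z‖ ^ 2 := by nlinarith
  have hpi := Real.pi_pos
  positivity

lemma wt_mono {r r' : ℝ} (hr : 0 ≤ r) (h : r ≤ r') (z : ℂ) : wt r z ≤ wt r' z := by
  unfold wt
  have hpi := Real.pi_pos
  gcongr

lemma integrableOn_wt_mul {r ρ : ℝ} {F : ℂ → ℝ} (hF : ContinuousOn F (closedBall 0 r)) :
    IntegrableOn (fun z => wt ρ z * F z) (ball (0 : ℂ) r) :=
  (((continuous_wt ρ).continuousOn.mul hF).integrableOn_compact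
    (isCompact_closedBall _ _)).mono_set ball_subset_closedBall

lemma integrableOn_cont {r : ℝ} {F : ℂ → ℝ} (hF : ContinuousOn F (closedBall 0 r)) :
    IntegrableOn F (ball (0 : ℂ) r) :=
  (hF.integrableOn_compact (isCompact_closedBall _ _)).mono_set ball_subset_closedBall

section
variable {Θ Ξ : ℂ → ℂ → ℝ} {ε r : ℝ}

lemma circleAverage_wt_swap (hε : 0 ≤ ε) {H : ℂ → ℂ → ℝ}
    (hH : ContinuousOn (fun p : ℂ × ℂ => H p.1 p.2) (closedBall 0 ε ×ˢ closedBall 0 r)) :
    Real.circleAverage (fun s => ∫ z in ball (0 : ℂ) r, wt r z * H s z) 0 ε =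
      ∫ z in ball (0 : ℂ) r, wt r z * Real.circleAverage (fun s => H s z) 0 ε := by
  have hpi : -π ≤ π := by linarith [Real.pi_pos]
  simp_rw [circleAverage_eq_pi, intervalIntegral.integral_of_le hpi, smul_eq_mul]
  have hcont : ContinuousOn (fun p : ℝ × ℂ => H (pt ε p.1) p.2) (Icc (-π) π ×ˢ closedBall 0 r) := by
    refine hH.comp (t := closedBall 0 ε ×ˢ closedBall 0 r)
      (f := fun p : ℝ × ℂ => (pt ε p.1, p.2)) ?_ fun p hp => ⟨pt_mem hε le_rfl _, hp.2⟩
    have : Continuous fun p : ℝ × ℂ => (pt ε p.1, p.2) := by unfold pt; fun_prop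
    exact this.continuousOn
  have hint := integrable_mul_cont (μ := volume) (ν := volume) (f := fun _ : ℝ => (1 : ℝ))
    (A := Ioc (-π) π) (g := wt r) (B := ball (0 : ℂ) r) (by simp)
    (integrableOn_cont (continuous_wt r).continuousOn) measurableSet_Ioc
    measurableSet_ball isCompact_Icc (isCompact_closedBall 0 r) Ioc_subset_Icc_self
    ball_subset_closedBall hcont
  simp only [one_mul] at hint
  rw [integral_integral_swap hint, ← integral_const_mul]
  refine integral_congr_ae (Eventually.of_forall fun z => ?_)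
  simp only
  rw [integral_const_mul]
  ring

/-- **the integrated second variation formula** with the weight `(r² - |z|²)/π` -/
theorem second_integrated_wt (hε : 0 < ε) (hr : 0 < r)
    (hΘ : ∀ s ∈ closedBall (0 : ℂ) ε, ∀ z ∈ closedBall (0 : ℂ) r,
      ContDiffAt ℝ 2 (fun p : ℂ × ℂ => Θ p.1 p.2) (s, z))
    (hΞ : ∀ s ∈ closedBall (0 : ℂ) ε, ∀ z ∈ closedBall (0 : ℂ) r,
      ContDiffAt ℝ 2 (fun p : ℂ × ℂ => Ξ p.1 p.2) (s, z))
    (hid : ∀ s ∈ ball (0 : ℂ) ε, ∀ z ∈ ball (0 : ℂ) r, ddb (fun s => Θ s z) s = ddb (Ξ s) z) :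
    Real.circleAverage (fun s => ∫ z in ball (0 : ℂ) r, wt r z * Θ s z) 0 ε -
        ∫ z in ball (0 : ℂ) r, wt r z * Θ 0 z =
      ∫ s in ball (0 : ℂ) ε, Gr ε s *
        (r ^ 2 * Real.circleAverage (Ξ s) 0 r - ∫ z in ball (0 : ℂ) r, Ξ s z / π) := by
  have cΘ : ContinuousOn (fun p : ℂ × ℂ => Θ p.1 p.2) (closedBall 0 ε ×ˢ closedBall 0 r) :=
    fun p hp => (hΘ p.1 hp.1 p.2 hp.2).continuousAt.continuousWithinAt
  have cD : ContinuousOn (fun p : ℂ × ℂ => ddb (Ξ p.1) p.2) (closedBall 0 ε ×ˢ closedBall 0 r) :=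
    contOn_ddb_snd (Θ := Ξ) fun p hp => hΞ p.1 hp.1 p.2 hp.2
  have h0ε : (0 : ℂ) ∈ closedBall (0 : ℂ) ε := mem_closedBall_self hε.le
  -- left-hand side
  have hI1 : IntegrableOn (fun z => wt r z * Real.circleAverage (fun s => Θ s z) 0 ε)
      (ball (0 : ℂ) r) := by
    refine integrableOn_wt_mul ?_
    have cΘ' : ContinuousOn (fun p : ℂ × ℂ => (fun z s => Θ s z) p.1 p.2)
        (closedBall 0 r ×ˢ closedBall 0 ε) := by
      refine cΘ.comp (f := fun p : ℂ × ℂ => (p.2, p.1)) (by fun_prop) fun p hp => ⟨hp.2, hp.1⟩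
    exact contOn_circleAverage (H := fun z s => Θ s z) hε.le cΘ'
  have hI2 : IntegrableOn (fun z => wt r z * Θ 0 z) (ball (0 : ℂ) r) :=
    integrableOn_wt_mul fun z hz =>
      (contDiffAt_snd (hΘ 0 h0ε z hz)).continuousAt.continuousWithinAt
  rw [circleAverage_wt_swap hε.le cΘ, ← integral_sub hI1 hI2]
  have hint := integrable_mul_cont (μ := volume) (ν := volume) (f := Gr ε) (g := wt r)
    (integrableOn_Gr hε) (integrableOn_cont (continuous_wt r).continuousOn) measurableSet_ball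
    measurableSet_ball (isCompact_closedBall 0 ε) (isCompact_closedBall 0 r)
    ball_subset_closedBall ball_subset_closedBall cD
  have e1 : ∀ z ∈ ball (0 : ℂ) r, wt r z * Real.circleAverage (fun s => Θ s z) 0 ε -
      wt r z * Θ 0 z = ∫ s in ball (0 : ℂ) ε, Gr ε s * wt r z * ddb (Ξ s) z := by
    intro z hz
    have h1 := green_jensen (φ := fun s => Θ s z) hε
      fun s hs => contDiffAt_fst (hΘ s hs z (ball_subset_closedBall hz))
    rw [← mul_sub, ← h1, ← integral_const_mul]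
    refine setIntegral_congr_fun measurableSet_ball fun s hs => ?_
    rw [hid s hs z hz]
    ring
  have e2 : ∀ s ∈ ball (0 : ℂ) ε, Gr ε s *
      (r ^ 2 * Real.circleAverage (Ξ s) 0 r - ∫ z in ball (0 : ℂ) r, Ξ s z / π) =
      ∫ z in ball (0 : ℂ) r, Gr ε s * wt r z * ddb (Ξ s) z := by
    intro s hs
    have h1 := green_wt (φ := Ξ s) hr
      fun z hz => contDiffAt_snd (hΞ s (ball_subset_closedBall hs) z hz)
    rw [← h1, ← integral_const_mul]
    refine setIntegral_congr_fun measurableSet_ball fun z hz => ?_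
    ring
  rw [setIntegral_congr_fun measurableSet_ball e1, setIntegral_congr_fun measurableSet_ball e2]
  exact (integral_integral_swap hint).symm

end

end Vale.Agent.P272.XT
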