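import Vale.Agent.P272.BR.Lip

/-! Maximisers of `|f'(0)|_w² - λ ∫_D k |f'|_{w'}² dA` over ALL holomorphic discs (free centre),
for a nonnegative measurable weight `k`; competitors `f ∘ φ`. -/

open scoped Manifold ContDiff ComplexOrder Topology ENNReal
open Complex Set Filter Metric MeasureTheory

set_option linter.all false

noncomputable section

namespace Vale.Agent.P272.XT

open Vale.Agent.P272.K Vale.Agent.P272.BR

section
variable {n : ℕ} {X : Type*} [TopologicalSpace X] [ChartedSpace (Cm n) X]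
  {h w w' : Chart n X → Cm n → Matrix (Fin n) (Fin n) ℂ} {f g : ℂ → X} {k : ℂ → ℝ}

/-- `∫_D k |f'|_h² dA` in `[0,∞]` -/
def TK (k : ℂ → ℝ) (h : Chart n X → Cm n → Matrix (Fin n) (Fin n) ℂ) (f : ℂ → X) : ℝ≥0∞ :=
  ∫⁻ z in ball (0:ℂ) 1, ENNReal.ofReal (k z * BR.spd h f z)

/-- the functional -/
def PhK (k : ℂ → ℝ) (w w' : Chart n X → Cm n → Matrix (Fin n) (Fin n) ℂ) (lam : ℝ) (f : ℂ → X) :
    ℝ := BR.spd w f 0 - lam * (TK k w' f).toReal

variable [IsManifold 𝓘(ℂ, Cm n) ω X]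

lemma TK_const (k : ℂ → ℝ) (h : Chart n X → Cm n → Matrix (Fin n) (Fin n) ℂ) (x : X) :
    TK k h (fun _ => x) = 0 := by
  unfold TK
  simp [spd_const]

lemma PhK_const (k : ℂ → ℝ) (w w' : Chart n X → Cm n → Matrix (Fin n) (Fin n) ℂ) (lam : ℝ)
    (x : X) : PhK k w w' lam (fun _ => x) = 0 := by
  unfold PhK
  simp [TK_const, spd_const]

lemma PhK_le {M lam : ℝ} (hM : DiscBound w M) (hlam : 0 ≤ lam)
    (hf : HolOn n f (ball (0:ℂ) 1)) : PhK k w w' lam f ≤ M := by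
  have h1 : BR.spd w f 0 ≤ M := hM.zero f hf
  have h3 : 0 ≤ lam * (TK k w' f).toReal := mul_nonneg hlam ENNReal.toReal_nonneg
  unfold PhK
  linarith

lemma aemeasurable_spd (hh : IsHermitian h) (hf : HolOn n f (ball (0:ℂ) 1)) :
    AEMeasurable (BR.spd h f) (volume.restrict (ball (0:ℂ) 1)) :=
  (hf.continuousOn_spd isOpen_ball hh).aemeasurable measurableSet_ball

/-- compactness: limits of discs with `PhK ≥ c` (the centres are free) -/
theorem PhK_limit [T2Space X] [CompactSpace X] [Nonempty X] (hk : Measurable k)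
    (hw : IsHermitian w) (hw' : IsHermitian w') {M : ℝ} (hM : DiscBound w M) {lam : ℝ}
    (hlam : 0 < lam) {f : ℕ → ℂ → X} (hf : ∀ j, HolOn n (f j) (ball (0:ℂ) 1))
    (hfin : ∀ j, TK k w' (f j) < ⊤) {c : ℕ → ℝ} {c₀ : ℝ} (hc : Tendsto c atTop (𝓝 c₀))
    (hj : ∀ j, c j ≤ PhK k w w' lam (f j)) :
    ∃ g : ℂ → X, HolOn n g (ball (0:ℂ) 1) ∧ TK k w' g < ⊤ ∧ c₀ ≤ PhK k w w' lam g := by
  obtain ⟨φ, hφ, g, hg, hconv⟩ := normal hw isOpen_ball f (U := ball (0:ℂ) 1) (by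
    intro z hz
    have hz1 : ‖z‖ < 1 := by simpa using hz
    refine ⟨(1 - ‖z‖) / 2, by linarith, M / (1 - (1 + ‖z‖) / 2) ^ 2, Eventually.of_forall ?_⟩
    intro j y hy
    have hy1 : ‖y‖ ≤ (1 + ‖z‖) / 2 := by
      have h1 : ‖y - z‖ < (1 - ‖z‖) / 2 := by simpa [dist_eq_norm] using hy
      have h2 : ‖y‖ ≤ ‖y - z‖ + ‖z‖ := by simpa using norm_add_le (y - z) z
      linarith
    refine ⟨hf j y (by simp only [mem_ball_zero_iff]; linarith), ?_⟩
    exact hM.le_of_mem (hf j) (by linarith) hy1)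
  have hφt : Tendsto φ atTop atTop := hφ.tendsto_atTop
  have h0 : (0:ℂ) ∈ ball (0:ℂ) 1 := by simp
  have hs0 : Tendsto (fun j => BR.spd w (f (φ j)) 0) atTop (𝓝 (BR.spd w g 0)) :=
    hconv.spd hw hg h0
  set L : ℝ := (BR.spd w g 0 - c₀) / lam with hL
  have h2 : Tendsto (fun j => (BR.spd w (f (φ j)) 0 - c (φ j)) / lam) atTop (𝓝 L) :=
    (hs0.sub (hc.comp hφt)).div_const lam
  have hfat : TK k w' g ≤ ENNReal.ofReal L := by
    have h1 : TK k w' g ≤ liminf (fun j => TK k w' (f (φ j))) atTop := by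
      unfold TK
      refine le_trans (le_of_eq ?_) (lintegral_liminf_le' fun j =>
        (hk.aemeasurable.mul (aemeasurable_spd hw' (hf (φ j)))).ennreal_ofReal)
      refine setLIntegral_congr_fun measurableSet_ball fun z hz => ?_
      exact (((ENNReal.continuous_ofReal.tendsto _).comp
        ((hconv.spd hw' hg hz).const_mul (k z))).liminf_eq).symm
    refine h1.trans ?_
    have h2' := (ENNReal.continuous_ofReal.tendsto _).comp h2
    rw [← h2'.liminf_eq]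
    refine liminf_le_liminf (Eventually.of_forall fun j => ?_)
    have h3 : TK k w' (f (φ j)) = ENNReal.ofReal (TK k w' (f (φ j))).toReal :=
      (ENNReal.ofReal_toReal (hfin (φ j)).ne).symm
    rw [h3]
    refine ENNReal.ofReal_le_ofReal ?_
    rw [le_div_iff₀ hlam]
    have h4 := hj (φ j)
    unfold PhK at h4
    linarith
  have hfin' : TK k w' g < ⊤ := lt_of_le_of_lt hfat ENNReal.ofReal_lt_top
  refine ⟨g, hg, hfin', ?_⟩
  have hL0 : 0 ≤ L := by
    refine ge_of_tendsto h2 (Eventually.of_forall fun j => ?_)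
    have h4 := hj (φ j)
    unfold PhK at h4
    refine div_nonneg ?_ hlam.le
    have h5 : 0 ≤ lam * (TK k w' (f (φ j))).toReal := mul_nonneg hlam.le ENNReal.toReal_nonneg
    linarith
  have h5 : (TK k w' g).toReal ≤ L := ENNReal.toReal_le_of_le_ofReal hL0 hfat
  rw [hL, le_div_iff₀ hlam] at h5
  unfold PhK
  linarith

/-- **Existence of the extremal disc** (free centre, any weight). -/
theorem exists_maxK [T2Space X] [CompactSpace X] [Nonempty X] (hk : Measurable k)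
    (hw : IsHermitian w) (hw' : IsHermitian w') {M : ℝ} (hM : DiscBound w M) {lam : ℝ}
    (hlam : 0 < lam) :
    ∃ f : ℂ → X, HolOn n f (ball (0:ℂ) 1) ∧ TK k w' f < ⊤ ∧ ∀ g : ℂ → X,
      HolOn n g (ball (0:ℂ) 1) → TK k w' g < ⊤ → PhK k w w' lam g ≤ PhK k w w' lam f := by
  set S : Set ℝ := PhK k w w' lam '' {g | HolOn n g (ball (0:ℂ) 1) ∧ TK k w' g < ⊤} with hS
  have hne : S.Nonempty := ⟨_, fun _ => Classical.arbitrary X,
    ⟨holOn_const _ _, by rw [TK_const]; exact ENNReal.zero_lt_top⟩, rfl⟩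
  have hbd : BddAbove S := ⟨M, by
    rintro _ ⟨g, hg, rfl⟩
    exact PhK_le hM hlam.le hg.1⟩
  obtain ⟨u, -, hu, hmem⟩ := exists_seq_tendsto_sSup hne hbd
  choose f hf hfu using hmem
  obtain ⟨g, hg, hgf, hge⟩ := PhK_limit hk hw hw' hM hlam (f := f) (fun j => (hf j).1)
    (fun j => (hf j).2) hu (fun j => (hfu j).ge)
  exact ⟨g, hg, hgf, fun g' hg' hgf' => (le_csSup hbd ⟨g', ⟨hg', hgf'⟩, rfl⟩).trans hge⟩

/-- the exact change of variables for the competitor `f ∘ φ` -/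
theorem TK_comp_add {φ : ℂ → ℂ} (hk : Measurable k) (hk0 : ∀ z ∈ ball (0:ℂ) 1, 0 ≤ k z)
    (hkφ : ∀ z ∈ ball (0:ℂ) 1, k z ≤ k (φ z)) (hh : IsHermitian h)
    (hf : HolOn n f (ball (0:ℂ) 1))
    (hd : DifferentiableOn ℂ φ (ball (0:ℂ) 1)) (hinj : InjOn φ (ball (0:ℂ) 1))
    (hmaps : MapsTo φ (ball (0:ℂ) 1) (ball (0:ℂ) 1)) :
    TK k h (fun z => f (φ z)) +
      (∫⁻ z in ball (0:ℂ) 1, ENNReal.ofReal ((k (φ z) - k z) *
        (‖deriv φ z‖ ^ 2 * BR.spd h f (φ z)))) +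
      ∫⁻ z in ball (0:ℂ) 1 \ φ '' ball (0:ℂ) 1, ENNReal.ofReal (k z * BR.spd h f z) =
    TK k h f := by
  have hopen : IsOpen (φ '' ball (0:ℂ) 1) := by
    have hao : AnalyticOnNhd ℂ φ (ball (0:ℂ) 1) := fun z hz =>
      hd.analyticAt (isOpen_ball.mem_nhds hz)
    have hpre : IsPreconnected (ball (0:ℂ) 1) := (convex_ball (0:ℂ) 1).isPreconnected
    rcases AnalyticOnNhd.is_constant_or_isOpen hao hpre with ⟨w, hw⟩ | ho
    · exfalso
      have h1 := hinj (x₁ := 0) (x₂ := 1/2) (by simp) (by simp; norm_num)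
        ((hw 0 (by simp)).trans (hw (1/2) (by simp; norm_num)).symm)
      norm_num at h1
    · exact ho _ Subset.rfl isOpen_ball
  have hsub : φ '' ball (0:ℂ) 1 ⊆ ball (0:ℂ) 1 := hmaps.image_subset
  have hspd : ∀ z ∈ ball (0:ℂ) 1, BR.spd h (fun ζ => f (φ ζ)) z =
      ‖deriv φ z‖ ^ 2 * BR.spd h f (φ z) := fun z hz =>
    spd_comp (hf _ (hmaps hz)) (hd.differentiableAt (isOpen_ball.mem_nhds hz))
  have hfirst : TK k h (fun z => f (φ z)) +
      (∫⁻ z in ball (0:ℂ) 1, ENNReal.ofReal ((k (φ z) - k z) *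
        (‖deriv φ z‖ ^ 2 * BR.spd h f (φ z)))) =
      ∫⁻ z in φ '' ball (0:ℂ) 1, ENNReal.ofReal (k z * BR.spd h f z) := by
    rw [lintegral_image_holo isOpen_ball hd hinj]
    unfold TK
    rw [← lintegral_add_left']
    · refine setLIntegral_congr_fun measurableSet_ball fun z hz => ?_
      have hn : 0 ≤ ‖deriv φ z‖ ^ 2 * BR.spd h f (φ z) :=
        mul_nonneg (by positivity) (spd_nonneg hh _ _)
      beta_reduce
      rw [hspd z hz, ← ENNReal.ofReal_add (mul_nonneg (hk0 z hz) hn)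
        (mul_nonneg (sub_nonneg.2 (hkφ z hz)) hn), ← ENNReal.ofReal_mul (by positivity)]
      congr 1
      ring
    · exact (hk.aemeasurable.mul (aemeasurable_spd hh
        (hf.comp fun z hz => ⟨hd.differentiableAt (isOpen_ball.mem_nhds hz),
          hmaps hz⟩))).ennreal_ofReal
  rw [hfirst]
  have h3 := lintegral_inter_add_diff (μ := volume)
    (fun z => ENNReal.ofReal (k z * BR.spd h f z)) (ball (0:ℂ) 1) hopen.measurableSet
  rw [inter_eq_right.2 hsub] at h3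
  exact h3

/-- `∫ k |(f ∘ φ)'|² + ∫_A k |f'|² ≤ ∫ k |f'|²` when `φ` avoids `A` -/
theorem TK_comp_le {φ : ℂ → ℂ} (hk : Measurable k) (hk0 : ∀ z ∈ ball (0:ℂ) 1, 0 ≤ k z)
    (hkφ : ∀ z ∈ ball (0:ℂ) 1, k z ≤ k (φ z)) (hh : IsHermitian h)
    (hf : HolOn n f (ball (0:ℂ) 1)) (hfin : TK k h f < ⊤)
    (hd : DifferentiableOn ℂ φ (ball (0:ℂ) 1)) (hinj : InjOn φ (ball (0:ℂ) 1))
    (hmaps : MapsTo φ (ball (0:ℂ) 1) (ball (0:ℂ) 1)) {A : Set ℂ} (hA : MeasurableSet A)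
    (hA1 : A ⊆ ball (0:ℂ) 1) (hA2 : ∀ z ∈ ball (0:ℂ) 1, φ z ∉ A) :
    TK k h (fun z => f (φ z)) < ⊤ ∧
    (TK k h (fun z => f (φ z))).toReal + ∫ z in A, k z * BR.spd h f z ≤ (TK k h f).toReal := by
  have h1 := TK_comp_add hk hk0 hkφ hh hf hd hinj hmaps
  have h2 : ∫⁻ z in A, ENNReal.ofReal (k z * BR.spd h f z) ≤
      ∫⁻ z in ball (0:ℂ) 1 \ φ '' ball (0:ℂ) 1, ENNReal.ofReal (k z * BR.spd h f z) := by
    refine lintegral_mono_set fun z hz => ⟨hA1 hz, ?_⟩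
    rintro ⟨y, hy, rfl⟩
    exact hA2 y hy hz
  have h3 : TK k h (fun z => f (φ z)) + ∫⁻ z in A, ENNReal.ofReal (k z * BR.spd h f z) ≤
      TK k h f := by
    rw [← h1]
    exact add_le_add le_self_add h2
  have h4 : TK k h (fun z => f (φ z)) < ⊤ :=
    lt_of_le_of_lt (le_trans le_self_add h3) hfin
  have h5 : ∫⁻ z in A, ENNReal.ofReal (k z * BR.spd h f z) < ⊤ :=
    lt_of_le_of_lt (le_trans le_add_self h3) hfin
  refine ⟨h4, ?_⟩
  have h6 : ∫ z in A, k z * BR.spd h f z =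
      (∫⁻ z in A, ENNReal.ofReal (k z * BR.spd h f z)).toReal := by
    rw [integral_eq_lintegral_of_nonneg_ae]
    · exact (ae_restrict_iff' hA).2 (Eventually.of_forall fun z hz =>
        mul_nonneg (hk0 z (hA1 hz)) (spd_nonneg hh _ _))
    · exact (hk.aemeasurable.mul
        (((hf.continuousOn_spd isOpen_ball hh).mono hA1).aemeasurable hA)).aestronglyMeasurable
  rw [h6, ← ENNReal.toReal_add h4.ne h5.ne]
  exact ENNReal.toReal_mono hfin.ne h3

/-- **the inequality given by a competitor at a maximiser** (free centre, any weight `k`) -/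
theorem max_compK {φ : ℂ → ℂ} {lam : ℝ} (hk : Measurable k) (hk0 : ∀ z ∈ ball (0:ℂ) 1, 0 ≤ k z)
    (hkφ : ∀ z ∈ ball (0:ℂ) 1, k z ≤ k (φ z)) (hlam : 0 ≤ lam) (hw' : IsHermitian w')
    (hf : HolOn n f (ball (0:ℂ) 1)) (hfin : TK k w' f < ⊤)
    (hmax : ∀ g : ℂ → X, HolOn n g (ball (0:ℂ) 1) → g 0 = f 0 → TK k w' g < ⊤ →
      PhK k w w' lam g ≤ PhK k w w' lam f)
    (hd : DifferentiableOn ℂ φ (ball (0:ℂ) 1)) (hinj : InjOn φ (ball (0:ℂ) 1))
    (hmaps : MapsTo φ (ball (0:ℂ) 1) (ball (0:ℂ) 1)) (h0 : φ 0 = 0) {A : Set ℂ}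
    (hA : MeasurableSet A) (hA1 : A ⊆ ball (0:ℂ) 1) (hA2 : ∀ z ∈ ball (0:ℂ) 1, φ z ∉ A) :
    lam * ∫ z in A, k z * BR.spd w' f z ≤ (1 - ‖deriv φ 0‖ ^ 2) * BR.spd w f 0 := by
  have h2 := TK_comp_le hk hk0 hkφ hw' hf hfin hd hinj hmaps hA hA1 hA2
  have h1 := hmax (fun z => f (φ z))
    (hf.comp fun z hz => ⟨hd.differentiableAt (isOpen_ball.mem_nhds hz), hmaps hz⟩)
    (by simp only [h0]) h2.1
  have h3 : BR.spd w (fun z => f (φ z)) 0 = ‖deriv φ 0‖ ^ 2 * BR.spd w f 0 := by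
    have h4 := spd_comp (h := w) (f := f) (φ := φ) (z := 0)
      (hf _ (by rw [h0]; simp)) (hd.differentiableAt (isOpen_ball.mem_nhds (by simp)))
    rwa [h0] at h4
  have h5 := mul_le_mul_of_nonneg_left h2.2 hlam
  unfold PhK at h1
  rw [h3] at h1
  linarith

end

end Vale.Agent.P272.XT
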