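import Vale.Agent.P272.XT.Defs
import Mathlib.Analysis.Matrix.PosDef

/-!
# P272 / XT / RA1: a positive definite matrix with `tr A - n - log det A` small is almost `≥ 1`
-/

open scoped ComplexOrder
open Real

noncomputable section

namespace Vale.Agent.P272.XT

open Vale.Agent.P272.K Vale.Agent.P272.HY

/-- `e^{-y} - 1 + y ≥ y²/(2+y)` in the form `(2+y) e^{-y} ≥ 2 - y` -/
lemma pade {y : ℝ} (hy : 0 ≤ y) : 2 - y ≤ (2 + y) * exp (-y) := by
  have hd : ∀ x : ℝ, HasDerivAt (fun x => (2 + x) * exp (-x) - 2 + x)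
      (1 * exp (-x) + (2 + x) * (exp (-x) * -1) + 1) x := by
    intro x
    have h1 : HasDerivAt (fun x : ℝ => (2 + x)) 1 x := by
      simpa using (hasDerivAt_id x).const_add 2
    have h2 : HasDerivAt (fun x : ℝ => exp (-x)) (exp (-x) * -1) x := (hasDerivAt_neg x).exp
    have h3 := ((h1.mul h2).sub_const 2).add (hasDerivAt_id x)
    exact h3
  have hm : MonotoneOn (fun x : ℝ => (2 + x) * exp (-x) - 2 + x) (Set.Ici 0) := by
    refine monotoneOn_of_deriv_nonneg (convex_Ici 0) ?_ ?_ ?_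
    · exact fun x _ => (hd x).continuousAt.continuousWithinAt
    · exact fun x _ => (hd x).differentiableAt.differentiableWithinAt
    · intro x hx
      rw [interior_Ici] at hx
      rw [(hd x).deriv]
      have h1 : (1 + x) * exp (-x) ≤ 1 := by
        have h2 : x + 1 ≤ exp x := add_one_le_exp x
        have h3 : (x + 1) * exp (-x) ≤ exp x * exp (-x) :=
          mul_le_mul_of_nonneg_right h2 (exp_nonneg _)
        rw [← exp_add, add_neg_cancel, exp_zero] at h3
        linarith
      nlinarith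
  have := hm (Set.mem_Ici.2 le_rfl) (Set.mem_Ici.2 hy) hy
  simp only [neg_zero, exp_zero] at this
  linarith

/-- the function `y(E) = E + √(2E)` -/
def yy (E : ℝ) : ℝ := E + √(2 * E)

lemma yy_nonneg {E : ℝ} (hE : 0 ≤ E) : 0 ≤ yy E := add_nonneg hE (sqrt_nonneg _)

lemma scalar_bound {x E : ℝ} (hx : 0 < x) (hE : x - 1 - log x ≤ E) : exp (-(yy E)) ≤ x := by
  have hE0 : 0 ≤ E := le_trans (by linarith [log_le_sub_one_of_pos hx]) hE
  by_cases h1 : 1 ≤ x
  · refine le_trans ?_ h1
    rw [exp_le_one_iff]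
    linarith [yy_nonneg hE0]
  · push Not at h1
    set y := -log x with hy
    have hy0 : 0 < y := by
      have := log_neg hx h1
      linarith
    have hxe : x = exp (-y) := by rw [hy, neg_neg, exp_log hx]
    have h2 := pade hy0.le
    rw [← hxe] at h2
    -- (2 + y) E ≥ y²
    have h3 : y ^ 2 ≤ (2 + y) * E := by
      have h4 : (2 + y) * (x - 1 + y) ≤ (2 + y) * E := by
        refine mul_le_mul_of_nonneg_left ?_ (by linarith)
        linarith
      nlinarith
    have h5 : y ≤ yy E := by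
      by_contra hc
      push Not at hc
      unfold yy at hc
      set r := √(2 * E) with hr
      have hr0 : 0 ≤ r := sqrt_nonneg _
      have hr2 : r ^ 2 = 2 * E := sq_sqrt (by linarith)
      nlinarith [mul_pos hy0 (sub_pos.2 hc), mul_nonneg hE0 hr0]
    rw [hxe]
    exact exp_le_exp.2 (by linarith)

section
variable {n : ℕ}

lemma hq_eq_dot (A : Matrix (Fin n) (Fin n) ℂ) (c : Cm n) :
    hq A c = (star (fun i => star (c i)) ⬝ᵥ A.mulVec (fun i => star (c i))).re := by
  unfold hq
  rw [quad_eq]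
  congr 2

lemma sub_smul_one_posSemidef {A : Matrix (Fin n) (Fin n) ℂ} (hA : A.IsHermitian) {μ : ℝ}
    (h : ∀ i, μ ≤ hA.eigenvalues i) : (A - (μ : ℂ) • (1 : Matrix (Fin n) (Fin n) ℂ)).PosSemidef := by
  set U : Matrix (Fin n) (Fin n) ℂ := (hA.eigenvectorUnitary : Matrix (Fin n) (Fin n) ℂ) with hU
  have h1 : A = U * Matrix.diagonal (fun i => (hA.eigenvalues i : ℂ)) * star U := by
    conv_lhs => rw [hA.spectral_theorem]
    rfl
  have h2 : U * star U = 1 := by
    exact Unitary.coe_mul_star_self hA.eigenvectorUnitary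
  have h3 : A - (μ : ℂ) • (1 : Matrix (Fin n) (Fin n) ℂ) =
      U * Matrix.diagonal (fun i => ((hA.eigenvalues i - μ : ℝ) : ℂ)) * U.conjTranspose := by
    have h4 : (Matrix.diagonal (fun i => ((hA.eigenvalues i - μ : ℝ) : ℂ)) :
        Matrix (Fin n) (Fin n) ℂ) = Matrix.diagonal (fun i => (hA.eigenvalues i : ℂ)) -
          (μ : ℂ) • (1 : Matrix (Fin n) (Fin n) ℂ) := by
      ext i j
      by_cases hij : i = j
      · subst hij; simp
      · simp [hij]
    rw [h4, mul_sub, sub_mul, ← Matrix.star_eq_conjTranspose, ← h1, Matrix.mul_smul,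
      Matrix.smul_mul, mul_one, h2]
  rw [h3]
  refine Matrix.PosSemidef.mul_mul_conjTranspose_same ?_ U
  rw [Matrix.posSemidef_diagonal_iff]
  intro i
  exact_mod_cast sub_nonneg.2 (h i)

/-- the defect `tr A - n - log det A` -/
def dfc (A : Matrix (Fin n) (Fin n) ℂ) : ℝ := A.trace.re - n - Real.log A.det.re

lemma dfc_bounds {A : Matrix (Fin n) (Fin n) ℂ} (hA : A.PosDef) :
    0 ≤ dfc A ∧ ∀ c : Cm n, exp (-(yy (dfc A))) * ∑ i, ‖c i‖ ^ 2 ≤ hq A c := by
  have hH := hA.isHermitian
  have hpos : ∀ i, 0 < hH.eigenvalues i := fun i => hA.eigenvalues_pos i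
  have htr : A.trace.re = ∑ i, hH.eigenvalues i := by
    rw [hH.trace_eq_sum_eigenvalues]
    simp
  have hdet : A.det.re = ∏ i, hH.eigenvalues i := by
    rw [hH.det_eq_prod_eigenvalues]
    have : (∏ i, (hH.eigenvalues i : ℂ)) = ((∏ i, hH.eigenvalues i : ℝ) : ℂ) := by push_cast; rfl
    simp only [RCLike.ofReal_eq_complex_ofReal] at *
    rw [this, Complex.ofReal_re]
  have hsum : dfc A = ∑ i, (hH.eigenvalues i - 1 - Real.log (hH.eigenvalues i)) := by
    unfold dfc
    rw [htr, hdet, Real.log_prod (fun i _ => (hpos i).ne')]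
    simp [Finset.sum_sub_distrib]
  have hterm : ∀ i, 0 ≤ hH.eigenvalues i - 1 - Real.log (hH.eigenvalues i) := fun i => by
    linarith [log_le_sub_one_of_pos (hpos i)]
  have h0 : 0 ≤ dfc A := by rw [hsum]; exact Finset.sum_nonneg fun i _ => hterm i
  refine ⟨h0, fun c => ?_⟩
  have hμ : ∀ i, exp (-(yy (dfc A))) ≤ hH.eigenvalues i := by
    intro i
    refine scalar_bound (hpos i) ?_
    rw [hsum]
    exact Finset.single_le_sum (f := fun i => hH.eigenvalues i - 1 - Real.log (hH.eigenvalues i))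
      (fun j _ => hterm j) (Finset.mem_univ i)
  have h1 := sub_smul_one_posSemidef hH hμ
  have h2 := h1.re_dotProduct_nonneg (fun i => star (c i))
  rw [hq_eq_dot]
  have h3 : (star (fun i => star (c i)) ⬝ᵥ
      ((exp (-(yy (dfc A))) : ℝ) : ℂ) • (fun i => star (c i))).re =
      exp (-(yy (dfc A))) * ∑ i, ‖c i‖ ^ 2 := by
    rw [dotProduct_smul]
    have : (star (fun i => star (c i)) ⬝ᵥ (fun i => star (c i))) = ((∑ i, ‖c i‖ ^ 2 : ℝ) : ℂ) := by
      simp only [dotProduct, Pi.star_apply, star_star]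
      push_cast
      refine Finset.sum_congr rfl fun i _ => ?_
      have := Complex.mul_conj (c i)
      rw [Complex.star_def, this, Complex.normSq_eq_norm_sq]
      push_cast; rfl
    rw [this, smul_eq_mul, ← Complex.ofReal_mul, Complex.ofReal_re]
  rw [Matrix.sub_mulVec, dotProduct_sub, Matrix.smul_mulVec, Matrix.one_mulVec] at h2
  simp only [map_sub] at h2
  rw [← h3]
  exact sub_nonneg.1 h2

end

end Vale.Agent.P272.XT
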