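import Vale.Agent.P272.XT.RA1
import Mathlib.MeasureTheory.Integral.CircleAverage
import Mathlib.Analysis.Complex.JensenFormula

/-!
# P272 / XT / RA2: Jensen type inequalities on a circle
-/

open scoped ComplexOrder
open Real Set Metric Filter MeasureTheory

noncomputable section

namespace Vale.Agent.P272.XT

section circle
variable {f g q E : ℂ → ℝ} {G : Set ℂ} {ρ : ℝ}

lemma ca_mono_good (hρ : 0 < ρ) (hG : G ∈ codiscreteWithin (sphere (0:ℂ) ρ))
    (hf : CircleIntegrable f 0 ρ) (hg : CircleIntegrable g 0 ρ)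
    (h : ∀ z ∈ sphere (0:ℂ) ρ, z ∈ G → f z ≤ g z) :
    circleAverage f 0 ρ ≤ circleAverage g 0 ρ := by
  classical
  set f' : ℂ → ℝ := fun z => if z ∈ G then f z else g z with hf'
  have hG' : G ∈ codiscreteWithin (sphere (0:ℂ) |ρ|) := by rwa [abs_of_pos hρ]
  have he : f =ᶠ[codiscreteWithin (sphere (0:ℂ) |ρ|)] f' := by
    filter_upwards [hG'] with z hz
    simp [hf', hz]
  rw [circleAverage_congr_codiscreteWithin he hρ.ne']
  refine circleAverage_mono (hf.congr_codiscreteWithin he) hg fun z hz => ?_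
  rw [abs_of_pos hρ] at hz
  by_cases hzG : z ∈ G
  · simp only [hf', hzG, if_true]; exact h z hz hzG
  · simp [hf', hzG]

lemma ca_affine (hg : CircleIntegrable g 0 ρ) (a b : ℝ) :
    circleAverage (fun z => a * (b + g z)) 0 ρ = a * (b + circleAverage g 0 ρ) := by
  have h1 : (fun z => a * (b + g z)) = (fun z => (a * b)) + (a • g) := by
    funext z; simp [mul_add]
  rw [h1, circleAverage_add (circleIntegrable_const _ _ _) hg.const_smul, circleAverage_const,
    circleAverage_smul, smul_eq_mul, mul_add]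

lemma ci_affine (hg : CircleIntegrable g 0 ρ) (a b : ℝ) :
    CircleIntegrable (fun z => a * (b + g z)) 0 ρ := by
  have h1 : (fun z => a * (b + g z)) = (fun z => (a * b)) + (a • g) := by
    funext z; simp [mul_add]
  rw [h1]
  exact (circleIntegrable_const _ _ _).add hg.const_smul

/-- Jensen's inequality for the exponential on a circle -/
lemma exp_ca_le (hρ : 0 < ρ) (hG : G ∈ codiscreteWithin (sphere (0:ℂ) ρ))
    (hg : CircleIntegrable g 0 ρ) (hq : CircleIntegrable q 0 ρ)
    (h : ∀ z ∈ sphere (0:ℂ) ρ, z ∈ G → exp (g z) ≤ q z) :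
    exp (circleAverage g 0 ρ) ≤ circleAverage q 0 ρ := by
  set m := circleAverage g 0 ρ with hm
  have h1 := ca_mono_good (f := fun z => exp m * ((1 - m) + g z)) (g := q) hρ hG
    (ci_affine hg _ _) hq (fun z hz hzG => by
      refine le_trans ?_ (h z hz hzG)
      have h2 : (g z - m) + 1 ≤ exp (g z - m) := add_one_le_exp _
      have h3 : exp (g z) = exp m * exp (g z - m) := by rw [← exp_add]; ring_nf
      rw [h3]
      refine mul_le_mul_of_nonneg_left ?_ (exp_nonneg _)
      linarith)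
  rw [ca_affine hg] at h1
  have : exp m * (1 - m + circleAverage g 0 ρ) = exp m := by rw [← hm]; ring
  rwa [this] at h1

lemma ci_sqrt (hE : CircleIntegrable E 0 ρ) : CircleIntegrable (fun z => √(2 * E z)) 0 ρ := by
  unfold CircleIntegrable at *
  have h1 : IntervalIntegrable (fun θ => 1 / 2 + |E (circleMap 0 ρ θ)|) volume 0 (2 * π) :=
    intervalIntegrable_const.add hE.abs
  refine IntervalIntegrable.mono_fun h1 ?_ ?_
  · have h2 : AEStronglyMeasurable (fun θ => E (circleMap 0 ρ θ))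
        (volume.restrict (uIoc 0 (2 * π))) := hE.def'.aestronglyMeasurable
    exact (continuous_sqrt.comp (continuous_const.mul continuous_id)).comp_aestronglyMeasurable h2
  · refine Eventually.of_forall fun θ => ?_
    set x := E (circleMap 0 ρ θ) with hx
    have h3 : √(2 * x) ≤ 1 / 2 + |x| := by
      rw [sqrt_le_left (by positivity)]
      nlinarith [sq_nonneg (|x| - 1 / 2), le_abs_self x]
    simp only [norm_eq_abs]
    rw [abs_of_nonneg (sqrt_nonneg _)]
    exact h3.trans (le_abs_self _)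

lemma sqrt_tangent {x s : ℝ} (hx : 0 ≤ x) (hs : 0 < s) : √(2 * x) ≤ x / s + s / 2 := by
  rw [sqrt_le_left (by positivity)]
  have h1 : (x / s + s / 2) ^ 2 = (x / s - s / 2) ^ 2 + 2 * x := by field_simp; ring
  rw [h1]
  nlinarith [sq_nonneg (x / s - s / 2)]

/-- concavity of the square root on a circle -/
lemma ca_sqrt_le (hρ : 0 < ρ) (hG : G ∈ codiscreteWithin (sphere (0:ℂ) ρ))
    (hE : CircleIntegrable E 0 ρ) (h0 : ∀ z ∈ sphere (0:ℂ) ρ, z ∈ G → 0 ≤ E z) {b : ℝ}
    (hb : circleAverage E 0 ρ ≤ b) (hb0 : 0 ≤ b) :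
    circleAverage (fun z => √(2 * E z)) 0 ρ ≤ √(2 * b) := by
  have key : ∀ s : ℝ, 0 < s → circleAverage (fun z => √(2 * E z)) 0 ρ ≤ b / s + s / 2 := by
    intro s hs
    have h1 := ca_mono_good (f := fun z => √(2 * E z)) (g := fun z => s⁻¹ * (s ^ 2 / 2 + E z)) hρ hG
      (ci_sqrt hE) (ci_affine hE _ _) (fun z hz hzG => by
        refine (sqrt_tangent (h0 z hz hzG) hs).trans (le_of_eq ?_)
        field_simp; ring)
    rw [ca_affine hE] at h1
    refine h1.trans ?_
    have h2 : s⁻¹ * (s ^ 2 / 2 + circleAverage E 0 ρ) ≤ s⁻¹ * (s ^ 2 / 2 + b) := by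
      gcongr
    refine h2.trans (le_of_eq ?_)
    field_simp; ring
  rcases hb0.eq_or_lt with h | h
  · subst h
    simp only [mul_zero, sqrt_zero]
    refine le_of_forall_pos_le_add fun ε hε => ?_
    have := key (2 * ε) (by linarith)
    simp only [zero_div, zero_add] at this ⊢
    linarith
  · have hs : 0 < √(2 * b) := sqrt_pos.2 (by linarith)
    refine (key _ hs).trans (le_of_eq ?_)
    have h2 : √(2 * b) * √(2 * b) = 2 * b := mul_self_sqrt (by linarith)
    generalize √(2 * b) = s at *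
    have h3 : b = s * s / 2 := by linarith
    rw [h3]
    field_simp
    ring

lemma ci_yy (hE : CircleIntegrable E 0 ρ) : CircleIntegrable (fun z => yy (E z)) 0 ρ :=
  hE.add (ci_sqrt hE)

lemma ca_yy_le (hρ : 0 < ρ) (hG : G ∈ codiscreteWithin (sphere (0:ℂ) ρ))
    (hE : CircleIntegrable E 0 ρ) (h0 : ∀ z ∈ sphere (0:ℂ) ρ, z ∈ G → 0 ≤ E z) {b : ℝ}
    (hb : circleAverage E 0 ρ ≤ b) (hb0 : 0 ≤ b) :
    circleAverage (fun z => yy (E z)) 0 ρ ≤ yy b := by
  have h1 : (fun z => yy (E z)) = E + fun z => √(2 * E z) := rfl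
  rw [h1, circleAverage_add hE (ci_sqrt hE)]
  exact add_le_add hb (ca_sqrt_le hρ hG hE h0 hb hb0)

end circle

section jensen

/-- the zeros of an analytic function on a disc are codiscrete on every smaller circle -/
lemma good_codiscrete {g : ℂ → ℂ} {ρ R : ℝ} (hg : DifferentiableOn ℂ g (ball 0 R)) (h0 : g 0 ≠ 0)
    (hρ : 0 < ρ) (hR : ρ < R) : {z | g z ≠ 0} ∈ codiscreteWithin (sphere (0:ℂ) ρ) := by
  have ha : AnalyticOnNhd ℂ g (ball 0 R) := hg.analyticOnNhd isOpen_ball
  have h1 := ha.preimage_zero_mem_codiscreteWithin (x := 0) h0 (mem_ball_self (hρ.trans hR))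
    ⟨⟨0, mem_ball_self (hρ.trans hR)⟩, (convex_ball 0 R).isPreconnected⟩
  have h2 : sphere (0:ℂ) ρ ⊆ ball 0 R := fun z hz => by
    rw [mem_sphere_zero_iff_norm] at hz
    rw [mem_ball_zero_iff, hz]; exact hR
  exact codiscreteWithin_mono h2 h1

/-- Jensen's inequality for an analytic function -/
lemma jensen_log {g : ℂ → ℂ} {ρ R : ℝ} (hg : DifferentiableOn ℂ g (ball 0 R)) (h0 : g 0 ≠ 0)
    (hρ : 0 < ρ) (hR : ρ < R) :
    CircleIntegrable (fun z => log ‖g z‖) 0 ρ ∧
      log ‖g 0‖ ≤ circleAverage (fun z => log ‖g z‖) 0 ρ := by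
  have ha : AnalyticOnNhd ℂ g (ball 0 R) := hg.analyticOnNhd isOpen_ball
  have hsub : closedBall (0:ℂ) |ρ| ⊆ ball 0 R := by
    rw [abs_of_pos hρ]; exact closedBall_subset_ball hR
  have hc := ha.mono hsub
  refine ⟨(hc.mono sphere_subset_closedBall).meromorphicOn.circleIntegrable_log_norm, ?_⟩
  rw [hc.circleAverage_log_norm hρ.ne' h0]
  refine le_add_of_nonneg_left (finsum_nonneg fun u => ?_)
  by_cases hu : u ∈ closedBall (0:ℂ) |ρ|
  · refine mul_nonneg ?_ ?_
    · exact_mod_cast (MeromorphicOn.AnalyticOnNhd.divisor_nonneg hc) u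
    · by_cases hu0 : u = 0
      · simp [hu0]
      · refine log_nonneg ?_
        rw [mem_closedBall_zero_iff, abs_of_pos hρ] at hu
        have : 0 < ‖u‖ := norm_pos_iff.2 hu0
        simp only [zero_sub, norm_neg]
        rw [← div_eq_mul_inv, one_le_div this]
        exact hu
  · rw [Function.locallyFinsuppWithin.apply_eq_zero_of_notMem _ hu]
    simp

end jensen

end Vale.Agent.P272.XT
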