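import Vale.Agent.P272.XT.RA2
import Vale.Agent.P272.GJ.Green

/-!
# P272 / XT / RA3: polar coordinates and the one dimensional Jensen inequality
-/

open scoped ComplexOrder
open Real Set Metric Filter MeasureTheory

noncomputable section

namespace Vale.Agent.P272.XT

/-- polar coordinates with circle averages -/
lemma polar_int {g : ℂ → ℝ} {R : ℝ} (hR : 0 < R) (hg : ContinuousOn g (closedBall (0:ℂ) R)) :
    ∫ z in ball (0:ℂ) R, g z = ∫ ρ in (0:ℝ)..R, 2 * π * ρ * circleAverage g 0 ρ := by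
  rw [GJ.setIntegral_ball_polar]
  have hc : ContinuousOn (fun p : ℝ × ℝ => p.1 • g (GJ.pt p.1 p.2)) (Icc 0 R ×ˢ Icc (-π) π) :=
    continuousOn_fst.smul (GJ.contOn_pt_prod hg)
  have hi : IntegrableOn (fun p : ℝ × ℝ => p.1 • g (GJ.pt p.1 p.2)) (Ioo 0 R ×ˢ Ioo (-π) π)
      (volume.prod volume) := by
    have h1 : IntegrableOn (fun p : ℝ × ℝ => p.1 • g (GJ.pt p.1 p.2)) (Icc 0 R ×ˢ Icc (-π) π)
        (volume.prod volume) := hc.integrableOn_compact (isCompact_Icc.prod isCompact_Icc)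
    exact h1.mono_set (prod_mono Ioo_subset_Icc_self Ioo_subset_Icc_self)
  rw [show (volume : Measure (ℝ × ℝ)) = volume.prod volume from rfl, setIntegral_prod _ hi,
    intervalIntegral.integral_of_le hR.le, integral_Ioc_eq_integral_Ioo]
  refine setIntegral_congr_fun measurableSet_Ioo fun ρ _ => ?_
  simp only [smul_eq_mul]
  rw [MeasureTheory.integral_const_mul, GJ.circleAverage_eq_pi, smul_eq_mul,
    intervalIntegral.integral_of_le (by linarith [pi_pos]), integral_Ioc_eq_integral_Ioo]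
  have := pi_pos
  field_simp

lemma int_two_mul : ∫ ρ in (0:ℝ)..1, 2 * ρ = 1 := by
  rw [intervalIntegral.integral_const_mul, integral_id]; norm_num

lemma exp_int {b k : ℝ → ℝ} {B : ℝ} (hB : 0 < B) (hb : ContinuousOn b (Icc 0 1))
    (hb0 : ∀ ρ ∈ Ioo (0:ℝ) 1, 0 ≤ b ρ) (hint : ∫ ρ in (0:ℝ)..1, 2 * ρ * b ρ ≤ B)
    (hk : ContinuousOn k (Icc 0 1)) (hk0 : ∀ ρ ∈ Ioo (0:ℝ) 1, 0 ≤ k ρ ∧ k ρ ≤ 4 * ρ)
    (hk1 : ∫ ρ in (0:ℝ)..1, k ρ = 1) :
    exp (-(2 * yy B)) ≤ ∫ ρ in (0:ℝ)..1, k ρ * exp (-(yy (b ρ))) := by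
  set s := √(2 * B) with hs
  have hs0 : 0 < s := sqrt_pos.2 (by linarith)
  have hs2 : s * s = 2 * B := mul_self_sqrt (by linarith)
  set m := 2 * yy B with hm
  have huIcc : uIcc (0:ℝ) 1 = Icc 0 1 := uIcc_of_le zero_le_one
  have hyyc : Continuous yy := by unfold yy; fun_prop
  have hci : IntervalIntegrable (fun ρ => k ρ * exp (-(yy (b ρ)))) volume 0 1 := by
    refine ContinuousOn.intervalIntegrable ?_
    rw [huIcc]
    exact hk.mul (continuous_exp.comp_continuousOn (hyyc.comp_continuousOn hb).neg)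
  have hki : IntervalIntegrable k volume 0 1 := by
    refine ContinuousOn.intervalIntegrable ?_
    rw [huIcc]; exact hk
  have hbi : IntervalIntegrable (fun ρ => 2 * ρ * b ρ) volume 0 1 := by
    refine ContinuousOn.intervalIntegrable ?_
    rw [huIcc]
    exact ((continuous_const.mul continuous_id).continuousOn).mul hb
  have hri : IntervalIntegrable (fun ρ : ℝ => 2 * ρ) volume 0 1 :=
    (continuous_const.mul continuous_id).intervalIntegrable _ _
  have hint2 : IntervalIntegrable (fun ρ => exp (-m) * ((1 + m) * k ρ -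
      (2 * (1 + s⁻¹) * (2 * ρ * b ρ) + s * (2 * ρ)))) volume 0 1 :=
    (((hki.const_mul _).sub ((hbi.const_mul _).add (hri.const_mul _))).const_mul _)
  have hle := intervalIntegral.integral_mono_on_of_le_Ioo (zero_le_one) hint2 hci
    (fun ρ hρ => by
      have hb1 := hb0 ρ hρ
      obtain ⟨hk2, hk3⟩ := hk0 ρ hρ
      have h1 : yy (b ρ) ≤ (1 + s⁻¹) * b ρ + s / 2 := by
        have h2 := sqrt_tangent hb1 hs0
        unfold yy
        rw [div_eq_mul_inv] at h2
        nlinarith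
      have h2 : 0 ≤ yy (b ρ) := yy_nonneg hb1
      have h3 : exp (-m) * (1 + m - yy (b ρ)) ≤ exp (-(yy (b ρ))) := by
        have h4 : (m - yy (b ρ)) + 1 ≤ exp (m - yy (b ρ)) := add_one_le_exp _
        have h5 : exp (-(yy (b ρ))) = exp (-m) * exp (m - yy (b ρ)) := by
          rw [← exp_add]; ring_nf
        rw [h5]
        refine mul_le_mul_of_nonneg_left ?_ (exp_nonneg _)
        linarith
      have h6 : k ρ * (exp (-m) * (1 + m - yy (b ρ))) ≤ k ρ * exp (-(yy (b ρ))) :=
        mul_le_mul_of_nonneg_left h3 hk2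
      refine le_trans ?_ h6
      have h7 : k ρ * yy (b ρ) ≤ 4 * ρ * ((1 + s⁻¹) * b ρ + s / 2) :=
        mul_le_mul hk3 h1 h2 (by linarith [hρ.1])
      have h8 : exp (-m) * ((1 + m) * k ρ - (2 * (1 + s⁻¹) * (2 * ρ * b ρ) + s * (2 * ρ))) ≤
          exp (-m) * ((1 + m) * k ρ - k ρ * yy (b ρ)) := by
        refine mul_le_mul_of_nonneg_left ?_ (exp_nonneg _)
        nlinarith
      refine h8.trans (le_of_eq ?_)
      ring)
  refine le_trans ?_ hle
  rw [intervalIntegral.integral_const_mul, intervalIntegral.integral_sub (hki.const_mul _)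
    ((hbi.const_mul _).add (hri.const_mul _)), intervalIntegral.integral_const_mul,
    intervalIntegral.integral_add (hbi.const_mul _) (hri.const_mul _),
    intervalIntegral.integral_const_mul, intervalIntegral.integral_const_mul, int_two_mul, hk1]
  have h9 : 2 * (1 + s⁻¹) * (∫ ρ in (0:ℝ)..1, 2 * ρ * b ρ) ≤ 2 * (1 + s⁻¹) * B :=
    mul_le_mul_of_nonneg_left hint (by positivity)
  have h10 : 2 * (1 + s⁻¹) * B + s * 1 = m := by
    have : s⁻¹ * B = s / 2 := by
      have : B = s * s / 2 := by linarith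
      rw [this]; field_simp
    rw [hm]; unfold yy; rw [← hs]; nlinarith
  have h11 : exp (-m) * 1 ≤ exp (-m) * ((1 + m) * 1 -
      (2 * (1 + s⁻¹) * (∫ ρ in (0:ℝ)..1, 2 * ρ * b ρ) + s * 1)) :=
    mul_le_mul_of_nonneg_left (by linarith) (exp_nonneg _)
  rw [mul_one] at h11
  exact h11

end Vale.Agent.P272.XT
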