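import Vale.Agent.P272.XT.RA3
import Mathlib.Analysis.Calculus.Deriv.Polynomial
import Mathlib.Topology.Algebra.Polynomial

/-!
# P272 / XT / RA4: the circle estimates in a Szegő frame
-/

open scoped ComplexOrder
open Real Set Metric Filter MeasureTheory

noncomputable section

namespace Vale.Agent.P272.XT

open Vale.Agent.P272.K Vale.Agent.P272.HY

section
variable {n : ℕ}

/-- the value of a polynomial matrix -/
def vz (v : Matrix (Fin n) (Fin n) (Polynomial ℂ)) (z : ℂ) : Matrix (Fin n) (Fin n) ℂ :=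
  v.map (Polynomial.eval z)

lemma det_vz (v : Matrix (Fin n) (Fin n) (Polynomial ℂ)) (z : ℂ) : (vz v z).det = v.det.eval z := by
  have := (Polynomial.evalRingHom z).map_det v
  rw [Polynomial.coe_evalRingHom] at this
  rw [this]
  rfl

lemma vz_mulVec (v : Matrix (Fin n) (Fin n) (Polynomial ℂ)) (z : ℂ) (c : Cm n) :
    (vz v z).mulVec c = fun i => ∑ j, (v i j).eval z * c j := rfl

lemma continuous_vz (v : Matrix (Fin n) (Fin n) (Polynomial ℂ)) : Continuous (vz v) :=
  continuous_matrix fun i j => (v i j).continuous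

/-- the Gram matrix of the frame `v` for the weight `P` -/
def AA (P : ℂ → Matrix (Fin n) (Fin n) ℂ) (v : Matrix (Fin n) (Fin n) (Polynomial ℂ)) (z : ℂ) :
    Matrix (Fin n) (Fin n) ℂ :=
  (vz v z).transpose * P z * (vz v z).map (starRingEnd ℂ)

variable {P : ℂ → Matrix (Fin n) (Fin n) ℂ} {v : Matrix (Fin n) (Fin n) (Polynomial ℂ)} {z : ℂ}

lemma hq_AA (c : Cm n) : hq (AA P v z) c = hq (P z) ((vz v z).mulVec c) := by
  unfold hq AA
  rw [BR.quad_change]

lemma AA_eq : AA P v z = ((vz v z).map (starRingEnd ℂ)).conjTranspose * P z *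
    (vz v z).map (starRingEnd ℂ) := by
  have : ((vz v z).map (starRingEnd ℂ)).conjTranspose = (vz v z).transpose := by
    ext i j; simp
  rw [this]; rfl

lemma AA_posDef (hP : (P z).PosDef) (hv : v.det.eval z ≠ 0) : (AA P v z).PosDef := by
  rw [AA_eq]
  refine hP.conjTranspose_mul_mul_same ?_
  have h1 : ((vz v z).map (starRingEnd ℂ)).det ≠ 0 := by
    rw [← RingHom.mapMatrix_apply, ← RingHom.map_det, det_vz]
    simpa using hv
  intro x y hxy
  have h2 := congrArg (fun w => ((vz v z).map (starRingEnd ℂ))⁻¹.mulVec w) hxy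
  simp only [Matrix.mulVec_mulVec, Matrix.nonsing_inv_mul _ (isUnit_iff_ne_zero.2 h1),
    Matrix.one_mulVec] at h2
  exact h2

lemma det_re_of_isHermitian {M : Matrix (Fin n) (Fin n) ℂ} (hM : M.IsHermitian) :
    (M.det.re : ℂ) = M.det := by
  have h1 : (starRingEnd ℂ) M.det = M.det := by
    have := congrArg Matrix.det hM.eq
    rw [Matrix.det_conjTranspose] at this
    exact this
  exact Complex.conj_eq_iff_re.1 h1

lemma AA_det (hP : (P z).IsHermitian) : (AA P v z).det.re = ‖v.det.eval z‖ ^ 2 * (P z).det.re := by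
  unfold AA
  rw [Matrix.det_mul, Matrix.det_mul, Matrix.det_transpose, det_vz, ← RingHom.mapMatrix_apply,
    ← RingHom.map_det, det_vz, ← det_re_of_isHermitian hP]
  have : v.det.eval z * ((P z).det.re : ℂ) * (starRingEnd ℂ) (v.det.eval z) =
      ((‖v.det.eval z‖ ^ 2 * (P z).det.re : ℝ) : ℂ) := by
    have h := Complex.mul_conj (v.det.eval z)
    rw [Complex.normSq_eq_norm_sq] at h
    calc v.det.eval z * ((P z).det.re : ℂ) * (starRingEnd ℂ) (v.det.eval z)
        = (v.det.eval z * (starRingEnd ℂ) (v.det.eval z)) * ((P z).det.re : ℂ) := by ring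
      _ = _ := by rw [h]; push_cast; ring
  rw [this, Complex.ofReal_re, Complex.ofReal_re]

/-- the defect of the Gram matrix -/
def EE (P : ℂ → Matrix (Fin n) (Fin n) ℂ) (v : Matrix (Fin n) (Fin n) (Polynomial ℂ)) (z : ℂ) : ℝ :=
  ((AA P v z).trace.re - n - Real.log (P z).det.re) - 2 * Real.log ‖v.det.eval z‖

lemma det_re_pos {M : Matrix (Fin n) (Fin n) ℂ} (hM : M.PosDef) : 0 < M.det.re := by
  have := hM.det_pos
  exact (Complex.pos_iff.1 this).1

lemma EE_eq (hP : (P z).PosDef) (hv : v.det.eval z ≠ 0) : EE P v z = dfc (AA P v z) := by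
  unfold EE dfc
  rw [AA_det hP.isHermitian, Real.log_mul (by positivity) (det_re_pos hP).ne', Real.log_pow]
  push_cast; ring

lemma EE_nonneg (hP : (P z).PosDef) (hv : v.det.eval z ≠ 0) : 0 ≤ EE P v z := by
  rw [EE_eq hP hv]; exact (dfc_bounds (AA_posDef hP hv)).1

lemma EE_bound (hP : (P z).PosDef) (hv : v.det.eval z ≠ 0) (c : Cm n) :
    exp (-(yy (EE P v z))) * ∑ i, ‖c i‖ ^ 2 ≤ hq (P z) ((vz v z).mulVec c) := by
  rw [EE_eq hP hv, ← hq_AA]; exact (dfc_bounds (AA_posDef hP hv)).2 c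

/-! ### continuity -/

lemma continuousOn_AA {s : Set ℂ} (hP : ContinuousOn P s) : ContinuousOn (AA P v) s := by
  unfold AA
  have h1 : Continuous fun z => (vz v z).transpose := (continuous_vz v).matrix_transpose
  have h2 : Continuous fun z => (vz v z).map (starRingEnd ℂ) :=
    (continuous_vz v).matrix_map Complex.continuous_conj
  exact (h1.continuousOn.mul hP).mul h2.continuousOn

lemma continuousOn_trace {s : Set ℂ} (hP : ContinuousOn P s) :
    ContinuousOn (fun z => (AA P v z).trace.re) s :=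
  Complex.continuous_re.comp_continuousOn
    ((continuous_id.matrix_trace).comp_continuousOn (continuousOn_AA hP))

lemma continuousOn_logdet {s : Set ℂ} (hP : ContinuousOn P s) (hpd : ∀ z ∈ s, (P z).PosDef) :
    ContinuousOn (fun z => Real.log (P z).det.re) s := by
  refine ContinuousOn.log ?_ fun z hz => (det_re_pos (hpd z hz)).ne'
  exact Complex.continuous_re.comp_continuousOn
    ((continuous_id.matrix_det).comp_continuousOn hP)

lemma continuousOn_hq {s : Set ℂ} (hP : ContinuousOn P s) {g : ℂ → Cm n} (hg : ContinuousOn g s) :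
    ContinuousOn (fun z => hq (P z) (g z)) s := by
  unfold hq quad
  refine Complex.continuous_re.comp_continuousOn ?_
  refine continuousOn_finsetSum _ fun i _ => continuousOn_finsetSum _ fun j _ => ?_
  have h1 : ContinuousOn (fun z => P z i j) s :=
    (continuous_apply_apply i j).comp_continuousOn hP
  have h2 : ∀ k, ContinuousOn (fun z => g z k) s := fun k =>
    (continuous_apply k).comp_continuousOn hg
  exact h1.mul ((h2 i).mul (Complex.continuous_conj.comp_continuousOn (h2 j)))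

lemma continuous_poly_vec (c : Cm n) : Continuous fun z => (vz v z).mulVec c :=
  (continuous_vz v).matrix_mulVec continuous_const

/-- the continuous majorant of the circle average of `EE` -/
def bb (P : ℂ → Matrix (Fin n) (Fin n) ℂ) (v : Matrix (Fin n) (Fin n) (Polynomial ℂ)) (ρ : ℝ) : ℝ :=
  circleAverage (fun z => (AA P v z).trace.re - n - Real.log (P z).det.re) 0 ρ -
    2 * Real.log ‖v.det.eval 0‖

section circ
variable {ρ : ℝ}

lemma sphere_sub (hρ1 : ρ ≤ 1) : sphere (0:ℂ) ρ ⊆ closedBall 0 1 :=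
  sphere_subset_closedBall.trans (closedBall_subset_closedBall hρ1)

lemma ci_cont (hρ : 0 < ρ) {f : ℂ → ℝ} (hf : ContinuousOn f (sphere (0:ℂ) ρ)) :
    CircleIntegrable f 0 ρ := hf.circleIntegrable hρ.le

variable (hPc : ContinuousOn P (closedBall 0 1)) (hP : ∀ z ∈ closedBall (0:ℂ) 1, (P z).PosDef)
  (hv0 : v.det.eval 0 ≠ 0) (hρ : 0 < ρ) (hρ1 : ρ < 1)

include hPc hP in
lemma contOn_main : ContinuousOn (fun z => (AA P v z).trace.re - n - Real.log (P z).det.re)
    (closedBall (0:ℂ) 1) :=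
  ((continuousOn_trace hPc).sub continuousOn_const).sub (continuousOn_logdet hPc hP)

include hPc hP hρ hρ1 in
lemma ci_EE : CircleIntegrable (EE P v) 0 ρ := by
  have h1 : CircleIntegrable (fun z => (AA P v z).trace.re - n - Real.log (P z).det.re) 0 ρ :=
    ci_cont hρ ((contOn_main hPc hP).mono (sphere_sub hρ1.le))
  have h2 : CircleIntegrable (fun z => Real.log ‖v.det.eval z‖) 0 ρ :=
    MeromorphicOn.circleIntegrable_log_norm fun z _ =>
      (v.det.differentiable.analyticAt z).meromorphicAt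
  have h3 := h1.sub (h2.const_smul (a := (2:ℝ)))
  exact h3

include hPc hP hv0 hρ hρ1 in
lemma ca_EE : circleAverage (EE P v) 0 ρ ≤ bb P v ρ := by
  have h1 : CircleIntegrable (fun z => (AA P v z).trace.re - n - Real.log (P z).det.re) 0 ρ :=
    ci_cont hρ ((contOn_main hPc hP).mono (sphere_sub hρ1.le))
  obtain ⟨h2, h4⟩ := jensen_log (g := fun z => v.det.eval z) (ρ := ρ) (R := 1)
    v.det.differentiable.differentiableOn hv0 hρ hρ1
  have h3 : (EE P v) = (fun z => (AA P v z).trace.re - n - Real.log (P z).det.re) -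
      ((2:ℝ) • fun z => Real.log ‖v.det.eval z‖) := rfl
  rw [h3, circleAverage_sub h1 h2.const_smul, circleAverage_smul, smul_eq_mul]
  unfold bb
  linarith

include hv0 hρ hρ1 in
lemma good_v : {z | v.det.eval z ≠ 0} ∈ codiscreteWithin (sphere (0:ℂ) ρ) :=
  good_codiscrete (R := 1) v.det.differentiable.differentiableOn hv0 hρ hρ1

include hPc hP hv0 hρ hρ1 in
lemma ca_EE_nonneg : 0 ≤ bb P v ρ := by
  refine le_trans ?_ (ca_EE hPc hP hv0 hρ hρ1)
  have h := ca_mono_good (f := fun _ => (0:ℝ)) (g := EE P v) hρ (good_v hv0 hρ hρ1)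
    (circleIntegrable_const _ _ _) (ci_EE hPc hP hρ hρ1)
    (fun z hz hzG => EE_nonneg (hP z (sphere_sub hρ1.le hz)) hzG)
  rwa [circleAverage_const] at h

include hPc hP hv0 hρ hρ1 in
lemma ca_yyEE : circleAverage (fun z => yy (EE P v z)) 0 ρ ≤ yy (bb P v ρ) :=
  ca_yy_le hρ (good_v hv0 hρ hρ1) (ci_EE hPc hP hρ hρ1)
    (fun z hz hzG => EE_nonneg (hP z (sphere_sub hρ1.le hz)) hzG) (ca_EE hPc hP hv0 hρ hρ1)
    (ca_EE_nonneg hPc hP hv0 hρ hρ1)

include hPc hP hv0 hρ hρ1 in
/-- lower bound for a constant vector in the frame -/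
lemma circle_const (c : Cm n) (hc : 0 < ∑ i, ‖c i‖ ^ 2) :
    exp (-(yy (bb P v ρ))) * ∑ i, ‖c i‖ ^ 2 ≤
      circleAverage (fun z => hq (P z) ((vz v z).mulVec c)) 0 ρ := by
  have hci := ci_yy (ci_EE (v := v) hPc hP hρ hρ1)
  have hg : CircleIntegrable (fun z => (-1 : ℝ) * (-(Real.log (∑ i, ‖c i‖ ^ 2)) +
      yy (EE P v z))) 0 ρ := ci_affine hci _ _
  have hq' : CircleIntegrable (fun z => hq (P z) ((vz v z).mulVec c)) 0 ρ :=
    ci_cont hρ (continuousOn_hq (hPc.mono (sphere_sub hρ1.le)) (continuous_poly_vec c).continuousOn)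
  have h1 := exp_ca_le hρ (good_v hv0 hρ hρ1) hg hq' (fun z hz hzG => by
    refine le_trans (le_of_eq ?_) (EE_bound (hP z (sphere_sub hρ1.le hz)) hzG c)
    rw [show (-1 : ℝ) * (-(Real.log (∑ i, ‖c i‖ ^ 2)) + yy (EE P v z)) =
      -(yy (EE P v z)) + Real.log (∑ i, ‖c i‖ ^ 2) by ring, exp_add, exp_log hc])
  refine le_trans ?_ h1
  rw [ca_affine hci, show (-1 : ℝ) * (-(Real.log (∑ i, ‖c i‖ ^ 2)) +
    circleAverage (fun z => yy (EE P v z)) 0 ρ) = -(circleAverage (fun z => yy (EE P v z)) 0 ρ) +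
      Real.log (∑ i, ‖c i‖ ^ 2) by ring, exp_add, exp_log hc]
  refine mul_le_mul_of_nonneg_right (exp_le_exp.2 ?_) hc.le
  linarith [ca_yyEE (v := v) hPc hP hv0 hρ hρ1]

include hPc hP hv0 hρ hρ1 in
/-- lower bound for a holomorphic vector -/
lemma circle_hol {u : ℂ → Cm n} (hu : DifferentiableOn ℂ u (ball 0 1)) {d : ℝ}
    (hd : 2 * circleAverage (fun z => Real.log ‖v.det.eval z‖) 0 ρ ≤
      2 * Real.log ‖v.det.eval 0‖ + d) (c : Cm n) (hc : 0 < ∑ i, ‖c i‖ ^ 2)
    (huc : (vz v 0).mulVec c = u 0) :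
    exp (-(yy (bb P v ρ)) - d) * ∑ i, ‖c i‖ ^ 2 ≤ circleAverage (fun z => hq (P z) (u z)) 0 ρ := by
  set S := ∑ i, ‖c i‖ ^ 2 with hS
  -- the scalar function `ξ^* adj(v) u`
  set w : ℂ → Cm n := fun z => (vz v z).adjugate.mulVec (u z) with hw
  set D : ℂ → ℂ := fun z => v.det.eval z with hD
  set φ : ℂ → ℂ := fun z => ∑ i, (starRingEnd ℂ) (c i) * w z i with hφ
  have hw0 : w 0 = fun i => D 0 * c i := by
    simp only [hw]
    rw [← huc, Matrix.mulVec_mulVec, Matrix.adjugate_mul, det_vz, Matrix.smul_mulVec,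
      Matrix.one_mulVec]
    rfl
  have hφ0 : φ 0 = D 0 * (S : ℂ) := by
    simp only [hφ, hw0, hS]
    push_cast
    rw [Finset.mul_sum]
    refine Finset.sum_congr rfl fun i _ => ?_
    have h := Complex.mul_conj (c i)
    rw [Complex.normSq_eq_norm_sq] at h
    calc (starRingEnd ℂ) (c i) * (D 0 * c i) = D 0 * (c i * (starRingEnd ℂ) (c i)) := by ring
      _ = _ := by rw [h]; push_cast; rfl
  have hφ0' : φ 0 ≠ 0 := by
    rw [hφ0]
    exact mul_ne_zero hv0 (by exact_mod_cast hc.ne')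
  have hwd : ∀ i, DifferentiableOn ℂ (fun z => w z i) (ball 0 1) := by
    intro i
    have h1 : ∀ j, DifferentiableOn ℂ (fun z => (vz v z).adjugate i j) (ball 0 1) := by
      intro j
      have h2 : (fun z => (vz v z).adjugate i j) = fun z => (v.adjugate i j).eval z := by
        funext z
        have := (Polynomial.evalRingHom z).map_adjugate v
        have h3 := congrFun (congrFun this i) j
        simp only [RingHom.mapMatrix_apply, Matrix.map_apply, Polynomial.coe_evalRingHom] at h3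
        rw [h3]; rfl
      rw [h2]
      exact (v.adjugate i j).differentiable.differentiableOn
    have h4 : (fun z => w z i) = fun z => ∑ j, (vz v z).adjugate i j * u z j := by
      funext z; rfl
    rw [h4]
    exact DifferentiableOn.fun_sum fun j _ => (h1 j).mul ((differentiableOn_pi.1 hu) j)
  have hφd : DifferentiableOn ℂ φ (ball 0 1) := by
    simp only [hφ]
    exact DifferentiableOn.fun_sum fun i _ => (hwd i).const_mul _
  obtain ⟨hφci, hφca⟩ := jensen_log hφd hφ0' hρ hρ1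
  obtain ⟨hDci, -⟩ := jensen_log (g := D) (ρ := ρ) (R := 1)
    v.det.differentiable.differentiableOn hv0 hρ hρ1
  have hG : {z | v.det.eval z ≠ 0} ∩ {z | φ z ≠ 0} ∈ codiscreteWithin (sphere (0:ℂ) ρ) :=
    inter_mem (good_v hv0 hρ hρ1) (good_codiscrete hφd hφ0' hρ hρ1)
  have hci := ci_yy (ci_EE (v := v) hPc hP hρ hρ1)
  -- the logarithm of the lower bound
  set g : ℂ → ℝ := fun z => (-1 : ℝ) * (Real.log S + yy (EE P v z)) +
    2 * (Real.log ‖φ z‖ - Real.log ‖D z‖) with hg
  have hgi : CircleIntegrable g 0 ρ := by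
    have h1 := (ci_affine hci (-1) (Real.log S)).add ((hφci.sub hDci).const_smul (a := (2:ℝ)))
    exact h1
  have hqi : CircleIntegrable (fun z => hq (P z) (u z)) 0 ρ := by
    refine ci_cont hρ (continuousOn_hq (hPc.mono (sphere_sub hρ1.le)) (hu.continuousOn.mono ?_))
    intro z hz
    rw [mem_sphere_zero_iff_norm] at hz
    rw [mem_ball_zero_iff, hz]; exact hρ1
  have hpt : ∀ z ∈ sphere (0:ℂ) ρ, z ∈ {z | v.det.eval z ≠ 0} ∩ {z | φ z ≠ 0} →
      exp (g z) ≤ hq (P z) (u z) := by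
    intro z hz hzG
    have hDz : D z ≠ 0 := hzG.1
    have hφz : φ z ≠ 0 := hzG.2
    have hPz := hP z (sphere_sub hρ1.le hz)
    -- `v (adj v) u = D u`
    have h1 : (vz v z).mulVec (fun i => (D z)⁻¹ * w z i) = u z := by
      have h2 : (fun i => (D z)⁻¹ * w z i) = (D z)⁻¹ • w z := rfl
      rw [h2, Matrix.mulVec_smul, hw, Matrix.mulVec_mulVec, Matrix.mul_adjugate, det_vz,
        Matrix.smul_mulVec, Matrix.one_mulVec, smul_smul, inv_mul_cancel₀ hDz, one_smul]
    have h3 := EE_bound (v := v) hPz hzG.1 (fun i => (D z)⁻¹ * w z i)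
    rw [h1] at h3
    refine le_trans ?_ h3
    -- Cauchy-Schwarz
    have h4 : ‖φ z‖ ^ 2 ≤ S * ∑ i, ‖w z i‖ ^ 2 := by
      have h5 : ‖φ z‖ ≤ ∑ i, ‖c i‖ * ‖w z i‖ := by
        refine (norm_sum_le _ _).trans (Finset.sum_le_sum fun i _ => ?_)
        rw [norm_mul, RCLike.norm_conj]
      calc ‖φ z‖ ^ 2 ≤ (∑ i, ‖c i‖ * ‖w z i‖) ^ 2 := by gcongr
        _ ≤ (∑ i, ‖c i‖ ^ 2) * ∑ i, ‖w z i‖ ^ 2 := Finset.sum_mul_sq_le_sq_mul_sq _ _ _
    have h6 : ∑ i, ‖(D z)⁻¹ * w z i‖ ^ 2 = (‖D z‖ ^ 2)⁻¹ * ∑ i, ‖w z i‖ ^ 2 := by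
      rw [Finset.mul_sum]
      refine Finset.sum_congr rfl fun i _ => ?_
      rw [norm_mul, norm_inv, mul_pow, inv_pow]
    rw [h6]
    have hDp : 0 < ‖D z‖ := norm_pos_iff.2 hDz
    have hφp : 0 < ‖φ z‖ := norm_pos_iff.2 hφz
    have h7 : exp (g z) = exp (-(yy (EE P v z))) * ((‖D z‖ ^ 2)⁻¹ * (S⁻¹ * ‖φ z‖ ^ 2)) := by
      have h8 : g z = -(yy (EE P v z)) + (-(2 * Real.log ‖D z‖) + (-(Real.log S) +
          2 * Real.log ‖φ z‖)) := by simp only [hg]; ring
      have h9 : ∀ x : ℝ, 0 < x → exp (2 * Real.log x) = x ^ 2 := by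
        intro x hx
        rw [two_mul, exp_add, exp_log hx]; ring
      rw [h8, exp_add, exp_add, exp_add, exp_neg (2 * Real.log ‖D z‖), h9 _ hDp,
        exp_neg (Real.log S), exp_log hc, h9 _ hφp]
    rw [h7]
    refine mul_le_mul_of_nonneg_left ?_ (exp_nonneg _)
    refine mul_le_mul_of_nonneg_left ?_ (by positivity)
    rw [inv_mul_le_iff₀ hc]
    exact h4
  have h1 := exp_ca_le hρ hG hgi hqi hpt
  refine le_trans ?_ h1
  have h2 : circleAverage g 0 ρ = (-1 : ℝ) * (Real.log S +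
      circleAverage (fun z => yy (EE P v z)) 0 ρ) +
      2 * (circleAverage (fun z => Real.log ‖φ z‖) 0 ρ -
        circleAverage (fun z => Real.log ‖D z‖) 0 ρ) := by
    have h3 : g = (fun z => (-1 : ℝ) * (Real.log S + yy (EE P v z))) +
      ((2:ℝ) • ((fun z => Real.log ‖φ z‖) - fun z => Real.log ‖D z‖)) := rfl
    rw [h3, circleAverage_add (ci_affine hci _ _) (hφci.sub hDci).const_smul, ca_affine hci,
      circleAverage_smul, circleAverage_sub hφci hDci, smul_eq_mul]
  rw [h2]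
  have h4 : Real.log ‖φ 0‖ = Real.log ‖D 0‖ + Real.log S := by
    rw [hφ0, norm_mul, Real.log_mul (norm_ne_zero_iff.2 hv0) (by
      rw [Complex.norm_real]; exact norm_ne_zero_iff.2 hc.ne')]
    rw [Complex.norm_real, norm_eq_abs, abs_of_pos hc]
  have h5 := ca_yyEE (v := v) hPc hP hv0 hρ hρ1
  have h6 : exp (-(yy (bb P v ρ)) - d) * S = exp (-(yy (bb P v ρ)) - d + Real.log S) := by
    rw [exp_add, exp_log hc]
  rw [h6]
  refine exp_le_exp.2 ?_
  have h7 : 2 * circleAverage (fun z => Real.log ‖D z‖) 0 ρ ≤ 2 * Real.log ‖D 0‖ + d := hd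
  linarith

end circ

end

end Vale.Agent.P272.XT
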