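import Vale.Agent.P272.XT.RA4
import Vale.Agent.P272.Sz.FrameHq

/-!
# P272 / XT / RA5: the lower bound of the cost (core of XRA)
-/

open scoped ComplexOrder Topology
open Real Set Metric Filter MeasureTheory

noncomputable section

namespace Vale.Agent.P272.XT

open Vale.Agent.P272.K Vale.Agent.P272.HY

/-- `x(B) = e^{-2 (B + √(2B))}` -/
def xx (B : ℝ) : ℝ := Real.exp (-2 * (B + √(2 * B)))

lemma xx_eq (B : ℝ) : xx B = exp (-(2 * yy B)) := by unfold xx yy; ring_nf

section
variable {n : ℕ}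

lemma hq_single (M : Matrix (Fin n) (Fin n) ℂ) (j : Fin n) :
    hq M (Pi.single j 1) = (M j j).re := by
  unfold hq quad
  rw [Finset.sum_eq_single j, Finset.sum_eq_single j]
  · simp [cj]
  · intro b _ hb; simp [cj, hb]
  · simp
  · intro b _ hb
    refine Finset.sum_eq_zero fun k _ => ?_
    simp [hb]
  · simp

lemma trace_re_eq (M : Matrix (Fin n) (Fin n) ℂ) :
    M.trace.re = ∑ j, hq M (Pi.single j 1) := by
  simp only [hq_single, Matrix.trace, Matrix.diag, Complex.re_sum]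

variable {P : ℂ → Matrix (Fin n) (Fin n) ℂ} {v : Matrix (Fin n) (Fin n) (Polynomial ℂ)}

/-- radial weights in polar coordinates -/
lemma polar_weight {g : ℂ → ℝ} {k : ℝ → ℝ} {R : ℝ} (hR : 0 < R)
    (hg : ContinuousOn g (closedBall (0:ℂ) R)) (hk : Continuous k) :
    ∫ z in ball (0:ℂ) R, k ‖z‖ / π * g z = ∫ ρ in (0:ℝ)..R, 2 * ρ * k ρ * circleAverage g 0 ρ := by
  have hc : ContinuousOn (fun z : ℂ => k ‖z‖ / π * g z) (closedBall (0:ℂ) R) :=
    ((hk.comp continuous_norm).div_const π).continuousOn.mul hg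
  rw [polar_int hR hc]
  refine intervalIntegral.integral_congr fun ρ hρ => ?_
  rw [uIcc_of_le hR.le] at hρ
  have h1 : circleAverage (fun z : ℂ => k ‖z‖ / π * g z) 0 ρ = k ρ / π * circleAverage g 0 ρ := by
    have h2 : circleAverage (fun z : ℂ => k ‖z‖ / π * g z) 0 ρ =
        circleAverage ((k ρ / π) • g) 0 ρ := by
      refine circleAverage_congr_sphere fun z hz => ?_
      rw [mem_sphere_zero_iff_norm, abs_of_nonneg hρ.1] at hz
      simp only [hz, Pi.smul_apply, smul_eq_mul]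
    rw [h2, circleAverage_smul, smul_eq_mul]
  simp only [h1]
  have := pi_pos
  field_simp

lemma int_two_rho : ∫ ρ in (0:ℝ)..1, 4 * ρ ^ 3 = 1 := by
  rw [intervalIntegral.integral_const_mul, integral_pow]; norm_num

lemma int_two_rho' : ∫ ρ in (0:ℝ)..1, 4 * ρ * (1 - ρ ^ 2) = 1 := by
  have h : (fun ρ : ℝ => 4 * ρ * (1 - ρ ^ 2)) = fun ρ => 4 * ρ - 4 * ρ ^ 3 := by
    funext ρ; ring
  have h1 : IntervalIntegrable (fun ρ : ℝ => 4 * ρ) volume 0 1 :=
    Continuous.intervalIntegrable (by fun_prop) _ _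
  have h2 : IntervalIntegrable (fun ρ : ℝ => 4 * ρ ^ 3) volume 0 1 :=
    Continuous.intervalIntegrable (by fun_prop) _ _
  rw [h, intervalIntegral.integral_sub h1 h2, int_two_rho, intervalIntegral.integral_const_mul,
    integral_id]
  norm_num

lemma contOn_ca {g : ℂ → ℝ} (hg : ContinuousOn g (closedBall (0:ℂ) 1)) :
    ContinuousOn (circleAverage g 0) (Icc 0 1) := by
  refine ContinuousOn.circleAverage (hg.mono ?_) fun r hr => hr.1
  intro z hz
  rw [mem_closedBall_zero_iff]
  have : ‖z - 0‖ ∈ Icc (0:ℝ) 1 := hz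
  rw [sub_zero] at this
  exact this.2

variable (hPc : ContinuousOn P (closedBall 0 1)) (hP : ∀ z ∈ closedBall (0:ℂ) 1, (P z).PosDef)

include hPc hP in
lemma contOn_bb : ContinuousOn (bb P v) (Icc 0 1) :=
  (contOn_ca (contOn_main hPc hP)).sub continuousOn_const

section
variable {Q : Matrix (Fin n) (Fin n) ℂ} (hQ : Q.PosSemidef) {C τ d : ℝ} (hC : 0 ≤ C)
  (ha : ∀ p : Fin n → Polynomial ℂ, hq Q (fun i => (p i).eval 0) +
    ∫ z in ball (0:ℂ) 1, ‖z‖ ^ 2 / Real.pi * hq (P z) (fun i => (p i).eval z) ≤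
      Real.circleAverage (fun z => hq (P z) (fun i => (p i).eval z)) 0 1)
  (hb : ∀ p : Fin n → Polynomial ℂ,
    ∫ z in ball (0:ℂ) 1, 1 / Real.pi * hq (P z) (fun i => (p i).eval z) ≤
      Real.circleAverage (fun z => hq (P z) (fun i => (p i).eval z)) 0 1 +
        C * hq Q (fun i => (p i).eval 0))
  (hc : Real.circleAverage (fun z => Real.log (P z).det.re) 0 1 - τ ≤
    ∫ z in ball (0:ℂ) 1, 1 / Real.pi * Real.log (P z).det.re)
  (hv1 : ∀ c : Cm n, circleAverage (fun z => hq (P z) (fun i => ∑ j, (v i j).eval z * c j)) 0 1 =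
    ∑ i, ‖c i‖ ^ 2)
  (hv0 : v.det.eval 0 ≠ 0)
  (hvl : - circleAverage (fun z => Real.log (P z).det.re) 0 1 - d ≤ 2 * Real.log ‖v.det.eval 0‖)

/-- the polynomial vector `v c` -/
def pvec (v : Matrix (Fin n) (Fin n) (Polynomial ℂ)) (c : Cm n) (i : Fin n) : Polynomial ℂ :=
  ∑ j, v i j * Polynomial.C (c j)

lemma pvec_eval (c : Cm n) (z : ℂ) : (fun i => (pvec v c i).eval z) = (vz v z).mulVec c := by
  funext i
  simp only [pvec, Polynomial.eval_finsetSum, Polynomial.eval_mul, Polynomial.eval_C]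
  rfl

include ha hv1 in
lemma ha' (c : Cm n) : hq Q ((vz v 0).mulVec c) +
    ∫ z in ball (0:ℂ) 1, ‖z‖ ^ 2 / Real.pi * hq (P z) ((vz v z).mulVec c) ≤ ∑ i, ‖c i‖ ^ 2 := by
  have h := ha (pvec v c)
  simp only [pvec_eval] at h
  rw [← hv1 c]
  exact h

include hb hv1 in
lemma hb' (c : Cm n) : ∫ z in ball (0:ℂ) 1, 1 / Real.pi * hq (P z) ((vz v z).mulVec c) ≤
    ∑ i, ‖c i‖ ^ 2 + C * hq Q ((vz v 0).mulVec c) := by
  have h := hb (pvec v c)
  simp only [pvec_eval] at h
  rw [← hv1 c]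
  exact h

include hPc in
lemma contOn_hqv (c : Cm n) : ContinuousOn (fun z => hq (P z) ((vz v z).mulVec c))
    (closedBall (0:ℂ) 1) := continuousOn_hq hPc (continuous_poly_vec c).continuousOn

include hPc hP ha hv1 in
lemma hqQ_le (c : Cm n) : hq Q ((vz v 0).mulVec c) ≤ ∑ i, ‖c i‖ ^ 2 := by
  have h := ha' ha hv1 c
  have h1 : 0 ≤ ∫ z in ball (0:ℂ) 1, ‖z‖ ^ 2 / Real.pi * hq (P z) ((vz v z).mulVec c) := by
    refine setIntegral_nonneg measurableSet_ball fun z hz => ?_
    have h2 : 0 ≤ hq (P z) ((vz v z).mulVec c) :=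
      quad_nonneg (hP z (ball_subset_closedBall hz)).posSemidef _
    have := pi_pos
    positivity
  linarith

include hPc hP ha hb hc hC hv1 hvl in
/-- the integral of the defect -/
lemma int_bb : ∫ ρ in (0:ℝ)..1, 2 * ρ * bb P v ρ ≤ n * C + τ + d := by
  have hmain := contOn_main (v := v) hPc hP
  have hpol := polar_weight (k := fun _ => (1:ℝ)) zero_lt_one hmain continuous_const
  simp only [mul_one] at hpol
  -- the integral over the ball
  have hint : ∀ {g : ℂ → ℝ}, ContinuousOn g (closedBall (0:ℂ) 1) →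
      IntegrableOn (fun z => 1 / π * g z) (ball (0:ℂ) 1) := by
    intro g hg
    exact ((hg.const_smul (1 / π)).integrableOn_compact (isCompact_closedBall 0 1)).mono_set
      ball_subset_closedBall
  have htr := continuousOn_trace (v := v) hPc
  have hlog := continuousOn_logdet hPc hP
  have h1 : ∫ z in ball (0:ℂ) 1, 1 / π * ((AA P v z).trace.re - n - Real.log (P z).det.re) =
      (∫ z in ball (0:ℂ) 1, 1 / π * (AA P v z).trace.re) - n -
        ∫ z in ball (0:ℂ) 1, 1 / π * Real.log (P z).det.re := by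
    have h2 : ∀ z : ℂ, 1 / π * ((AA P v z).trace.re - n - Real.log (P z).det.re) =
        1 / π * (AA P v z).trace.re - 1 / π * n - 1 / π * Real.log (P z).det.re := by
      intro z; ring
    simp only [h2]
    have hA : IntegrableOn (fun z => 1 / π * (AA P v z).trace.re) (ball (0:ℂ) 1) := hint htr
    have hB : IntegrableOn (fun _ : ℂ => 1 / π * (n:ℝ)) (ball (0:ℂ) 1) :=
      hint (g := fun _ => (n:ℝ)) continuousOn_const
    have hL : IntegrableOn (fun z => 1 / π * Real.log (P z).det.re) (ball (0:ℂ) 1) := hint hlog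
    have hAB : IntegrableOn (fun z => 1 / π * (AA P v z).trace.re - 1 / π * (n:ℝ))
      (ball (0:ℂ) 1) := hA.sub hB
    rw [integral_sub hAB hL, integral_sub hA hB]
    congr 2
    rw [setIntegral_const, Measure.real, Complex.volume_ball]
    have := pi_pos
    simp only [ENNReal.ofReal_one, one_pow, one_mul, ENNReal.coe_toReal, NNReal.coe_real_pi,
      smul_eq_mul]
    field_simp
  have h3 : ∫ z in ball (0:ℂ) 1, 1 / π * (AA P v z).trace.re ≤ n + n * C := by
    have h4 : ∀ z : ℂ, 1 / π * (AA P v z).trace.re =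
        ∑ j, 1 / π * hq (P z) ((vz v z).mulVec (Pi.single j 1)) := by
      intro z
      rw [trace_re_eq, Finset.mul_sum]
      refine Finset.sum_congr rfl fun j _ => ?_
      rw [hq_AA]
    simp only [h4]
    rw [integral_finsetSum _ fun j _ => hint (contOn_hqv hPc _)]
    have h5 : ∀ j : Fin n, ∫ z in ball (0:ℂ) 1, 1 / π * hq (P z) ((vz v z).mulVec (Pi.single j 1)) ≤
        1 + C := by
      intro j
      have h6 := hb' hb hv1 (Pi.single j 1)
      have h7 := hqQ_le hPc hP ha hv1 (Pi.single j 1)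
      have h8 : ∑ i, ‖(Pi.single j 1 : Cm n) i‖ ^ 2 = 1 := by
        rw [Finset.sum_eq_single j]
        · simp
        · intro b _ hb; simp [hb]
        · simp
      rw [h8] at h6 h7
      have h9 : C * hq Q ((vz v 0).mulVec (Pi.single j 1)) ≤ C * 1 :=
        mul_le_mul_of_nonneg_left h7 hC
      linarith
    refine (Finset.sum_le_sum fun j _ => h5 j).trans (le_of_eq ?_)
    simp [mul_add]
  have h10 : ∫ ρ in (0:ℝ)..1, 2 * ρ * bb P v ρ =
      (∫ ρ in (0:ℝ)..1, 2 * ρ * circleAverage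
        (fun z => (AA P v z).trace.re - n - Real.log (P z).det.re) 0 ρ) -
        2 * Real.log ‖v.det.eval 0‖ := by
    have h11 : ∀ ρ : ℝ, 2 * ρ * bb P v ρ = 2 * ρ * circleAverage
        (fun z => (AA P v z).trace.re - n - Real.log (P z).det.re) 0 ρ -
          (2 * Real.log ‖v.det.eval 0‖) * (2 * ρ) := by
      intro ρ; unfold bb; ring
    simp only [h11]
    have hi1 : IntervalIntegrable (fun ρ => 2 * ρ * circleAverage
        (fun z => (AA P v z).trace.re - n - Real.log (P z).det.re) 0 ρ) volume 0 1 := by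
      refine ContinuousOn.intervalIntegrable ?_
      rw [uIcc_of_le zero_le_one]
      exact (by fun_prop : Continuous fun ρ : ℝ => 2 * ρ).continuousOn.mul (contOn_ca hmain)
    have hi2 : IntervalIntegrable (fun ρ : ℝ => (2 * Real.log ‖v.det.eval 0‖) * (2 * ρ)) volume 0 1 :=
      Continuous.intervalIntegrable (by fun_prop) _ _
    rw [intervalIntegral.integral_sub hi1 hi2, intervalIntegral.integral_const_mul, int_two_mul,
      mul_one]
  rw [h10, ← hpol, h1]
  linarith

include hPc hP ha hb hc hC hv1 hv0 hvl in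
/-- the estimate for one frame -/
lemma core_d (hτ : 0 ≤ τ) (hd : 0 < d)
    (hvu : ∀ r, 0 < r → r ≤ 1 → 2 * circleAverage (fun z => Real.log ‖v.det.eval z‖) 0 r ≤
      - circleAverage (fun z => Real.log (P z).det.re) 0 1)
    {u : ℂ → Cm n} (hu : DifferentiableOn ℂ u (ball 0 1))
    (hint : IntegrableOn (fun z => (1 - ‖z‖ ^ 2) / Real.pi * hq (P z) (u z)) (ball 0 1))
    (hpos : 0 < hq Q (u 0)) :
    exp (-d) * (hq Q (u 0) * (xx (n * C + τ + d) / (2 - xx (n * C + τ + d)))) ≤
      ∫ z in ball (0:ℂ) 1, (1 - ‖z‖ ^ 2) / Real.pi * hq (P z) (u z) := by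
  set B : ℝ := n * C + τ + d with hB
  have hB0 : 0 < B := by positivity
  set x := xx B with hx
  have hx0 : 0 < x := exp_pos _
  have hx1 : x ≤ 1 := by
    rw [hx, xx_eq, exp_le_one_iff]
    linarith [yy_nonneg hB0.le]
  have hdet : (vz v 0).det ≠ 0 := by rw [det_vz]; exact hv0
  set c : Cm n := (vz v 0)⁻¹.mulVec (u 0) with hcdef
  have huc : (vz v 0).mulVec c = u 0 := by
    rw [hcdef, Matrix.mulVec_mulVec, Matrix.mul_nonsing_inv _ (isUnit_iff_ne_zero.2 hdet),
      Matrix.one_mulVec]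
  set S := ∑ i, ‖c i‖ ^ 2 with hS
  have hS0 : 0 < S := by
    have h1 := hqQ_le hPc hP ha hv1 c
    rw [huc] at h1
    exact lt_of_lt_of_le hpos h1
  have hbc := contOn_bb (v := v) hPc hP
  have hbn : ∀ ρ ∈ Ioo (0:ℝ) 1, 0 ≤ bb P v ρ := fun ρ hρ => ca_EE_nonneg hPc hP hv0 hρ.1 hρ.2
  have hib := int_bb hPc hP hC ha hb hc hv1 hvl
  have hyyc : Continuous yy := by unfold yy; fun_prop
  have hexpc : ContinuousOn (fun ρ => exp (-(yy (bb P v ρ)))) (Icc 0 1) :=
    continuous_exp.comp_continuousOn (hyyc.comp_continuousOn hbc).neg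
  -- first weight
  have hI1 := exp_int (b := bb P v) (k := fun ρ => 4 * ρ ^ 3) hB0 hbc hbn hib
    (by fun_prop) (fun ρ hρ => ⟨by have := hρ.1; positivity, by
      have h1 := hρ.1; have h2 := hρ.2
      nlinarith [mul_pos h1 h1, mul_pos h1 (mul_pos (sub_pos.2 h2) (by linarith : 0 < 1 + ρ))]⟩)
    int_two_rho
  have hI2 := exp_int (b := bb P v) (k := fun ρ => 4 * ρ * (1 - ρ ^ 2)) hB0 hbc hbn hib
    (by fun_prop) (fun ρ hρ => ⟨by
      have h1 := hρ.1; have h2 := hρ.2
      have : 0 < 1 - ρ ^ 2 := by nlinarith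
      positivity, by
      have h1 := hρ.1
      nlinarith [mul_pos h1 (mul_pos h1 h1)]⟩)
    int_two_rho'
  rw [← xx_eq, ← hx] at hI1 hI2
  -- (A): the centre
  have hA : hq Q (u 0) + S / 2 * x ≤ S := by
    have h1 := ha' ha hv1 c
    rw [huc] at h1
    have h2 := polar_weight (k := fun ρ => ρ ^ 2) zero_lt_one (contOn_hqv (v := v) hPc c)
      (by fun_prop)
    have h3 : S / 2 * (∫ ρ in (0:ℝ)..1, 4 * ρ ^ 3 * exp (-(yy (bb P v ρ)))) ≤
        ∫ ρ in (0:ℝ)..1, 2 * ρ * ρ ^ 2 *
          circleAverage (fun z => hq (P z) ((vz v z).mulVec c)) 0 ρ := by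
      rw [← intervalIntegral.integral_const_mul]
      refine intervalIntegral.integral_mono_on_of_le_Ioo zero_le_one ?_ ?_ fun ρ hρ => ?_
      · refine ContinuousOn.intervalIntegrable ?_
        rw [uIcc_of_le zero_le_one]
        exact continuousOn_const.mul
          ((by fun_prop : Continuous fun ρ : ℝ => 4 * ρ ^ 3).continuousOn.mul hexpc)
      · refine ContinuousOn.intervalIntegrable ?_
        rw [uIcc_of_le zero_le_one]
        exact (by fun_prop : Continuous fun ρ : ℝ => 2 * ρ * ρ ^ 2).continuousOn.mul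
          (contOn_ca (contOn_hqv hPc c))
      · have h4 := circle_const (v := v) hPc hP hv0 hρ.1 hρ.2 c hS0
        have h5 : 0 ≤ 2 * ρ * ρ ^ 2 := by have := hρ.1; positivity
        have h6 := mul_le_mul_of_nonneg_left h4 h5
        refine le_trans (le_of_eq ?_) h6
        rw [← hS]; ring
    have h7 : S / 2 * x ≤ S / 2 * (∫ ρ in (0:ℝ)..1, 4 * ρ ^ 3 * exp (-(yy (bb P v ρ)))) :=
      mul_le_mul_of_nonneg_left hI1 (by positivity)
    rw [h2] at h1
    linarith
  -- (C): the cost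
  have hCost : S / 2 * exp (-d) * x ≤
      ∫ z in ball (0:ℂ) 1, (1 - ‖z‖ ^ 2) / Real.pi * hq (P z) (u z) := by
    set F : ℝ → ℝ := fun R => ∫ ρ in (0:ℝ)..R, 4 * ρ * (1 - ρ ^ 2) * exp (-(yy (bb P v ρ))) with hF
    have hq0 : ∀ z ∈ ball (0:ℂ) 1, 0 ≤ (1 - ‖z‖ ^ 2) / Real.pi * hq (P z) (u z) := by
      intro z hz
      have h2 : 0 ≤ hq (P z) (u z) :=
        quad_nonneg (hP z (ball_subset_closedBall hz)).posSemidef _
      rw [mem_ball_zero_iff] at hz
      have h3 : 0 ≤ 1 - ‖z‖ ^ 2 := by nlinarith [norm_nonneg z]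
      have := pi_pos
      positivity
    have hRle : ∀ R ∈ Ioo (0:ℝ) 1, S / 2 * exp (-d) * F R ≤
        ∫ z in ball (0:ℂ) 1, (1 - ‖z‖ ^ 2) / Real.pi * hq (P z) (u z) := by
      intro R hR
      have hsub : closedBall (0:ℂ) R ⊆ ball 0 1 := closedBall_subset_ball hR.2
      have hsub' : closedBall (0:ℂ) R ⊆ closedBall 0 1 := closedBall_subset_closedBall hR.2.le
      have huR : ContinuousOn (fun z => hq (P z) (u z)) (closedBall (0:ℂ) R) :=
        continuousOn_hq (hPc.mono hsub') (hu.continuousOn.mono hsub)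
      have h1 := polar_weight (k := fun ρ => 1 - ρ ^ 2) hR.1 huR (by fun_prop)
      have h2 : ∫ z in ball (0:ℂ) R, (1 - ‖z‖ ^ 2) / Real.pi * hq (P z) (u z) ≤
          ∫ z in ball (0:ℂ) 1, (1 - ‖z‖ ^ 2) / Real.pi * hq (P z) (u z) := by
        refine setIntegral_mono_set hint ?_ ?_
        · filter_upwards [ae_restrict_mem measurableSet_ball] with z hz
          exact hq0 z hz
        · exact (ball_subset_ball hR.2.le).eventuallyLE
      refine le_trans ?_ h2
      rw [h1, hF]
      simp only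
      rw [← intervalIntegral.integral_const_mul]
      have hcaR : ContinuousOn (circleAverage (fun z => hq (P z) (u z)) 0) (Icc 0 R) := by
        refine ContinuousOn.circleAverage (huR.mono ?_) fun r hr => hr.1
        intro z hz
        rw [mem_closedBall_zero_iff]
        have : ‖z - 0‖ ∈ Icc (0:ℝ) R := hz
        rw [sub_zero] at this
        exact this.2
      refine intervalIntegral.integral_mono_on_of_le_Ioo hR.1.le ?_ ?_ fun ρ hρ => ?_
      · refine ContinuousOn.intervalIntegrable ?_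
        rw [uIcc_of_le hR.1.le]
        exact continuousOn_const.mul
          ((by fun_prop : Continuous fun ρ : ℝ => 4 * ρ * (1 - ρ ^ 2)).continuousOn.mul
            (hexpc.mono (Icc_subset_Icc_right hR.2.le)))
      · refine ContinuousOn.intervalIntegrable ?_
        rw [uIcc_of_le hR.1.le]
        exact (by fun_prop : Continuous fun ρ : ℝ => 2 * ρ * (1 - ρ ^ 2)).continuousOn.mul hcaR
      · have hρ1 : ρ < 1 := hρ.2.trans hR.2
        have h3 : 2 * circleAverage (fun z => Real.log ‖v.det.eval z‖) 0 ρ ≤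
            2 * Real.log ‖v.det.eval 0‖ + d := by
          have := hvu ρ hρ.1 hρ1.le
          linarith
        have h4 := circle_hol (v := v) hPc hP hv0 hρ.1 hρ1 hu h3 c hS0 huc
        have h5 : 0 ≤ 2 * ρ * (1 - ρ ^ 2) := by
          have h6 := hρ.1
          have : 0 < 1 - ρ ^ 2 := by nlinarith
          positivity
        have h6 := mul_le_mul_of_nonneg_left h4 h5
        refine le_trans (le_of_eq ?_) h6
        have he : exp (-(yy (bb P v ρ)) - d) = exp (-(yy (bb P v ρ))) * exp (-d) := by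
          rw [← exp_add, sub_eq_add_neg]
        rw [← hS, he]; ring
    have hFc : ContinuousOn F (Icc 0 1) := by
      have h1 : IntegrableOn (fun ρ => 4 * ρ * (1 - ρ ^ 2) * exp (-(yy (bb P v ρ)))) (uIcc 0 1) := by
        rw [uIcc_of_le zero_le_one]
        refine ContinuousOn.integrableOn_Icc ?_
        exact (by fun_prop : Continuous fun ρ : ℝ => 4 * ρ * (1 - ρ ^ 2)).continuousOn.mul hexpc
      have h2 := intervalIntegral.continuousOn_primitive_interval h1
      rwa [uIcc_of_le zero_le_one] at h2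
    have hlim : Tendsto (fun R => S / 2 * exp (-d) * F R) (𝓝[<] 1) (𝓝 (S / 2 * exp (-d) * F 1)) := by
      refine Tendsto.const_mul _ ?_
      have h1 := (hFc 1 (right_mem_Icc.2 zero_le_one)).tendsto
      refine h1.mono_left ?_
      rw [nhdsWithin_le_iff]
      filter_upwards [Ioo_mem_nhdsLT (zero_lt_one (α := ℝ))] with R hR
      exact Ioo_subset_Icc_self hR
    have h8 := le_of_tendsto hlim (by
      filter_upwards [Ioo_mem_nhdsLT (zero_lt_one (α := ℝ))] with R hR
      exact hRle R hR)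
    refine le_trans ?_ h8
    exact mul_le_mul_of_nonneg_left hI2 (by positivity)
  refine le_trans ?_ hCost
  have h2x : 0 < 2 - x := by linarith
  have h9 : hq Q (u 0) ≤ S * (2 - x) / 2 := by linarith
  have h10 : hq Q (u 0) * (x / (2 - x)) ≤ S / 2 * x := by
    rw [mul_div_assoc', div_le_iff₀ h2x]
    nlinarith [mul_le_mul_of_nonneg_right h9 hx0.le]
  calc exp (-d) * (hq Q (u 0) * (x / (2 - x))) ≤ exp (-d) * (S / 2 * x) :=
        mul_le_mul_of_nonneg_left h10 (exp_nonneg _)
    _ = S / 2 * exp (-d) * x := by ring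

end

end

/-- **CORE of XRA**: the lower bound of the cost -/
theorem core {n : ℕ} (P : ℂ → Matrix (Fin n) (Fin n) ℂ) (hPc : ContinuousOn P (closedBall 0 1))
    (hP : ∀ z ∈ closedBall (0:ℂ) 1, (P z).PosDef) (u : ℂ → Cm n)
    (hu : DifferentiableOn ℂ u (ball 0 1)) (Q : Matrix (Fin n) (Fin n) ℂ) (_hQ : Q.PosSemidef)
    (C τ : ℝ) (hC : 0 ≤ C) (hτ : 0 ≤ τ)
    (ha : ∀ p : Fin n → Polynomial ℂ, hq Q (fun i => (p i).eval 0) +
      ∫ z in ball (0:ℂ) 1, ‖z‖ ^ 2 / Real.pi * hq (P z) (fun i => (p i).eval z) ≤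
        Real.circleAverage (fun z => hq (P z) (fun i => (p i).eval z)) 0 1)
    (hb : ∀ p : Fin n → Polynomial ℂ,
      ∫ z in ball (0:ℂ) 1, 1 / Real.pi * hq (P z) (fun i => (p i).eval z) ≤
        Real.circleAverage (fun z => hq (P z) (fun i => (p i).eval z)) 0 1 +
          C * hq Q (fun i => (p i).eval 0))
    (hc : Real.circleAverage (fun z => Real.log (P z).det.re) 0 1 - τ ≤
      ∫ z in ball (0:ℂ) 1, 1 / Real.pi * Real.log (P z).det.re)
    (hint : IntegrableOn (fun z => (1 - ‖z‖ ^ 2) / Real.pi * hq (P z) (u z)) (ball 0 1))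
    (hpos : 0 < hq Q (u 0)) :
    hq Q (u 0) * (xx (n * C + τ) / (2 - xx (n * C + τ))) ≤
      ∫ z in ball (0:ℂ) 1, (1 - ‖z‖ ^ 2) / Real.pi * hq (P z) (u z) := by
  have hsub : sphere (0:ℂ) 1 ⊆ closedBall 0 1 := sphere_subset_closedBall
  have key : ∀ d : ℝ, 0 < d →
      exp (-d) * (hq Q (u 0) * (xx (n * C + τ + d) / (2 - xx (n * C + τ + d)))) ≤
        ∫ z in ball (0:ℂ) 1, (1 - ‖z‖ ^ 2) / Real.pi * hq (P z) (u z) := by
    intro d hd
    obtain ⟨v, hv1, hv0, hvl, hvr⟩ := szego_frame (hPc.mono hsub) (fun z hz => hP z (hsub hz)) hd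
    exact core_d hPc hP hC ha hb hc hv1 hv0 hvl hτ hd (fun r h0 h1 => (hvr r h0 h1).2.2) hu hint hpos
  have hB0 : 0 ≤ n * C + τ := by positivity
  have hx1 : xx (n * C + τ) ≤ 1 := by
    rw [xx_eq, exp_le_one_iff]
    linarith [yy_nonneg hB0]
  have hxc : Continuous xx := by unfold xx; fun_prop
  have h1 : ContinuousAt (fun d : ℝ => exp (-d) *
      (hq Q (u 0) * (xx (n * C + τ + d) / (2 - xx (n * C + τ + d))))) 0 := by
    have h2 : ContinuousAt (fun d : ℝ => xx (n * C + τ + d)) 0 := by fun_prop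
    refine ContinuousAt.mul (by fun_prop) (continuousAt_const.mul (h2.div
      (continuousAt_const.sub h2) ?_))
    simp only [add_zero]
    linarith
  have h3 : Tendsto (fun d : ℝ => exp (-d) *
      (hq Q (u 0) * (xx (n * C + τ + d) / (2 - xx (n * C + τ + d))))) (𝓝[>] 0)
      (𝓝 (hq Q (u 0) * (xx (n * C + τ) / (2 - xx (n * C + τ))))) := by
    have h4 := h1.tendsto.mono_left (nhdsWithin_le_nhds (s := Ioi (0:ℝ)))
    simpa using h4
  exact le_of_tendsto h3 (by filter_upwards [self_mem_nhdsWithin] with d hd using key d hd)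

end Vale.Agent.P272.XT
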