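import Vale.Agent.P272.XT.Defs
import Vale.Agent.P272.XT.MaxK

/-! Block X4: maximisers of `|f'(0)|²_w - lam ∫_D (1-|z|²)/π |f'|²_{w'}` over all holomorphic discs;
the inequality given by a competitor. -/

open scoped Manifold ContDiff ComplexOrder Topology ENNReal
open Complex Set Filter Metric MeasureTheory

set_option linter.all false

noncomputable section

namespace Vale.Agent.P272.XT

open Vale.Agent.P272.K Vale.Agent.P272.HY Vale.Agent.P272.BR

/-- the weight `(1-|z|²)/π` -/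
def wt (z : ℂ) : ℝ := (1 - ‖z‖ ^ 2) / Real.pi

lemma measurable_wt : Measurable wt := by
  unfold wt
  exact ((measurable_const.sub (measurable_norm.pow_const 2)).div_const _)

lemma continuous_wt : Continuous wt := by
  unfold wt
  fun_prop

lemma wt_nonneg {z : ℂ} (hz : z ∈ ball (0:ℂ) 1) : 0 ≤ wt z := by
  have h1 : ‖z‖ < 1 := by simpa using hz
  unfold wt
  have : ‖z‖ ^ 2 ≤ 1 := by nlinarith [norm_nonneg z]
  exact div_nonneg (by linarith) Real.pi_pos.le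

lemma wt_le {z : ℂ} : wt z ≤ 1 / Real.pi := by
  unfold wt
  exact div_le_div_of_nonneg_right (by nlinarith [sq_nonneg ‖z‖]) Real.pi_pos.le

lemma wt_ge {z : ℂ} (hz : z ∈ ball (0:ℂ) 1) : (1 - ‖z‖) / Real.pi ≤ wt z := by
  have h1 : ‖z‖ < 1 := by simpa using hz
  unfold wt
  exact div_le_div_of_nonneg_right (by nlinarith [norm_nonneg z]) Real.pi_pos.le

lemma wt_le_comp {z u : ℂ} (h : ‖u‖ ≤ ‖z‖) : wt z ≤ wt u := by
  unfold wt
  refine div_le_div_of_nonneg_right ?_ Real.pi_pos.le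
  nlinarith [norm_nonneg z, norm_nonneg u]

section
variable {n : ℕ} {X : Type*} [TopologicalSpace X] [ChartedSpace (Cm n) X]
  {w w' : Chart n X → Cm n → Matrix (Fin n) (Fin n) ℂ} {f : ℂ → X} {lam : ℝ}

lemma TW_eq (w : Chart n X → Cm n → Matrix (Fin n) (Fin n) ℂ) (f : ℂ → X) :
    TW w f = TK wt w f := rfl

lemma PhX_eq (w w' : Chart n X → Cm n → Matrix (Fin n) (Fin n) ℂ) (lam : ℝ) (f : ℂ → X) :
    PhX w w' lam f = PhK wt w w' lam f := rfl

variable [IsManifold 𝓘(ℂ, Cm n) ω X]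

lemma TW_const (w : Chart n X → Cm n → Matrix (Fin n) (Fin n) ℂ) (x : X) :
    TW w (fun _ => x) = 0 := TK_const wt w x

lemma PhX_const (w w' : Chart n X → Cm n → Matrix (Fin n) (Fin n) ℂ) (lam : ℝ) (x : X) :
    PhX w w' lam (fun _ => x) = 0 := PhK_const wt w w' lam x

lemma holD_const (x : X) : HolD n (fun _ : ℂ => x) := holOn_const x _

/-- the maximum is nonnegative -/
lemma IsMaxX.nonneg (hf : IsMaxX w w' lam f) : 0 ≤ PhX w w' lam f := by
  have h1 := hf.max _ (holD_const (f 0)) (by rw [TW_const]; simp)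
  rwa [PhX_const] at h1

/-- `lam T(f) ≤ |f'(0)|²` at a maximiser -/
lemma IsMaxX.cost_le (hf : IsMaxX w w' lam f) : lam * (TW w' f).toReal ≤ BR.spd w f 0 := by
  have := hf.nonneg
  unfold PhX at this
  linarith

/-- `T(f)` as a Bochner integral -/
lemma TW_toReal (hw' : IsHermitian w') (hf : HolD n f) :
    (TW w' f).toReal = ∫ z in ball (0:ℂ) 1, (1 - ‖z‖ ^ 2) / Real.pi * BR.spd w' f z := by
  rw [integral_eq_lintegral_of_nonneg_ae]
  · rfl
  · exact (ae_restrict_iff' measurableSet_ball).2 (Eventually.of_forall fun z hz =>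
      mul_nonneg (wt_nonneg hz) (spd_nonneg hw' _ _))
  · exact (measurable_wt.aemeasurable.mul (aemeasurable_spd hw' hf)).aestronglyMeasurable

lemma TW_integrable (hw' : IsHermitian w') (hf : HolD n f) (hT : TW w' f ≠ ⊤) :
    IntegrableOn (fun z => (1 - ‖z‖ ^ 2) / Real.pi * BR.spd w' f z) (ball (0:ℂ) 1) := by
  refine ⟨(measurable_wt.aemeasurable.mul (aemeasurable_spd hw' hf)).aestronglyMeasurable, ?_⟩
  rw [hasFiniteIntegral_iff_ofReal]
  · exact lt_top_iff_ne_top.2 hT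
  · exact (ae_restrict_iff' measurableSet_ball).2 (Eventually.of_forall fun z hz =>
      mul_nonneg (wt_nonneg hz) (spd_nonneg hw' _ _))

/-- the exact change of variables for a competitor `f ∘ φ`, `|φ z| ≤ |z|`, `φ` injective -/
theorem TW_comp_add {φ : ℂ → ℂ} (hw' : IsHermitian w') (hf : HolD n f)
    (hd : DifferentiableOn ℂ φ (ball (0:ℂ) 1)) (hinj : InjOn φ (ball (0:ℂ) 1))
    (hle : ∀ z ∈ ball (0:ℂ) 1, ‖φ z‖ ≤ ‖z‖) :
    TW w' (fun z => f (φ z)) +
      (∫⁻ z in ball (0:ℂ) 1, ENNReal.ofReal ((wt (φ z) - wt z) *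
        (‖deriv φ z‖ ^ 2 * BR.spd w' f (φ z)))) +
      ∫⁻ z in ball (0:ℂ) 1 \ φ '' ball (0:ℂ) 1, ENNReal.ofReal (wt z * BR.spd w' f z) =
    TW w' f :=
  TK_comp_add measurable_wt (fun z hz => wt_nonneg hz) (fun z hz => wt_le_comp (hle z hz)) hw' hf
    hd hinj (fun z hz => by
      have h1 : ‖z‖ < 1 := by simpa using hz
      simpa using lt_of_le_of_lt (hle z hz) h1)

/-- a competitor has smaller `T` -/
theorem TW_comp_le {φ : ℂ → ℂ} (hw' : IsHermitian w') (hf : HolD n f) (hfin : TW w' f ≠ ⊤)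
    (hd : DifferentiableOn ℂ φ (ball (0:ℂ) 1)) (hinj : InjOn φ (ball (0:ℂ) 1))
    (hle : ∀ z ∈ ball (0:ℂ) 1, ‖φ z‖ ≤ ‖z‖) {A : Set ℂ} (hA : MeasurableSet A)
    (hA1 : A ⊆ ball (0:ℂ) 1) (hA2 : ∀ z ∈ ball (0:ℂ) 1, φ z ∉ A) :
    TW w' (fun z => f (φ z)) ≠ ⊤ ∧
    (TW w' (fun z => f (φ z))).toReal + ∫ z in A, (1 - ‖z‖ ^ 2) / Real.pi * BR.spd w' f z ≤
      (TW w' f).toReal := by
  have := TK_comp_le measurable_wt (fun z hz => wt_nonneg hz)
    (fun z hz => wt_le_comp (hle z hz)) hw' hf (lt_top_iff_ne_top.2 hfin) hd hinj (fun z hz => by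
      have h1 : ‖z‖ < 1 := by simpa using hz
      simpa using lt_of_le_of_lt (hle z hz) h1) hA hA1 hA2
  exact ⟨this.1.ne, this.2⟩

/-- **competitor inequality at a maximiser**: if `φ` is injective holomorphic, `|φ z| ≤ |z|` and
`φ` avoids `A`, then `lam ∫_A (1-|z|²)/π |f'|²_{w'} ≤ (1 - |φ'(0)|²) |f'(0)|²_w` -/
theorem IsMaxX.comp_le {φ : ℂ → ℂ} (hlam : 0 ≤ lam) (hw' : IsHermitian w')
    (hf : IsMaxX w w' lam f)
    (hd : DifferentiableOn ℂ φ (ball (0:ℂ) 1)) (hinj : InjOn φ (ball (0:ℂ) 1))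
    (hle : ∀ z ∈ ball (0:ℂ) 1, ‖φ z‖ ≤ ‖z‖) {A : Set ℂ} (hA : MeasurableSet A)
    (hA1 : A ⊆ ball (0:ℂ) 1) (hA2 : ∀ z ∈ ball (0:ℂ) 1, φ z ∉ A) :
    lam * ∫ z in A, (1 - ‖z‖ ^ 2) / Real.pi * BR.spd w' f z ≤
      (1 - ‖deriv φ 0‖ ^ 2) * BR.spd w f 0 := by
  have h0 : φ 0 = 0 := by
    have := hle 0 (by simp)
    simpa using this
  exact max_compK (k := wt) measurable_wt (fun z hz => wt_nonneg hz)
    (fun z hz => wt_le_comp (hle z hz)) hlam hw' hf.holo (lt_top_iff_ne_top.2 hf.fin)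
    (fun g hg _ hgf => hf.max g hg hgf.ne) hd hinj (fun z hz => by
      have h1 : ‖z‖ < 1 := by simpa using hz
      simpa using lt_of_le_of_lt (hle z hz) h1) h0 hA hA1 hA2

end

/-- **X4** -/
theorem x4 (n : ℕ) (X : Type) [TopologicalSpace X] [T2Space X] [CompactSpace X]
    [ChartedSpace (Cm n) X] [IsManifold 𝓘(ℂ, Cm n) ω X] : X4 n X := by
  intro hne w w' hw hw' lam M hlam hM
  haveI := hne
  have hM' : DiscBound w M := discBound_of_zero hM
  obtain ⟨f, hf, hfin, hmax⟩ := exists_maxK (k := wt) measurable_wt hw hw' hM' hlam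
  exact ⟨f, hf, hfin.ne, fun h hh hhf => hmax h hh (lt_top_iff_ne_top.2 hhf)⟩

end Vale.Agent.P272.XT
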